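import Mathlib.Algebra.Group.Subgroup.Basic
import Mathlib.Algebra.Group.Subgroup.Map
import Mathlib.Algebra.Group.Prod
import Mathlib.Algebra.BigOperators.Group.Finset.Basic
import Mathlib.Algebra.BigOperators.Intervals
import Mathlib.Algebra.Order.BigOperators.Group.Finset
import Mathlib.Tactic.Abel
import Mathlib.Tactic.Ring
import Mathlib.Tactic.Linarith

/-!
# P221 (helper626): Koszul complexes of graded groups with commuting operators

`F` an additive group with operators `x a : F →+ F`, `gr k` subgroups.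

* `KC F r` : the chains of the Koszul complex of `x 0, …, x (r - 1)`; `kd x r` the differential;
* `KG gr dg r s t` : the chains of homological degree `s` and internal degree `t`;
* `Ex x gr dg r s t` : the complex is exact in homological degree `s` and internal degree `t`;
* `ex_mid`, `ex_right`, `ex_left` : exact sequences;
* `ex_succ`, `ex_of_reg` : regular sequences.
-/

namespace Vale.Agent.P221.H626

/-- the chains -/
def KC (F : Type*) : ℕ → Type _
  | 0 => F
  | r + 1 => KC F r × KC F r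

/-- the group structure -/
@[instance_reducible]
def kcGrp (F : Type*) [AddCommGroup F] : ∀ r, AddCommGroup (KC F r)
  | 0 => inferInstanceAs (AddCommGroup F)
  | r + 1 =>
    haveI := kcGrp F r
    inferInstanceAs (AddCommGroup (KC F r × KC F r))

instance (F : Type*) [AddCommGroup F] (r : ℕ) : AddCommGroup (KC F r) := kcGrp F r

section

variable {F F' F'' : Type*} [AddCommGroup F] [AddCommGroup F'] [AddCommGroup F'']

/-- the pair -/
def pr {r : ℕ} (u w : KC F r) : KC F (r + 1) := (u, w)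

/-- the projections -/
def fs (r : ℕ) : KC F (r + 1) →+ KC F r := AddMonoidHom.fst (KC F r) (KC F r)

/-- the projections -/
def sn (r : ℕ) : KC F (r + 1) →+ KC F r := AddMonoidHom.snd (KC F r) (KC F r)

@[simp] theorem fs_pr {r : ℕ} (u w : KC F r) : fs r (pr u w) = u := rfl
@[simp] theorem sn_pr {r : ℕ} (u w : KC F r) : sn r (pr u w) = w := rfl

theorem pr_ext {r : ℕ} {z z' : KC F (r + 1)} (h : fs r z = fs r z') (h' : sn r z = sn r z') :
    z = z' := Prod.ext h h'

theorem pr_eta {r : ℕ} (z : KC F (r + 1)) : pr (fs r z) (sn r z) = z := rfl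

/-- the map induced by a homomorphism -/
def kmap (f : F →+ F') : ∀ r, KC F r →+ KC F' r
  | 0 => f
  | r + 1 => (kmap f r).prodMap (kmap f r)

@[simp] theorem kmap_zero_apply (f : F →+ F') (z : F) : kmap f 0 z = f z := rfl
@[simp] theorem fs_kmap (f : F →+ F') {r : ℕ} (z : KC F (r + 1)) :
    fs r (kmap f (r + 1) z) = kmap f r (fs r z) := rfl
@[simp] theorem sn_kmap (f : F →+ F') {r : ℕ} (z : KC F (r + 1)) :
    sn r (kmap f (r + 1) z) = kmap f r (sn r z) := rfl

theorem kmap_kmap (f : F →+ F') (g : F' →+ F'') {r : ℕ} (z : KC F r) :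
    kmap g r (kmap f r z) = kmap (g.comp f) r z := by
  induction r with
  | zero => rfl
  | succ r ih => exact pr_ext (ih _) (ih _)

theorem kmap_comm {G : Type*} [AddCommGroup G] {f : F →+ F'} {g : F' →+ F''} {f' : F →+ G}
    {g' : G →+ F''} (h : ∀ z, g (f z) = g' (f' z)) {r : ℕ} (z : KC F r) :
    kmap g r (kmap f r z) = kmap g' r (kmap f' r z) := by
  rw [kmap_kmap, kmap_kmap]
  congr 1
  have : g.comp f = g'.comp f' := AddMonoidHom.ext h
  rw [this]

/-- the differential -/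
def kd (x : ℕ → F →+ F) : ∀ r, KC F r →+ KC F r
  | 0 => 0
  | r + 1 => ((kd x r).comp (fs r) + (kmap (x r) r).comp (sn r)).prod (-(kd x r).comp (sn r))

@[simp] theorem kd_zero_apply (x : ℕ → F →+ F) (z : KC F 0) : kd x 0 z = 0 := rfl
@[simp] theorem fs_kd (x : ℕ → F →+ F) {r : ℕ} (z : KC F (r + 1)) :
    fs r (kd x (r + 1) z) = kd x r (fs r z) + kmap (x r) r (sn r z) := rfl
@[simp] theorem sn_kd (x : ℕ → F →+ F) {r : ℕ} (z : KC F (r + 1)) :
    sn r (kd x (r + 1) z) = -kd x r (sn r z) := rfl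

variable {x : ℕ → F →+ F} {x' : ℕ → F' →+ F'}

/-- maps commute with the differentials -/
theorem kmap_kd {f : F →+ F'} (h : ∀ a z, f (x a z) = x' a (f z)) {r : ℕ} (z : KC F r) :
    kmap f r (kd x r z) = kd x' r (kmap f r z) := by
  induction r with
  | zero => exact map_zero f
  | succ r ih =>
    refine pr_ext ?_ ?_
    · rw [fs_kmap, fs_kd, fs_kd, map_add, ih, fs_kmap, sn_kmap, kmap_comm (h r)]
    · rw [sn_kmap, sn_kd, sn_kd, map_neg, ih, sn_kmap]

variable (hx : ∀ a b z, x a (x b z) = x b (x a z))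

include hx in
theorem kd_op (a : ℕ) {r : ℕ} (z : KC F r) :
    kmap (x a) r (kd x r z) = kd x r (kmap (x a) r z) := kmap_kd (hx a) z

include hx in
theorem kd_kd {r : ℕ} (z : KC F r) : kd x r (kd x r z) = 0 := by
  induction r with
  | zero => rfl
  | succ r ih =>
    refine pr_ext ?_ ?_
    · rw [fs_kd, fs_kd, sn_kd, map_add, ih, map_neg, kd_op hx, zero_add]
      exact add_neg_cancel _
    · rw [sn_kd, sn_kd, map_neg, ih, neg_zero, neg_zero]
      rfl

/-- the bigrading -/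
def KG (gr : ℤ → AddSubgroup F) (dg : ℕ → ℤ) : ∀ r, ℤ → ℤ → AddSubgroup (KC F r)
  | 0, s, t => if s = 0 then gr t else ⊥
  | r + 1, s, t => (KG gr dg r s t).comap (fs r) ⊓ (KG gr dg r (s - 1) (t - dg r)).comap (sn r)

variable {gr : ℤ → AddSubgroup F} {gr' : ℤ → AddSubgroup F'} {gr'' : ℤ → AddSubgroup F''}
  {dg : ℕ → ℤ}

theorem mem_KG_zero {s t : ℤ} (hs : s ≠ 0) {z : KC F 0} (hz : z ∈ KG gr dg 0 s t) : z = 0 := by
  change z ∈ (if s = 0 then gr t else ⊥ : AddSubgroup F) at hz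
  rw [if_neg hs] at hz
  exact hz

theorem KG_zero_zero (t : ℤ) : KG gr dg 0 0 t = gr t := rfl

theorem mem_KG_succ {r : ℕ} {s t : ℤ} {z : KC F (r + 1)} : z ∈ KG gr dg (r + 1) s t ↔
    fs r z ∈ KG gr dg r s t ∧ sn r z ∈ KG gr dg r (s - 1) (t - dg r) := Iff.rfl

theorem KG_neg {r : ℕ} {s t : ℤ} (hs : s < 0) {z : KC F r} (hz : z ∈ KG gr dg r s t) : z = 0 := by
  induction r generalizing s t with
  | zero => exact mem_KG_zero (by omega) hz
  | succ r ih =>
    obtain ⟨h1, h2⟩ := mem_KG_succ.1 hz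
    exact pr_ext (ih hs h1) (ih (by omega) h2)

theorem KG_gt {r : ℕ} {s t : ℤ} (hs : (r : ℤ) < s) {z : KC F r} (hz : z ∈ KG gr dg r s t) :
    z = 0 := by
  induction r generalizing s t with
  | zero => exact mem_KG_zero (by push_cast at hs; omega) hz
  | succ r ih =>
    obtain ⟨h1, h2⟩ := mem_KG_succ.1 hz
    push_cast at hs
    exact pr_ext (ih (by omega) h1) (ih (by omega) h2)

/-- shifted gradings -/
theorem KG_shift (w : ℤ) {r : ℕ} {s t : ℤ} :
    KG (fun k => gr (k + w)) dg r s t = KG gr dg r s (t + w) := by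
  induction r generalizing s t with
  | zero => rfl
  | succ r ih =>
    change (KG (fun k => gr (k + w)) dg r s t).comap (fs r) ⊓
      (KG (fun k => gr (k + w)) dg r (s - 1) (t - dg r)).comap (sn r) =
        (KG gr dg r s (t + w)).comap (fs r) ⊓ (KG gr dg r (s - 1) (t + w - dg r)).comap (sn r)
    rw [ih, ih]
    have h1 : t - dg r + w = t + w - dg r := by ring
    rw [h1]

/-- maps of degree `e` -/
theorem kmap_mem {f : F →+ F'} {e : ℤ} (h : ∀ k, ∀ z ∈ gr k, f z ∈ gr' (k + e)) {r : ℕ} {s t : ℤ}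
    {z : KC F r} (hz : z ∈ KG gr dg r s t) : kmap f r z ∈ KG gr' dg r s (t + e) := by
  induction r generalizing s t with
  | zero =>
    change z ∈ (if s = 0 then gr t else ⊥ : AddSubgroup F) at hz
    change f z ∈ (if s = 0 then gr' (t + e) else ⊥ : AddSubgroup F')
    split_ifs with hs
    · rw [if_pos hs] at hz
      exact h t z hz
    · rw [if_neg hs] at hz
      have h1 : z = 0 := hz
      rw [h1]
      exact map_zero f
  | succ r ih =>
    obtain ⟨h1, h2⟩ := mem_KG_succ.1 hz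
    refine mem_KG_succ.2 ⟨ih h1, ?_⟩
    have h3 := ih h2
    have h4 : t - dg r + e = t + e - dg r := by ring
    rw [h4] at h3
    exact h3

/-- maps of degree zero -/
theorem kmap_mem' {f : F →+ F'} (h : ∀ k, ∀ z ∈ gr k, f z ∈ gr' k) {r : ℕ} {s t : ℤ}
    {z : KC F r} (hz : z ∈ KG gr dg r s t) : kmap f r z ∈ KG gr' dg r s t := by
  have h1 := kmap_mem (e := 0) (fun k z hz => by rw [add_zero]; exact h k z hz) hz
  rwa [add_zero] at h1

variable (hg : ∀ a k, ∀ z ∈ gr k, x a z ∈ gr (k + dg a))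

include hg in
theorem kd_mem {r : ℕ} {s t : ℤ} {z : KC F r} (hz : z ∈ KG gr dg r s t) :
    kd x r z ∈ KG gr dg r (s - 1) t := by
  induction r generalizing s t with
  | zero => exact AddSubgroup.zero_mem _
  | succ r ih =>
    obtain ⟨h1, h2⟩ := mem_KG_succ.1 hz
    refine mem_KG_succ.2 ⟨?_, ?_⟩
    · rw [fs_kd]
      refine AddSubgroup.add_mem _ (ih h1) ?_
      have h3 := kmap_mem (hg r) h2
      rwa [sub_add_cancel] at h3
    · rw [sn_kd]
      exact AddSubgroup.neg_mem _ (ih h2)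

variable (x gr dg) in
/-- the Koszul complex is exact in homological degree `s` and internal degree `t` -/
def Ex (r : ℕ) (s t : ℤ) : Prop :=
  ∀ z ∈ KG gr dg r s t, kd x r z = 0 → ∃ y ∈ KG gr dg r (s + 1) t, kd x r y = z

theorem Ex.shift {w : ℤ} {r : ℕ} {s t : ℤ} :
    Ex x (fun k => gr (k + w)) dg r s t ↔ Ex x gr dg r s (t + w) := by
  unfold Ex
  rw [KG_shift, KG_shift]

theorem ex_neg {r : ℕ} {s t : ℤ} (hs : s < 0) : Ex x gr dg r s t := fun z hz _ =>
  ⟨0, AddSubgroup.zero_mem _, by rw [map_zero, KG_neg hs hz]⟩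

theorem ex_gt {r : ℕ} {s t : ℤ} (hs : (r : ℤ) < s) : Ex x gr dg r s t := fun z hz _ =>
  ⟨0, AddSubgroup.zero_mem _, by rw [map_zero, KG_gt hs hz]⟩

/-- exactness if the group of chains vanishes -/
theorem ex_of_zero {r : ℕ} {s t : ℤ} (h : ∀ z ∈ KG gr dg r s t, z = 0) : Ex x gr dg r s t :=
  fun z hz _ => ⟨0, AddSubgroup.zero_mem _, by rw [map_zero, h z hz]⟩

/-! ### the last operator -/

include hx hg in
/-- exactness for `r + 1` operators from exactness for `r` operators -/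
theorem ex_succ {r : ℕ} {s t : ℤ} (h1 : Ex x gr dg r s t) (h2 : Ex x gr dg r (s - 1) (t - dg r)) :
    Ex x gr dg (r + 1) s t := by
  intro z hz hd
  obtain ⟨hu, hw⟩ := mem_KG_succ.1 hz
  have e1 : kd x r (fs r z) + kmap (x r) r (sn r z) = 0 := by
    rw [← fs_kd, hd, map_zero]
  have e2 : kd x r (sn r z) = 0 := by
    have h3 : sn r (kd x (r + 1) z) = 0 := by rw [hd, map_zero]
    rw [sn_kd] at h3
    exact neg_eq_zero.1 h3
  obtain ⟨w', hw', hw''⟩ := h2 _ hw e2
  rw [sub_add_cancel] at hw'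
  have hxw : kmap (x r) r w' ∈ KG gr dg r s t := by
    have h3 := kmap_mem (hg r) hw'
    rwa [sub_add_cancel] at h3
  obtain ⟨u', hu', hu''⟩ := h1 (fs r z + kmap (x r) r w') (AddSubgroup.add_mem _ hu hxw) (by
    rw [map_add, ← kd_op hx, hw'', e1])
  refine ⟨pr u' (-w'), mem_KG_succ.2 ⟨hu', ?_⟩, pr_ext ?_ ?_⟩
  · rw [sn_pr, add_sub_cancel_right]
    exact AddSubgroup.neg_mem _ hw'
  · rw [fs_kd, fs_pr, sn_pr, hu'', map_neg, add_neg_cancel_right]
  · rw [sn_kd, sn_pr, map_neg, neg_neg, hw'']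

/-- `x r` is injective on the homology in degree `s` -/
def InjH (x : ℕ → F →+ F) (gr : ℤ → AddSubgroup F) (dg : ℕ → ℤ) (y : F →+ F) (e : ℤ) (r : ℕ)
    (s t : ℤ) : Prop :=
  ∀ z ∈ KG gr dg r s t, kd x r z = 0 → (∃ u ∈ KG gr dg r (s + 1) (t + e),
    kd x r u = kmap y r z) → ∃ u ∈ KG gr dg r (s + 1) t, kd x r u = z

/-- `y` is onto on the homology in degree `s` -/
def SurH (x : ℕ → F →+ F) (gr : ℤ → AddSubgroup F) (dg : ℕ → ℤ) (y : F →+ F) (e : ℤ) (r : ℕ)
    (s t : ℤ) : Prop :=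
  ∀ z ∈ KG gr dg r s (t + e), kd x r z = 0 → ∃ w ∈ KG gr dg r s t, kd x r w = 0 ∧
    ∃ u ∈ KG gr dg r (s + 1) (t + e), z = kmap y r w + kd x r u

include hx hg in
/-- the long exact sequence of the last operator -/
theorem ex_succ_iff' {r : ℕ} {s t : ℤ} (h1 : SurH x gr dg (x r) (dg r) r s (t - dg r))
    (h2 : InjH x gr dg (x r) (dg r) r (s - 1) (t - dg r)) : Ex x gr dg (r + 1) s t := by
  intro z hz hd
  obtain ⟨hu, hw⟩ := mem_KG_succ.1 hz
  have e1 : kd x r (fs r z) + kmap (x r) r (sn r z) = 0 := by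
    rw [← fs_kd, hd, map_zero]
  have e2 : kd x r (sn r z) = 0 := by
    have h3 : sn r (kd x (r + 1) z) = 0 := by rw [hd, map_zero]
    rw [sn_kd] at h3
    exact neg_eq_zero.1 h3
  obtain ⟨w', hw', hw''⟩ := h2 _ hw e2 ⟨-fs r z, by
    rw [sub_add_cancel, sub_add_cancel]
    exact AddSubgroup.neg_mem _ hu, by
    rw [map_neg]
    exact neg_eq_of_add_eq_zero_right e1⟩
  rw [sub_add_cancel] at hw'
  have hxw : kmap (x r) r w' ∈ KG gr dg r s t := by
    have h3 := kmap_mem (hg r) hw'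
    rwa [sub_add_cancel] at h3
  -- `fs z + x w'` is a cycle
  have hc : kd x r (fs r z + kmap (x r) r w') = 0 := by
    rw [map_add, ← kd_op hx, hw'', e1]
  obtain ⟨w₂, hw₂, hw₂', u, hu', hu''⟩ := h1 (fs r z + kmap (x r) r w') (by
    rw [sub_add_cancel]
    exact AddSubgroup.add_mem _ hu hxw) hc
  rw [sub_add_cancel] at hu'
  refine ⟨pr u (w₂ - w'), mem_KG_succ.2 ⟨hu', ?_⟩, pr_ext ?_ ?_⟩
  · rw [sn_pr, add_sub_cancel_right]
    exact AddSubgroup.sub_mem _ hw₂ hw'
  · rw [fs_kd, fs_pr, sn_pr, map_sub, add_comm, sub_add_eq_add_sub, ← hu'', add_sub_cancel_right]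
  · rw [sn_kd, sn_pr, map_sub, hw₂', zero_sub, neg_neg, hw'']

/-- the converse -/
theorem injH_of_ex {r : ℕ} {s t : ℤ} (h : Ex x gr dg (r + 1) (s + 1) (t + dg r)) :
    InjH x gr dg (x r) (dg r) r s t := by
  intro z hz hd ⟨u, hu, hu'⟩
  obtain ⟨y, hy, hy'⟩ := h (pr (-u) z) (mem_KG_succ.2 ⟨AddSubgroup.neg_mem _ hu, by
    rw [sn_pr, add_sub_cancel_right, add_sub_cancel_right]
    exact hz⟩) (pr_ext (by
      rw [fs_kd, fs_pr, sn_pr, map_neg, hu', map_zero, neg_add_cancel]) (by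
      rw [sn_kd, sn_pr, hd, neg_zero, map_zero]))
  obtain ⟨h1, h2⟩ := mem_KG_succ.1 hy
  refine ⟨-sn r y, AddSubgroup.neg_mem _ ?_, ?_⟩
  · rwa [add_sub_cancel_right, add_sub_cancel_right] at h2
  · rw [map_neg, ← sn_kd, hy', sn_pr]

/-- the converse -/
theorem surH_of_ex {r : ℕ} {s t : ℤ} (h : Ex x gr dg (r + 1) s (t + dg r)) :
    SurH x gr dg (x r) (dg r) r s t := by
  intro z hz hd
  obtain ⟨y, hy, hy'⟩ := h (pr z 0) (mem_KG_succ.2 ⟨hz, AddSubgroup.zero_mem _⟩) (pr_ext (by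
      rw [fs_kd, fs_pr, sn_pr, hd, map_zero, map_zero, add_zero]) (by
      rw [sn_kd, sn_pr, map_zero, neg_zero, map_zero]))
  obtain ⟨h1, h2⟩ := mem_KG_succ.1 hy
  rw [add_sub_cancel_right, add_sub_cancel_right] at h2
  refine ⟨sn r y, h2, ?_, fs r y, h1, ?_⟩
  · have h3 : sn r (kd x (r + 1) y) = 0 := by rw [hy', sn_pr]
    rw [sn_kd] at h3
    exact neg_eq_zero.1 h3
  · have h3 : fs r (kd x (r + 1) y) = z := by rw [hy', fs_pr]
    rw [fs_kd] at h3
    rw [← h3, add_comm]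

/-! ### roots of the operators -/

theorem kd_congr {x y : ℕ → F →+ F} {r : ℕ} (h : ∀ b < r, x b = y b) : kd x r = kd y r := by
  induction r with
  | zero => rfl
  | succ r ih =>
    refine AddMonoidHom.ext fun z => pr_ext ?_ ?_
    · rw [fs_kd, fs_kd, ih fun b hb => h b (by omega), h r (by omega)]
    · rw [sn_kd, sn_kd, ih fun b hb => h b (by omega)]

theorem KG_congr {dg dg' : ℕ → ℤ} {r : ℕ} (h : ∀ b < r, dg b = dg' b) (s t : ℤ) :
    KG gr dg r s t = KG gr dg' r s t := by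
  induction r generalizing s t with
  | zero => rfl
  | succ r ih =>
    change (KG gr dg r s t).comap (fs r) ⊓ (KG gr dg r (s - 1) (t - dg r)).comap (sn r) =
      (KG gr dg' r s t).comap (fs r) ⊓ (KG gr dg' r (s - 1) (t - dg' r)).comap (sn r)
    rw [ih fun b hb => h b (by omega), ih fun b hb => h b (by omega), h r (by omega)]

/-- powers -/
def pw (y : F →+ F) : ℕ → F →+ F
  | 0 => AddMonoidHom.id F
  | i + 1 => y.comp (pw y i)

theorem pw_succ_apply (y : F →+ F) (i : ℕ) (z : F) : pw y (i + 1) z = y (pw y i z) := rfl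

theorem pw_comm {y w : F →+ F} (h : ∀ z, y (w z) = w (y z)) (i : ℕ) (z : F) :
    pw y i (w z) = w (pw y i z) := by
  induction i with
  | zero => rfl
  | succ i ih => rw [pw_succ_apply, pw_succ_apply, ih, h]

theorem pw_succ_apply' (y : F →+ F) (i : ℕ) (z : F) : pw y (i + 1) z = pw y i (y z) := by
  rw [pw_succ_apply, pw_comm (fun _ => rfl)]

theorem pw_mem {y : F →+ F} {e : ℤ} (h : ∀ k, ∀ z ∈ gr k, y z ∈ gr (k + e)) (i : ℕ) (k : ℤ)
    {z : F} (hz : z ∈ gr k) : pw y i z ∈ gr (k + i * e) := by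
  induction i with
  | zero =>
    have h1 : k + ((0 : ℕ) : ℤ) * e = k := by push_cast; ring
    rw [h1]
    exact hz
  | succ i ih =>
    have h1 := h _ _ ih
    have h2 : k + i * e + e = k + ((i + 1 : ℕ) : ℤ) * e := by push_cast; ring
    rw [h2] at h1
    exact h1

theorem kmap_pw_succ (y : F →+ F) (i : ℕ) {r : ℕ} (z : KC F r) :
    kmap (pw y (i + 1)) r z = kmap y r (kmap (pw y i) r z) := by
  rw [kmap_kmap]
  rfl

theorem kmap_pw_succ' (y : F →+ F) (i : ℕ) {r : ℕ} (z : KC F r) :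
    kmap (pw y (i + 1)) r z = kmap (pw y i) r (kmap y r z) := by
  rw [kmap_kmap]
  congr 1
  have : pw y (i + 1) = (pw y i).comp y := AddMonoidHom.ext fun z => pw_succ_apply' y i z
  rw [this]

section root

variable {y : F →+ F} {e : ℤ} (hy : ∀ a z, x a (y z) = y (x a z))
  (hye : ∀ k, ∀ z ∈ gr k, y z ∈ gr (k + e))

include hy in
theorem kd_pw (i : ℕ) {r : ℕ} (z : KC F r) :
    kd x r (kmap (pw y i) r z) = kmap (pw y i) r (kd x r z) :=
  (kmap_kd (fun a z => pw_comm (fun z => (hy a z).symm) i z) z).symm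

include hy hye in
theorem InjH.root {i r : ℕ} {s t : ℤ}
    (h : InjH x gr dg (pw y (i + 1)) ((i + 1 : ℕ) * e) r s t) : InjH x gr dg y e r s t := by
  intro z hz hd ⟨u, hu, hu'⟩
  refine h z hz hd ⟨kmap (pw y i) r u, ?_, ?_⟩
  · have h1 := kmap_mem (fun k z hz => pw_mem hye i k hz) hu
    have h2 : t + e + i * e = t + ((i + 1 : ℕ) : ℤ) * e := by push_cast; ring
    rwa [h2] at h1
  · rw [kd_pw hy, hu', kmap_pw_succ']

include hy hye in
theorem SurH.root {i r : ℕ} {s t : ℤ}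
    (h : SurH x gr dg (pw y (i + 1)) ((i + 1 : ℕ) * e) r s (t - i * e)) :
    SurH x gr dg y e r s t := by
  intro z hz hd
  have h2 : t - i * e + ((i + 1 : ℕ) : ℤ) * e = t + e := by push_cast; ring
  obtain ⟨w, hw, hwd, u, hu, hz'⟩ := h z (by rw [h2]; exact hz) hd
  rw [h2] at hu
  refine ⟨kmap (pw y i) r w, ?_, ?_, u, hu, ?_⟩
  · have h1 := kmap_mem (fun k z hz => pw_mem hye i k hz) hw
    rwa [sub_add_cancel] at h1
  · rw [kd_pw hy, hwd, map_zero]
  · rw [← kmap_pw_succ, hz']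

end root

/-- the transposition -/
def sw2 (r : ℕ) : KC F (r + 2) →+ KC F (r + 2) where
  toFun z := pr (pr (fs r (fs (r + 1) z)) (fs r (sn (r + 1) z)))
    (pr (sn r (fs (r + 1) z)) (-sn r (sn (r + 1) z)))
  map_zero' := pr_ext (pr_ext (by simp) (by simp)) (pr_ext (by simp) (by simp))
  map_add' z z' := pr_ext (pr_ext (by simp) (by simp))
    (pr_ext (by simp) (by simp; abel))

/-- the transposition of the operators `j` and `j + 1` -/
def sw (F : Type*) [AddCommGroup F] (j : ℕ) : ∀ k, KC F (j + 2 + k) →+ KC F (j + 2 + k)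
  | 0 => sw2 j
  | k + 1 => (sw F j k).prodMap (sw F j k)

theorem fs_sw (j k : ℕ) (z : KC F (j + 2 + k + 1)) :
    fs (j + 2 + k) (sw F j (k + 1) z) = sw F j k (fs (j + 2 + k) z) := rfl

theorem sn_sw (j k : ℕ) (z : KC F (j + 2 + k + 1)) :
    sn (j + 2 + k) (sw F j (k + 1) z) = sw F j k (sn (j + 2 + k) z) := rfl

theorem sw_sw (j k : ℕ) (z : KC F (j + 2 + k)) : sw F j k (sw F j k z) = z := by
  induction k with
  | zero =>
    refine pr_ext (pr_ext rfl rfl) (pr_ext rfl ?_)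
    exact neg_neg _
  | succ k ih => exact pr_ext (ih _) (ih _)

theorem sw_kmap (f : F →+ F) (j k : ℕ) (z : KC F (j + 2 + k)) :
    sw F j k (kmap f (j + 2 + k) z) = kmap f (j + 2 + k) (sw F j k z) := by
  induction k with
  | zero =>
    refine pr_ext (pr_ext rfl rfl) (pr_ext rfl ?_)
    exact (map_neg (kmap f j) _).symm
  | succ k ih => exact pr_ext (ih _) (ih _)

/-- the index transposition -/
def tr (j b : ℕ) : ℕ := if b = j then j + 1 else if b = j + 1 then j else b

theorem tr_lt {j b : ℕ} (h : b < j) : tr j b = b := by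
  unfold tr
  rw [if_neg (by omega), if_neg (by omega)]

theorem tr_gt {j b : ℕ} (h : j + 1 < b) : tr j b = b := by
  unfold tr
  rw [if_neg (by omega), if_neg (by omega)]

theorem tr_self (j : ℕ) : tr j j = j + 1 := if_pos rfl

theorem tr_succ (j : ℕ) : tr j (j + 1) = j := by
  unfold tr
  rw [if_neg (by omega), if_pos rfl]

theorem tr_tr (j b : ℕ) : tr j (tr j b) = b := by
  rcases lt_trichotomy b j with h | h | h
  · rw [tr_lt h, tr_lt h]
  · rw [h, tr_self, tr_succ]
  · rcases eq_or_lt_of_le (Nat.succ_le_of_lt h) with h1 | h1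
    · rw [← h1, Nat.succ_eq_add_one, tr_succ, tr_self]
    · rw [tr_gt h1, tr_gt h1]

theorem sw_kd (j k : ℕ) (z : KC F (j + 2 + k)) :
    kd (x ∘ tr j) (j + 2 + k) (sw F j k z) = sw F j k (kd x (j + 2 + k) z) := by
  induction k with
  | zero =>
    have h1 : kd (x ∘ tr j) j = kd x j := kd_congr fun b hb => by
      rw [Function.comp_apply, tr_lt hb]
    have h2 : (x ∘ tr j) j = x (j + 1) := by rw [Function.comp_apply, tr_self]
    have h3 : (x ∘ tr j) (j + 1) = x j := by rw [Function.comp_apply, tr_succ]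
    refine pr_ext (pr_ext ?_ ?_) (pr_ext ?_ ?_)
    · change kd (x ∘ tr j) j (fs j (fs (j + 1) z)) + kmap ((x ∘ tr j) j) j (fs j (sn (j + 1) z)) +
          kmap ((x ∘ tr j) (j + 1)) j (sn j (fs (j + 1) z)) =
        kd x j (fs j (fs (j + 1) z)) + kmap (x j) j (sn j (fs (j + 1) z)) +
          kmap (x (j + 1)) j (fs j (sn (j + 1) z))
      rw [h1, h2, h3]
      abel
    · change -kd (x ∘ tr j) j (fs j (sn (j + 1) z)) +
          kmap ((x ∘ tr j) (j + 1)) j (-sn j (sn (j + 1) z)) =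
        -(kd x j (fs j (sn (j + 1) z)) + kmap (x j) j (sn j (sn (j + 1) z)))
      rw [h1, h3, map_neg]
      abel
    · change -(kd (x ∘ tr j) j (sn j (fs (j + 1) z)) +
          kmap ((x ∘ tr j) j) j (-sn j (sn (j + 1) z))) =
        -kd x j (sn j (fs (j + 1) z)) + kmap (x (j + 1)) j (sn j (sn (j + 1) z))
      rw [h1, h2, map_neg]
      abel
    · change - -kd (x ∘ tr j) j (-sn j (sn (j + 1) z)) = - - -kd x j (sn j (sn (j + 1) z))
      rw [h1, map_neg]
  | succ k ih =>
    have h2 : (x ∘ tr j) (j + 2 + k) = x (j + 2 + k) := by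
      rw [Function.comp_apply, tr_gt (by omega)]
    refine pr_ext ?_ ?_
    · change kd (x ∘ tr j) (j + 2 + k) (sw F j k (fs (j + 2 + k) z)) +
          kmap ((x ∘ tr j) (j + 2 + k)) (j + 2 + k) (sw F j k (sn (j + 2 + k) z)) =
        sw F j k (kd x (j + 2 + k) (fs (j + 2 + k) z) +
          kmap (x (j + 2 + k)) (j + 2 + k) (sn (j + 2 + k) z))
      rw [ih, h2, ← sw_kmap, ← map_add]
    · change -kd (x ∘ tr j) (j + 2 + k) (sw F j k (sn (j + 2 + k) z)) =
        sw F j k (-kd x (j + 2 + k) (sn (j + 2 + k) z))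
      rw [ih, ← map_neg]

theorem sw_mem (j k : ℕ) {s t : ℤ} {z : KC F (j + 2 + k)} (hz : z ∈ KG gr dg (j + 2 + k) s t) :
    sw F j k z ∈ KG gr (dg ∘ tr j) (j + 2 + k) s t := by
  induction k generalizing s t with
  | zero =>
    have h1 : ∀ s t, KG gr (dg ∘ tr j) j s t = KG gr dg j s t := fun s t =>
      KG_congr (fun b hb => by rw [Function.comp_apply, tr_lt hb]) s t
    have h2 : (dg ∘ tr j) j = dg (j + 1) := by rw [Function.comp_apply, tr_self]
    have h3 : (dg ∘ tr j) (j + 1) = dg j := by rw [Function.comp_apply, tr_succ]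
    obtain ⟨⟨ha, hb⟩, hc, hd⟩ := hz
    refine ⟨⟨?_, ?_⟩, ?_, ?_⟩
    · change fs j (fs (j + 1) z) ∈ KG gr (dg ∘ tr j) j s t
      rw [h1]
      exact ha
    · change fs j (sn (j + 1) z) ∈ KG gr (dg ∘ tr j) j (s - 1) (t - (dg ∘ tr j) j)
      rw [h1, h2]
      exact hc
    · change sn j (fs (j + 1) z) ∈ KG gr (dg ∘ tr j) j (s - 1) (t - (dg ∘ tr j) (j + 1))
      rw [h1, h3]
      exact hb
    · change -sn j (sn (j + 1) z) ∈
        KG gr (dg ∘ tr j) j (s - 1 - 1) (t - (dg ∘ tr j) (j + 1) - (dg ∘ tr j) j)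
      rw [h1, h2, h3]
      have h4 : t - dg j - dg (j + 1) = t - dg (j + 1) - dg j := by ring
      rw [h4]
      exact AddSubgroup.neg_mem _ hd
  | succ k ih =>
    obtain ⟨h1, h2⟩ := mem_KG_succ.1 hz
    have h3 : (dg ∘ tr j) (j + 2 + k) = dg (j + 2 + k) := by
      rw [Function.comp_apply, tr_gt (by omega)]
    refine mem_KG_succ.2 ⟨ih h1, ?_⟩
    have h4 : sw F j k (sn (j + 2 + k) z) ∈
        KG gr (dg ∘ tr j) (j + 2 + k) (s - 1) (t - dg (j + 2 + k)) := ih h2
    rw [← h3] at h4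
    exact h4

theorem comp_tr_tr {α : Type*} (x : ℕ → α) (j : ℕ) : (x ∘ tr j) ∘ tr j = x :=
  funext fun b => congrArg x (tr_tr j b)

theorem Ex.swap {j k : ℕ} {s t : ℤ} (h : Ex x gr dg (j + 2 + k) s t) :
    Ex (x ∘ tr j) gr (dg ∘ tr j) (j + 2 + k) s t := by
  intro z hz hd
  have h1 := sw_mem j k hz
  rw [comp_tr_tr] at h1
  have h2 := sw_kd (x := x ∘ tr j) j k z
  rw [comp_tr_tr, hd, map_zero] at h2
  obtain ⟨y, hy, hy'⟩ := h _ h1 h2
  refine ⟨sw F j k y, sw_mem j k hy, ?_⟩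
  rw [sw_kd, hy', sw_sw]

theorem update_tr {α : Type*} (x : ℕ → α) (j : ℕ) (v : α) :
    Function.update x j v ∘ tr j = Function.update (x ∘ tr j) (j + 1) v := by
  funext b
  rcases lt_trichotomy b j with h | h | h
  · rw [Function.comp_apply, tr_lt h, Function.update_of_ne (by omega),
      Function.update_of_ne (by omega), Function.comp_apply, tr_lt h]
  · subst h
    rw [Function.comp_apply, tr_self, Function.update_of_ne (by omega),
      Function.update_of_ne (by omega), Function.comp_apply, tr_self]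
  · rcases eq_or_lt_of_le (Nat.succ_le_of_lt h) with h1 | h1
    · rw [← h1, Nat.succ_eq_add_one, Function.comp_apply, tr_succ, Function.update_self,
        Function.update_self]
    · rw [Function.comp_apply, tr_gt h1, Function.update_of_ne (by omega),
        Function.update_of_ne (by omega), Function.comp_apply, tr_gt h1]

/-- exactness in high degrees -/
def ExHigh (x : ℕ → F →+ F) (gr : ℤ → AddSubgroup F) (dg : ℕ → ℤ) (r : ℕ) : Prop :=
  ∃ T : ℤ, ∀ t, T ≤ t → ∀ s, Ex x gr dg r s t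

theorem Ex.congr {x y : ℕ → F →+ F} {dg dg' : ℕ → ℤ} {r : ℕ} (h : ∀ b < r, x b = y b)
    (h' : ∀ b < r, dg b = dg' b) {s t : ℤ} (hE : Ex x gr dg r s t) : Ex y gr dg' r s t := by
  unfold Ex at hE ⊢
  rw [← KG_congr h', ← KG_congr h', ← kd_congr h]
  exact hE

/-- **from the power of one operator to the operator** -/
theorem exHigh_root_one {i : ℕ} (k : ℕ) : ∀ (j r : ℕ) (_ : j + k + 1 = r) (x : ℕ → F →+ F)
    (dg : ℕ → ℤ) (_ : ∀ a b z, x a (x b z) = x b (x a z))
    (_ : ∀ a k, ∀ z ∈ gr k, x a z ∈ gr (k + dg a)),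
    ExHigh (Function.update x j (pw (x j) (i + 1))) gr
      (Function.update dg j ((i + 1 : ℕ) * dg j)) r → ExHigh x gr dg r := by
  induction k with
  | zero =>
    intro j r hr x dg hx hg ⟨T, hT⟩
    have hr' : r = j + 1 := by omega
    subst hr'
    have hxx : ∀ b < j, Function.update x j (pw (x j) (i + 1)) b = x b := fun b hb =>
      Function.update_of_ne (by omega) _ _
    have hdd : ∀ b < j, Function.update dg j ((i + 1 : ℕ) * dg j) b = dg b := fun b hb =>
      Function.update_of_ne (by omega) _ _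
    have hI : ∀ s t, T ≤ t + (i + 1 : ℕ) * dg j →
        InjH x gr dg (x j) (dg j) j s t := fun s t ht => by
      refine InjH.root (i := i) (fun a z => hx a j z) (hg j) ?_
      have h1 := hT (t + (i + 1 : ℕ) * dg j) ht (s + 1)
      have h2 := injH_of_ex (r := j) (s := s) (t := t)
        (x := Function.update x j (pw (x j) (i + 1)))
        (dg := Function.update dg j ((i + 1 : ℕ) * dg j)) (gr := gr) (by
          rw [Function.update_self]
          exact h1)
      unfold InjH at h2 ⊢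
      simp only [Function.update_self, KG_congr hdd, kd_congr hxx] at h2
      exact h2
    have hS : ∀ s t, T ≤ t + dg j → SurH x gr dg (x j) (dg j) j s t := fun s t ht => by
      refine SurH.root (i := i) (fun a z => hx a j z) (hg j) ?_
      have h0 : t - i * dg j + ((i + 1 : ℕ) : ℤ) * dg j = t + dg j := by push_cast; ring
      have h1 := hT (t - i * dg j + ((i + 1 : ℕ) : ℤ) * dg j) (by rw [h0]; exact ht) s
      have h2 := surH_of_ex (r := j) (s := s) (t := t - i * dg j)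
        (x := Function.update x j (pw (x j) (i + 1)))
        (dg := Function.update dg j ((i + 1 : ℕ) * dg j)) (gr := gr) (by
          rw [Function.update_self]
          exact h1)
      unfold SurH at h2 ⊢
      simp only [Function.update_self, KG_congr hdd, kd_congr hxx] at h2
      exact h2
    refine ⟨max T (T - i * dg j), fun t ht s => ?_⟩
    have ht1 := (le_max_left _ _).trans ht
    have ht2 := (le_max_right _ _).trans ht
    refine ex_succ_iff' hx hg (hS s _ (by linarith)) (hI (s - 1) _ ?_)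
    have h0 : t - dg j + ((i + 1 : ℕ) : ℤ) * dg j = t + i * dg j := by push_cast; ring
    rw [h0]
    linarith
  | succ k ih =>
    intro j r hr x dg hx hg ⟨T, hT⟩
    have hr' : r = j + 2 + k := by omega
    subst hr'
    have h2 := ih (j + 1) (j + 2 + k) (by omega) (x ∘ tr j) (dg ∘ tr j)
      (fun a b z => hx _ _ z) (fun a k z hz => hg _ k z hz) ⟨T, fun t ht s => by
        have h3 := (hT t ht s).swap
        rw [update_tr, update_tr] at h3
        rw [Function.comp_apply, Function.comp_apply, tr_succ]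
        exact h3⟩
    obtain ⟨T', hT'⟩ := h2
    refine ⟨T', fun t ht s => ?_⟩
    have h3 := (hT' t ht s).swap
    rwa [comp_tr_tr, comp_tr_tr] at h3

/-- **from powers to the operators** -/
theorem exHigh_root {i : ℕ → ℕ} {r : ℕ} (hx : ∀ a b z, x a (x b z) = x b (x a z))
    (hg : ∀ a k, ∀ z ∈ gr k, x a z ∈ gr (k + dg a))
    (h : ExHigh (fun a => pw (x a) (i a + 1)) gr (fun a => (i a + 1 : ℕ) * dg a) r) :
    ExHigh x gr dg r := by
  -- the operators with index `≥ m` are replaced by their powers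
  have key : ∀ m ≤ r, ExHigh (fun a => if a < m then x a else pw (x a) (i a + 1)) gr
      (fun a => if a < m then dg a else (i a + 1 : ℕ) * dg a) r := by
    intro m
    induction m with
    | zero =>
      intro _
      obtain ⟨T, hT⟩ := h
      exact ⟨T, fun t ht s => (hT t ht s).congr (fun b _ => (if_neg (by omega)).symm)
        (fun b _ => (if_neg (by omega)).symm)⟩
    | succ m ih =>
      intro hm
      have hcomm : ∀ a b z, (if a < m + 1 then x a else pw (x a) (i a + 1))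
          ((if b < m + 1 then x b else pw (x b) (i b + 1)) z) =
          (if b < m + 1 then x b else pw (x b) (i b + 1))
          ((if a < m + 1 then x a else pw (x a) (i a + 1)) z) := by
        intro a b z
        have h2 : ∀ z, pw (x a) (i a + 1) (x b z) = x b (pw (x a) (i a + 1) z) :=
          pw_comm (hx a b) _
        have h3 : ∀ z, pw (x b) (i b + 1) (x a z) = x a (pw (x b) (i b + 1) z) :=
          pw_comm (hx b a) _
        split_ifs
        · exact hx a b z
        · exact (h3 z).symm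
        · exact h2 z
        · exact pw_comm (fun z => (h3 z).symm) _ z
      refine exHigh_root_one (i := i m) (r - (m + 1)) m r (by omega) _ _ hcomm ?_ ?_
      · intro a k z hz
        split_ifs
        · exact hg a k z hz
        · exact pw_mem (hg a) _ k hz
      · obtain ⟨T, hT⟩ := ih (by omega)
        refine ⟨T, fun t ht s => (hT t ht s).congr (fun b _ => ?_) fun b _ => ?_⟩
        · rcases lt_trichotomy b m with hb | hb | hb
          · rw [Function.update_of_ne (by omega), if_pos hb, if_pos (by omega)]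
          · subst hb
            rw [Function.update_self, if_neg (by omega), if_pos (by omega)]
          · rw [Function.update_of_ne (by omega), if_neg (by omega), if_neg (by omega)]
        · rcases lt_trichotomy b m with hb | hb | hb
          · rw [Function.update_of_ne (by omega), if_pos hb, if_pos (by omega)]
          · subst hb
            rw [Function.update_self, if_neg (by omega), if_pos (by omega)]
          · rw [Function.update_of_ne (by omega), if_neg (by omega), if_neg (by omega)]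
  obtain ⟨T, hT⟩ := key r le_rfl
  exact ⟨T, fun t ht s => (hT t ht s).congr (fun b hb => if_pos hb) fun b hb => if_pos hb⟩

/-! ### exact sequences -/

/-- the sum of the degrees -/
def Wd (dg : ℕ → ℤ) (r : ℕ) : ℤ := ∑ b ∈ Finset.range r, dg b

theorem Wd_succ (dg : ℕ → ℤ) (r : ℕ) : Wd dg (r + 1) = Wd dg r + dg r :=
  Finset.sum_range_succ _ _

theorem Wd_nonneg {dg : ℕ → ℤ} (h : ∀ a, 0 ≤ dg a) (r : ℕ) : 0 ≤ Wd dg r :=
  Finset.sum_nonneg fun a _ => h a

/-- exact sequences of graded groups, in degrees `≥ c` -/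
structure SE (f : F →+ F') (g : F' →+ F'') (gr : ℤ → AddSubgroup F) (gr' : ℤ → AddSubgroup F')
    (gr'' : ℤ → AddSubgroup F'') (c : ℤ) : Prop where
  mem_f : ∀ k, ∀ z ∈ gr k, f z ∈ gr' k
  mem_g : ∀ k, ∀ z ∈ gr' k, g z ∈ gr'' k
  comp : ∀ k, c ≤ k → ∀ z ∈ gr k, g (f z) = 0
  inj : ∀ k, c ≤ k → ∀ z ∈ gr k, f z = 0 → z = 0
  ex : ∀ k, c ≤ k → ∀ z ∈ gr' k, g z = 0 → ∃ y ∈ gr k, f y = z
  sur : ∀ k, c ≤ k → ∀ z ∈ gr'' k, ∃ y ∈ gr' k, g y = z

namespace SE

variable {f : F →+ F'} {g : F' →+ F''} {c : ℤ} (E : SE f g gr gr' gr'' c) (h0 : ∀ a, 0 ≤ dg a)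

include E h0

theorem comp' {r : ℕ} {s t : ℤ} (ht : c + Wd dg r ≤ t) {z : KC F r} (hz : z ∈ KG gr dg r s t) :
    kmap g r (kmap f r z) = 0 := by
  induction r generalizing s t with
  | zero =>
    by_cases hs : s = 0
    · subst hs
      exact E.comp t (by rw [Wd, Finset.sum_range_zero] at ht; linarith) z hz
    · rw [mem_KG_zero hs hz, map_zero, map_zero]
  | succ r ih =>
    rw [Wd_succ] at ht
    have := h0 r
    obtain ⟨h1, h2⟩ := mem_KG_succ.1 hz
    exact pr_ext (ih (by linarith) h1) (ih (by linarith) h2)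

theorem inj' {r : ℕ} {s t : ℤ} (ht : c + Wd dg r ≤ t) {z : KC F r} (hz : z ∈ KG gr dg r s t)
    (h : kmap f r z = 0) : z = 0 := by
  induction r generalizing s t with
  | zero =>
    by_cases hs : s = 0
    · subst hs
      exact E.inj t (by rw [Wd, Finset.sum_range_zero] at ht; linarith) z hz h
    · exact mem_KG_zero hs hz
  | succ r ih =>
    rw [Wd_succ] at ht
    have := h0 r
    obtain ⟨h1, h2⟩ := mem_KG_succ.1 hz
    exact pr_ext (ih (by linarith) h1 (congrArg (fs r) h)) (ih (by linarith) h2 (congrArg (sn r) h))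

theorem ex' {r : ℕ} {s t : ℤ} (ht : c + Wd dg r ≤ t) {z : KC F' r} (hz : z ∈ KG gr' dg r s t)
    (h : kmap g r z = 0) : ∃ y ∈ KG gr dg r s t, kmap f r y = z := by
  induction r generalizing s t with
  | zero =>
    by_cases hs : s = 0
    · subst hs
      exact E.ex t (by rw [Wd, Finset.sum_range_zero] at ht; linarith) z hz h
    · exact ⟨0, AddSubgroup.zero_mem _, by rw [map_zero, mem_KG_zero hs hz]⟩
  | succ r ih =>
    rw [Wd_succ] at ht
    have := h0 r
    obtain ⟨h1, h2⟩ := mem_KG_succ.1 hz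
    obtain ⟨y, hy, hy'⟩ := ih (by linarith) h1 (congrArg (fs r) h)
    obtain ⟨w, hw, hw'⟩ := ih (by linarith) h2 (congrArg (sn r) h)
    exact ⟨pr y w, mem_KG_succ.2 ⟨hy, hw⟩, pr_ext hy' hw'⟩

theorem sur' {r : ℕ} {s t : ℤ} (ht : c + Wd dg r ≤ t) {z : KC F'' r}
    (hz : z ∈ KG gr'' dg r s t) : ∃ y ∈ KG gr' dg r s t, kmap g r y = z := by
  induction r generalizing s t with
  | zero =>
    by_cases hs : s = 0
    · subst hs
      exact E.sur t (by rw [Wd, Finset.sum_range_zero] at ht; linarith) z hz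
    · exact ⟨0, AddSubgroup.zero_mem _, by rw [map_zero, mem_KG_zero hs hz]⟩
  | succ r ih =>
    rw [Wd_succ] at ht
    have := h0 r
    obtain ⟨h1, h2⟩ := mem_KG_succ.1 hz
    obtain ⟨y, hy, hy'⟩ := ih (by linarith) h1
    obtain ⟨w, hw, hw'⟩ := ih (by linarith) h2
    exact ⟨pr y w, mem_KG_succ.2 ⟨hy, hw⟩, pr_ext hy' hw'⟩

variable {x'' : ℕ → F'' →+ F''} (hm : ∀ a k, ∀ z ∈ gr k, x a z ∈ gr (k + dg a))
  (hm' : ∀ a k, ∀ z ∈ gr' k, x' a z ∈ gr' (k + dg a))
  (hf : ∀ a z, f (x a z) = x' a (f z)) (hgg : ∀ a z, g (x' a z) = x'' a (g z))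
  (hx' : ∀ a b z, x' a (x' b z) = x' b (x' a z))

include hm hm' hf hgg hx' in
/-- the right term, in positive homological degrees -/
theorem ex_right' {r : ℕ} {s t : ℤ} (ht : c + Wd dg r ≤ t) (h2 : Ex x' gr' dg r (s + 1) t)
    (h1 : ∀ z ∈ KG gr dg r s t, kd x r z = 0 →
      (∃ u ∈ KG gr' dg r (s + 1) t, kd x' r u = kmap f r z) →
      ∃ y ∈ KG gr dg r (s + 1) t, kd x r y = z) : Ex x'' gr'' dg r (s + 1) t := by
  intro z hz hd
  obtain ⟨y, hy, rfl⟩ := E.sur' h0 ht hz
  have hd1 : kmap g r (kd x' r y) = 0 := by rw [kmap_kd hgg, hd]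
  have hmm := kd_mem hm' hy
  rw [add_sub_cancel_right] at hmm
  obtain ⟨w, hw, hw'⟩ := E.ex' h0 ht hmm hd1
  have hwd : kd x r w = 0 := by
    refine E.inj' h0 ht (kd_mem hm hw) ?_
    rw [kmap_kd hf, hw', kd_kd hx']
  obtain ⟨v, hv, hv'⟩ := h1 w hw hwd ⟨y, hy, hw'.symm⟩
  obtain ⟨u, hu, hu'⟩ := h2 (y - kmap f r v)
    (AddSubgroup.sub_mem _ hy (kmap_mem' E.mem_f hv)) (by
      rw [map_sub, ← kmap_kd hf, hv', hw', sub_self])
  refine ⟨kmap g r u, kmap_mem' E.mem_g hu, ?_⟩
  rw [← kmap_kd hgg, hu', map_sub, E.comp' h0 ht hv, sub_zero]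

include hm hm' hf hgg hx' in
/-- the right term -/
theorem ex_right {r : ℕ} {s t : ℤ} (ht : c + Wd dg r ≤ t) (h2 : Ex x' gr' dg r (s + 1) t)
    (h1 : Ex x gr dg r s t) : Ex x'' gr'' dg r (s + 1) t :=
  E.ex_right' h0 hm hm' hf hgg hx' ht h2 fun z hz hd _ => h1 z hz hd

include hm hm' hf hgg hx' in
/-- the middle term -/
theorem ex_mid {r : ℕ} {s t : ℤ} (ht : c + Wd dg r ≤ t) (h1 : Ex x gr dg r s t)
    (h3 : Ex x'' gr'' dg r s t) : Ex x' gr' dg r s t := by
  intro z hz hd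
  obtain ⟨y₃, hy₃, hy₃'⟩ := h3 (kmap g r z) (kmap_mem' E.mem_g hz) (by
    rw [← kmap_kd hgg, hd, map_zero])
  obtain ⟨y₂, hy₂, rfl⟩ := E.sur' h0 ht hy₃
  have hmm := kd_mem hm' hy₂
  rw [add_sub_cancel_right] at hmm
  obtain ⟨y₁, hy₁, hy₁'⟩ := E.ex' h0 ht (AddSubgroup.sub_mem _ hz hmm) (by
    rw [map_sub, kmap_kd hgg, hy₃', sub_self])
  obtain ⟨u, hu, hu'⟩ := h1 y₁ hy₁ (E.inj' h0 ht (kd_mem hm hy₁) (by
    rw [kmap_kd hf, hy₁', map_sub, hd, kd_kd hx', sub_self]))
  refine ⟨y₂ + kmap f r u, AddSubgroup.add_mem _ hy₂ (kmap_mem' E.mem_f hu), ?_⟩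
  rw [map_add, ← kmap_kd hf, hu', hy₁', add_sub_cancel]

include hm hm' hf hgg hx' in
/-- the left term -/
theorem ex_left {r : ℕ} {s t : ℤ} (ht : c + Wd dg r ≤ t) (h2 : Ex x' gr' dg r s t)
    (h3 : Ex x'' gr'' dg r (s + 1) t) : Ex x gr dg r s t := by
  intro z hz hd
  obtain ⟨y₂, hy₂, hy₂'⟩ := h2 (kmap f r z) (kmap_mem' E.mem_f hz) (by
    rw [← kmap_kd hf, hd, map_zero])
  obtain ⟨y₃, hy₃, hy₃'⟩ := h3 (kmap g r y₂) (kmap_mem' E.mem_g hy₂) (by
    rw [← kmap_kd hgg, hy₂', E.comp' h0 ht hz])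
  obtain ⟨w, hw, rfl⟩ := E.sur' h0 ht hy₃
  have hmm := kd_mem hm' hw
  rw [add_sub_cancel_right] at hmm
  obtain ⟨u, hu, hu'⟩ := E.ex' h0 ht (AddSubgroup.sub_mem _ hy₂ hmm) (by
    rw [map_sub, kmap_kd hgg, hy₃', sub_self])
  refine ⟨u, hu, ?_⟩
  have h5 : kmap f r (kd x r u - z) = 0 := by
    rw [map_sub, kmap_kd hf, hu', map_sub, kd_kd hx', hy₂', sub_zero, sub_self]
  have h6 := kd_mem hm hu
  rw [add_sub_cancel_right] at h6
  exact sub_eq_zero.1 (E.inj' h0 ht (AddSubgroup.sub_mem _ h6 hz) h5)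

end SE

/-! ### homological degree zero, regular sequences -/

/-- the sum of the images -/
def InB (x : ℕ → F →+ F) (gr : ℤ → AddSubgroup F) (dg : ℕ → ℤ) (r : ℕ) (k : ℤ) (z : F) : Prop :=
  ∃ y : ℕ → F, (∀ a < r, y a ∈ gr (k - dg a)) ∧ z = ∑ a ∈ Finset.range r, x a (y a)

theorem inB_zero {k : ℤ} {z : F} : InB x gr dg 0 k z ↔ z = 0 :=
  ⟨fun ⟨_, _, h⟩ => h, fun h => ⟨fun _ => 0, fun _ h => absurd h (by omega), h⟩⟩

theorem inB_succ {r : ℕ} {k : ℤ} {z : F} : InB x gr dg (r + 1) k z ↔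
    ∃ w ∈ gr (k - dg r), InB x gr dg r k (z - x r w) := by
  constructor
  · rintro ⟨y, hy, rfl⟩
    refine ⟨y r, hy r (by omega), y, fun a ha => hy a (by omega), ?_⟩
    rw [Finset.sum_range_succ, add_sub_cancel_right]
  · rintro ⟨w, hw, y, hy, h⟩
    refine ⟨Function.update y r w, fun a ha => ?_, ?_⟩
    · by_cases h1 : a = r
      · subst h1
        rwa [Function.update_self]
      · rw [Function.update_of_ne h1]
        exact hy a (by omega)
    · rw [Finset.sum_range_succ, Function.update_self, ← sub_eq_iff_eq_add, h]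
      refine Finset.sum_congr rfl fun a ha => ?_
      rw [Function.update_of_ne (Finset.mem_range.1 ha).ne]

/-- the embedding in degree zero -/
def io : ∀ r, F →+ KC F r
  | 0 => AddMonoidHom.id F
  | r + 1 => (io r).prod 0

theorem fs_io (r : ℕ) (z : F) : fs r (io (r + 1) z) = io r z := rfl
theorem sn_io (r : ℕ) (z : F) : sn r (io (r + 1) z) = 0 := rfl

theorem kmap_io (f : F →+ F') {r : ℕ} (z : F) : kmap f r (io r z) = io r (f z) := by
  induction r with
  | zero => rfl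
  | succ r ih =>
    refine pr_ext ih ?_
    change kmap f r 0 = 0
    exact map_zero _

theorem io_mem {r : ℕ} {t : ℤ} {z : F} (hz : z ∈ gr t) : io r z ∈ KG gr dg r 0 t := by
  induction r with
  | zero => exact hz
  | succ r ih => exact mem_KG_succ.2 ⟨ih, AddSubgroup.zero_mem _⟩

theorem exists_io {r : ℕ} {t : ℤ} {z : KC F r} (hz : z ∈ KG gr dg r 0 t) :
    ∃ z₀ ∈ gr t, io r z₀ = z := by
  induction r generalizing t with
  | zero => exact ⟨z, hz, rfl⟩
  | succ r ih =>
    obtain ⟨h1, h2⟩ := mem_KG_succ.1 hz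
    obtain ⟨z₀, h3, h4⟩ := ih h1
    exact ⟨z₀, h3, pr_ext h4 (KG_neg (by omega) h2).symm⟩

theorem io_inj {r : ℕ} {z : F} (h : io r z = 0) : z = 0 := by
  induction r with
  | zero => exact h
  | succ r ih => exact ih (congrArg (fs r) h)

theorem kd_io {r : ℕ} (z : F) : kd x r (io r z) = 0 := by
  induction r with
  | zero => rfl
  | succ r ih =>
    refine pr_ext ?_ ?_
    · rw [fs_kd, fs_io, sn_io, ih, map_zero, map_zero, add_zero]
    · rw [sn_kd, sn_io, map_zero, neg_zero, map_zero]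

/-- the boundaries in degree zero -/
theorem inB_iff {r : ℕ} {t : ℤ} {z : F} :
    (∃ y ∈ KG gr dg r 1 t, kd x r y = io r z) ↔ InB x gr dg r t z := by
  induction r generalizing z with
  | zero =>
    rw [inB_zero]
    constructor
    · rintro ⟨y, -, hy⟩
      exact hy.symm
    · rintro rfl
      exact ⟨0, AddSubgroup.zero_mem _, rfl⟩
  | succ r ih =>
    rw [inB_succ]
    constructor
    · rintro ⟨y, hy, hy'⟩
      obtain ⟨h1, h2⟩ := mem_KG_succ.1 hy
      rw [sub_self] at h2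
      obtain ⟨w, hw, hw'⟩ := exists_io h2
      refine ⟨w, hw, ih.1 ⟨fs r y, h1, ?_⟩⟩
      have h3 := congrArg (fs r) hy'
      rw [fs_kd, fs_io, ← hw', kmap_io] at h3
      rw [map_sub, ← h3, add_sub_cancel_right]
    · rintro ⟨w, hw, hw'⟩
      obtain ⟨y, hy, hy'⟩ := ih.2 hw'
      refine ⟨pr y (io r w), mem_KG_succ.2 ⟨hy, ?_⟩, pr_ext ?_ ?_⟩
      · rw [sn_pr, sub_self]
        exact io_mem hw
      · rw [fs_kd, fs_pr, sn_pr, hy', kmap_io, fs_io, ← map_add, sub_add_cancel]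
      · rw [sn_kd, sn_pr, kd_io, neg_zero, sn_io]

/-- exactness in degree zero -/
theorem ex_zero_iff {r : ℕ} {t : ℤ} :
    Ex x gr dg r 0 t ↔ ∀ z ∈ gr t, InB x gr dg r t z := by
  constructor
  · intro h z hz
    exact inB_iff.1 (h _ (io_mem hz) (kd_io z))
  · intro h z hz _
    obtain ⟨z₀, h1, rfl⟩ := exists_io hz
    exact inB_iff.2 (h z₀ h1)

variable (x gr dg) in
/-- regular sequences -/
def IsReg (r : ℕ) : Prop :=
  ∀ b < r, ∀ k, ∀ z ∈ gr k, InB x gr dg b (k + dg b) (x b z) → InB x gr dg b k z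

include hx hg in
/-- **the Koszul complex of a regular sequence is exact in positive degrees** -/
theorem ex_of_reg {r : ℕ} (h : IsReg x gr dg r) {s t : ℤ} (hs : 1 ≤ s) : Ex x gr dg r s t := by
  induction r generalizing s t with
  | zero => exact ex_gt (by push_cast; omega)
  | succ r ih =>
    have ih' : ∀ {s t : ℤ}, 1 ≤ s → Ex x gr dg r s t := fun hs => ih (fun b hb => h b (by omega)) hs
    refine ex_succ_iff' hx hg (fun z hz hd => ?_) fun z hz hd hu => ?_
    · obtain ⟨y, hy, hy'⟩ := ih' hs z hz hd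
      exact ⟨0, AddSubgroup.zero_mem _, map_zero _, y, hy, by rw [map_zero, zero_add, hy']⟩
    · rcases eq_or_lt_of_le hs with h1 | h1
      · subst h1
        rw [sub_self] at hz hu ⊢
        obtain ⟨z₀, hz₀, rfl⟩ := exists_io hz
        rw [zero_add] at hu ⊢
        rw [kmap_io] at hu
        exact inB_iff.2 (h r (by omega) _ z₀ hz₀ (inB_iff.1 hu))
      · exact ih' (by omega) z hz hd

section

variable {f : F →+ F'} {g : F' →+ F''} {c : ℤ} (E : SE f g gr gr' gr'' c) (h0 : ∀ a, 0 ≤ dg a)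
  {x'' : ℕ → F'' →+ F''} (hm : ∀ a k, ∀ z ∈ gr k, x a z ∈ gr (k + dg a))
  (hm' : ∀ a k, ∀ z ∈ gr' k, x' a z ∈ gr' (k + dg a))
  (hf : ∀ a z, f (x a z) = x' a (f z)) (hgg : ∀ a z, g (x' a z) = x'' a (g z))
  (hx' : ∀ a b z, x' a (x' b z) = x' b (x' a z))

include E h0 hm hm' hf hgg hx' in
/-- the right term in homological degree one -/
theorem SE.ex_one {r : ℕ} {t : ℤ} (ht : c + Wd dg r ≤ t) (h2 : Ex x' gr' dg r 1 t)
    (h1 : ∀ z ∈ gr t, InB x' gr' dg r t (f z) → InB x gr dg r t z) : Ex x'' gr'' dg r 1 t := by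
  have h3 := E.ex_right' (s := 0) h0 hm hm' hf hgg hx' ht (by rwa [zero_add]) (by
    intro z hz _ hu
    obtain ⟨z₀, hz₀, rfl⟩ := exists_io hz
    rw [zero_add] at hu ⊢
    rw [kmap_io] at hu
    exact inB_iff.2 (h1 z₀ hz₀ (inB_iff.1 hu)))
  rwa [zero_add] at h3

end

end

end Vale.Agent.P221.H626
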