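import Vale.Agent.P221.H626.Ev3
import Vale.Agent.P221.E.H903.F

/-!
# P221 (helper626): the homotopy of `B ⊗ X` is finitely generated over `ℤ_p`

* `finZp_tensB` : `X` even, `p`-complete, bounded below with homotopy groups finitely generated over
  `ℤ_p`; then the homotopy groups of `B ⊗ X` are finitely generated over `ℤ_p`;
* `sep_tensB` : the intersection of the `p ^ N π_* (B ⊗ X)` is zero.
-/

open CategoryTheory MonoidalCategory MonObj Limits Pretriangulated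

set_option linter.unusedSectionVars false

universe u

noncomputable section

namespace Vale.Agent.P221.H626

open Vale.Agent.P251 Vale.Agent.P251.S Vale.Agent.P251.T Vale.Agent.P251.M Vale.Agent.P251.F
  Vale.Agent.P251.I EvenSpheres Vale.Agent.P257.H80 Vale.Agent.P257.H762 Vale.Agent.P221.H246
  Vale.Agent.P221.Loc Vale.Agent.P221.E Vale.Agent.P221.E.H817
open Vale.Agent.P221.H395 (PComplete)
open Vale.Agent.P221.H658 (rb ru rb_ru comp_rb isIso_rb)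
open Vale.Agent.P221.H509 (DC dc_hom)
open Vale.Agent.P221.T.H769 (Uniq uniq_of_dc zpMod linOfUniq)
open Vale.Agent.P221.T (FinZp BPS PiM KK)

section alg

variable {p : ℕ} [hp : Fact p.Prime]

theorem finZp_of_surj {K G : Type} [AddCommGroup K] [AddCommGroup G] (hG : Uniq p G)
    (f : K →+ G) (hf : Function.Surjective f) (hK : FinZp p K) : FinZp p G := by
  obtain ⟨MK, hMK⟩ := hK
  let M : Module ℤ_[p] G := zpMod hG
  let f' : K →ₗ[ℤ_[p]] G := linOfUniq hG f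
  exact ⟨M, Module.Finite.of_surjective f' hf⟩

theorem finZp_pi {J : Type} [Finite J] {G : J → Type} [∀ i, AddCommGroup (G i)]
    (h : ∀ i, FinZp p (G i)) : FinZp p (∀ i, G i) := by
  choose M hM using h
  exact ⟨Pi.module _ _ _, Module.Finite.pi⟩

/-- finitely generated modules are separated -/
theorem FinZp.sep {G : Type} [AddCommGroup G] (h : FinZp p G) {z : G}
    (hz : ∀ N : ℕ, ∃ z' : G, z = p ^ N • z') : z = 0 := by
  obtain ⟨M, hM⟩ := h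
  have h1 : (⨅ i : ℕ, (IsLocalRing.maximalIdeal ℤ_[p]) ^ i • (⊤ : Submodule ℤ_[p] G)) = ⊥ :=
    Ideal.iInf_pow_smul_eq_bot_of_isLocalRing _ (Ideal.IsPrime.ne_top inferInstance)
  have h2 : z ∈ (⨅ i : ℕ, (IsLocalRing.maximalIdeal ℤ_[p]) ^ i • (⊤ : Submodule ℤ_[p] G)) := by
    rw [Submodule.mem_iInf]
    intro N
    obtain ⟨z', hz'⟩ := hz N
    have h3 : z = ((p : ℤ_[p]) ^ N) • z' := by
      rw [hz', ← Nat.cast_smul_eq_nsmul ℤ_[p], Nat.cast_pow]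
    rw [h3]
    refine Submodule.smul_mem_smul (Ideal.pow_mem_pow ?_ N) Submodule.mem_top
    rw [PadicInt.maximalIdeal_eq_span_p]
    exact Ideal.mem_span_singleton_self _
  rw [h1] at h2
  exact (Submodule.mem_bot _).1 h2

end alg

variable {𝒯 : Type u} [Category.{0} 𝒯] [Preadditive 𝒯] [HasZeroObject 𝒯]
    [HasShift 𝒯 ℤ] [∀ n : ℤ, (shiftFunctor 𝒯 n).Additive] [Pretriangulated 𝒯] [IsTriangulated 𝒯]
    [MonoidalCategory 𝒯] [SymmetricCategory 𝒯] [TensorTriangulated 𝒯] [MonoidalClosed 𝒯]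
    [HasCoproducts.{0} 𝒯] [HasProducts.{0} 𝒯] [StableCat 𝒯]

variable {D : MUData 𝒯} {F : SpaceFunctor 𝒯} {e : F.S.obj CCF ≅ (stdEven 𝒯).L}
  {p : ℕ} [hp : Fact p.Prime] {B : 𝒯} [MonObj B] [IsCommMonObj B] {b : D.R ⟶ B} [IsMonHom b]

/-- homotopy classes of maps into `p`-complete objects -/
theorem uniq_hom {X : 𝒯} (hX : PComplete p X) (W : 𝒯) : Uniq p (W ⟶ X) := by
  obtain ⟨C, i, δ, hC⟩ := H746.exists_moore (𝒯 := 𝒯) (p : ℤ)
  exact uniq_of_dc (dc_hom hC hX _)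

/-- maps from spheres to `S ⊗ N` -/
theorem exists_surj_sphere {n c j : ℤ} (h : 2 * n + j = c) (N : 𝒯) :
    ∃ f : ((𝟙_ 𝒯)⟦j⟧ ⟶ N) →+ ((𝟙_ 𝒯)⟦c⟧ ⟶ (stdEven 𝒯).S n ⊗ N), Function.Surjective f := by
  have h1 : (tensorLeft ((stdEven 𝒯).S n)).IsEquivalence := IsInv.equiv
  let i : (𝟙_ 𝒯)⟦c⟧ ≅ (stdEven 𝒯).S n ⊗ (𝟙_ 𝒯)⟦j⟧ :=
    (shiftFunctorAdd' 𝒯 (2 * n) j c h).app (𝟙_ 𝒯) ≪≫ (tensorUnitShiftIso _ _).symm ≪≫
      whiskerRightIso (stdSph n).symm _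
  refine ⟨{ toFun := fun z => i.hom ≫ ((stdEven 𝒯).S n ◁ z)
            map_zero' := by rw [MonoidalPreadditive.whiskerLeft_zero, comp_zero]
            map_add' := fun z z' => by
              rw [MonoidalPreadditive.whiskerLeft_add, Preadditive.comp_add] }, fun g => ?_⟩
  obtain ⟨z, hz⟩ := (tensorLeft ((stdEven 𝒯).S n)).map_surjective (X := (𝟙_ 𝒯)⟦j⟧) (Y := N)
    (i.inv ≫ g)
  refine ⟨z, ?_⟩
  change (stdEven 𝒯).S n ◁ z = i.inv ≫ g at hz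
  change i.hom ≫ ((stdEven 𝒯).S n ◁ z) = g
  rw [hz, Iso.hom_inv_id_assoc]

/-- modules -/
theorem finZp_mod (hD : MUUniv e D) (hb : IsBPMon p b) {N : 𝒯} (L : ModStr B N)
    (hN : PComplete p (B ⊗ N)) (hf : ∀ k : ℤ, FinZp p ((𝟙_ 𝒯)⟦k⟧ ⟶ N)) {m : ℤ} (hm : Conn m N)
    (c : ℤ) : FinZp p ((𝟙_ 𝒯)⟦c⟧ ⟶ B ⊗ N) := by
  classical
  choose φ hφ using fun a : ℕ →₀ ℕ => exists_surj_sphere (n := dB p a) (c := c)
    (j := c - 2 * dB p a) (by omega) N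
  have hfin : {a : ℕ →₀ ℕ | 2 * dB p a ≤ c - m}.Finite := by
    refine (finite_dB p (c - m)).subset fun a ha => ?_
    change 2 * dB p a ≤ c - m at ha
    change 2 * dB p a ≤ c - m
    exact ha
  let s := {a : ℕ →₀ ℕ // 2 * dB p a ≤ c - m}
  have hs : Finite s := hfin
  have hs' : Fintype s := Fintype.ofFinite s
  let f : (∀ a : s, ((𝟙_ 𝒯)⟦c - 2 * dB p a.1⟧ ⟶ N)) →+ ((𝟙_ 𝒯)⟦c⟧ ⟶ B ⊗ N) :=
    ∑ a : s, (Preadditive.rightComp ((𝟙_ 𝒯)⟦c⟧) (rb L (wS p b a.1 ≫ (β_ B B).hom))).comp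
      ((φ a.1).comp (Pi.evalAddMonoidHom _ a))
  have hval : ∀ z, f z = ∑ a : s, φ a.1 (z a) ≫ rb L (wS p b a.1 ≫ (β_ B B).hom) := fun z =>
    AddMonoidHom.finsetSum_apply _ _ _
  refine finZp_of_surj (uniq_hom hN _) f (fun x => ?_) (finZp_pi fun a => hf _)
  obtain ⟨t, g, hg⟩ := expandB hD hb L x
  have h0 : ∀ a : ℕ →₀ ℕ, ¬ 2 * dB p a ≤ c - m → g a = 0 := by
    intro a ha
    obtain ⟨z, hz⟩ := hφ a (g a)
    rw [← hz, hm _ (by omega) z, map_zero]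
  have h1 : ∀ a : ℕ →₀ ℕ, ∃ z, φ a z = if a ∈ t then g a else 0 := fun a => hφ a _
  choose z hz using h1
  refine ⟨fun a => z a.1, ?_⟩
  rw [hval, hg]
  have h2 : ∑ a ∈ t, g a ≫ rb L (wS p b a ≫ (β_ B B).hom) =
      ∑ a ∈ t.filter (fun a => 2 * dB p a ≤ c - m), g a ≫ rb L (wS p b a ≫ (β_ B B).hom) := by
    rw [Finset.sum_filter]
    refine Finset.sum_congr rfl fun a _ => ?_
    split_ifs with h
    · rfl
    · rw [h0 a h, zero_comp]
  have h3 : ∑ a : s, φ a.1 (z a.1) ≫ rb L (wS p b a.1 ≫ (β_ B B).hom) =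
      ∑ a ∈ Finset.univ.map (Function.Embedding.subtype (fun a : ℕ →₀ ℕ => 2 * dB p a ≤ c - m)),
        φ a (z a) ≫ rb L (wS p b a ≫ (β_ B B).hom) := by
    rw [Finset.sum_map]
    rfl
  rw [h2, h3]
  symm
  refine Finset.sum_subset_zero_on_sdiff (fun a ha => ?_) (fun a ha => ?_) fun a ha => ?_
  · rw [Finset.mem_filter] at ha
    rw [Finset.mem_map]
    exact ⟨⟨a, ha.2⟩, Finset.mem_univ _, rfl⟩
  · rw [Finset.mem_sdiff, Finset.mem_filter, Finset.mem_map] at ha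
    obtain ⟨⟨a', -, rfl⟩, h2⟩ := ha
    have h3 : a'.1 ∉ t := fun h => h2 ⟨h, a'.2⟩
    rw [hz, if_neg (show ((Function.Embedding.subtype _) a' : ℕ →₀ ℕ) ∉ t from h3), zero_comp]
  · rw [Finset.mem_filter] at ha
    rw [hz, if_pos ha.1]

/-- exactness -/
theorem finZp_mid {X Y Q : 𝒯} {f : Y ⟶ X} {g : X ⟶ Q} {h : Q ⟶ Y⟦(1 : ℤ)⟧}
    (hT : Triangle.mk f g h ∈ distTriang 𝒯) (hY : EE p Y) (hX : EE p X) (hQ : EE p Q) {k : ℤ}
    (hfY : FinZp p ((𝟙_ 𝒯)⟦k⟧ ⟶ Y)) (hfQ : FinZp p ((𝟙_ 𝒯)⟦k⟧ ⟶ Q)) :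
    FinZp p ((𝟙_ 𝒯)⟦k⟧ ⟶ X) := by
  by_cases hk : (2 : ℤ) ∣ k
  · refine finZp_ext (uniq_hom hY.pc _) (uniq_hom hQ.pc _) (Preadditive.rightComp _ f)
      (Preadditive.rightComp _ g) ?_ (fun z => ?_) (fun x => ?_) hfY hfQ
    · refine (injective_iff_map_eq_zero _).2 fun y hy => ?_
      exact Vale.Agent.P221.T.tri_inj hT y (fun z => ⟨0, by
        rw [zero_comp, hQ.ev.zero (by omega) z]⟩) hy
    · have h1 : z ≫ h = 0 := by
        obtain ⟨e⟩ := nonempty_homShift Y k 1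
        exact e.injective ((hY.ev.zero (by omega) _).trans (hY.ev.zero (by omega) _).symm)
      obtain ⟨x, hx⟩ := Triangle.coyoneda_exact₃ _ hT z h1
      exact ⟨x, hx.symm⟩
    · constructor
      · intro hx
        obtain ⟨y, hy⟩ := Triangle.coyoneda_exact₂ _ hT x hx
        exact ⟨y, hy.symm⟩
      · rintro ⟨y, rfl⟩
        have h1 : f ≫ g = 0 := comp_distTriang_mor_zero₁₂ _ hT
        change (y ≫ f) ≫ g = 0
        rw [Category.assoc, h1, comp_zero]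
  · exact FinZp.of_zero fun x => hX.ev.zero hk x

/-- **the homotopy groups of `B ⊗ X` are finitely generated over `ℤ_p`** -/
theorem finZp_tensB (hD : MUUniv e D) (hb : IsBPMon p b) {X : 𝒯} (hX : EE p X)
    (hf : ∀ k : ℤ, FinZp p ((𝟙_ 𝒯)⟦k⟧ ⟶ X)) (k : ℤ) : FinZp p ((𝟙_ 𝒯)⟦k⟧ ⟶ B ⊗ X) := by
  have key : ∀ (N : ℕ) (m : ℤ) (X : 𝒯), EE p X → (∀ k : ℤ, FinZp p ((𝟙_ 𝒯)⟦k⟧ ⟶ X)) →
      BigCell 𝒯 m X → k < m + N → FinZp p ((𝟙_ 𝒯)⟦k⟧ ⟶ B ⊗ X) := by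
    intro N
    induction N with
    | zero =>
      intro m X hX hf hm hk
      refine FinZp.of_zero fun x => ?_
      exact conn_tensB hD hb (locO_of_pc hX.pc) hm _ (by push_cast at hk; omega) x
    | succ N ih =>
      intro m X hX hf hm hk
      obtain ⟨Y, c, hc⟩ := exists_cov (m + 1) X
      obtain ⟨Q, g, h, hT⟩ := distinguished_cocone_triangle c
      have hP := evCl_ev (𝒯 := 𝒯) (p := p) D.conn_unit
      obtain ⟨hQ1, hQ2⟩ := single_cof D.conn_unit hc hm hT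
      have hYc := BigCell.conn' D.conn_unit hc.cell
      have hYe : EE p Y := ⟨(hP.cov hc ⟨hX.ev, hX.pc⟩).1, (hP.cov hc ⟨hX.ev, hX.pc⟩).2, _, hYc⟩
      have hQe : EE p Q := ⟨(hP.cof hc hm hT ⟨hX.ev, hX.pc⟩).1, (hP.cof hc hm hT ⟨hX.ev, hX.pc⟩).2,
        _, BigCell.conn' D.conn_unit hQ1⟩
      have hYf : ∀ j : ℤ, FinZp p ((𝟙_ 𝒯)⟦j⟧ ⟶ Y) := by
        intro j
        rcases lt_or_ge j (m + 1) with hj | hj
        · exact FinZp.of_zero fun x => hYc _ hj x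
        · exact FinZp.of_equiv (AddEquiv.ofBijective (Preadditive.rightComp _ c) (hc.bij j hj))
            (hf j)
      have hQf : ∀ j : ℤ, FinZp p ((𝟙_ 𝒯)⟦j⟧ ⟶ Q) := by
        intro j
        rcases lt_trichotomy j m with hj | hj | hj
        · exact FinZp.of_zero fun x => BigCell.conn' D.conn_unit hQ1 _ hj x
        · refine finZp_of_surj (uniq_hom hQe.pc _) (Preadditive.rightComp _ g) (fun z => ?_) (hf j)
          have h1 : z ≫ h = 0 := by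
            obtain ⟨e⟩ := nonempty_homShift Y j 1
            exact e.injective ((hYc _ (by omega) _).trans (hYc _ (by omega) _).symm)
          obtain ⟨x, hx⟩ := Triangle.coyoneda_exact₃ _ hT z h1
          exact ⟨x, hx.symm⟩
        · exact FinZp.of_zero fun x => hQ2 j hj x
      obtain ⟨L⟩ := exists_mod_single hD hb hQe.pc hQ1 hQ2
      refine finZp_mid (TensorTriangulated.distinguished B _ hT) (hYe.tensB hD hb)
        (hX.tensB hD hb) (hQe.tensB hD hb)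
        (ih (m + 1) Y hYe hYf hc.cell (by push_cast at hk; omega))
        (finZp_mod hD hb L (hQe.tensB hD hb).pc hQf (BigCell.conn' D.conn_unit hQ1) k)
  obtain ⟨m, hm⟩ := hX.bb
  refine key (k - m + 1).toNat m X hX hf (bigCell_of_conn D.conn_unit hm) (by omega)

/-- **`π_* (B ⊗ X)` is separated** -/
theorem sep_tensB {P W : 𝒯} (β : BPS p B P W) (hD : MUUniv e D) (hb : IsBPMon p b) {X : 𝒯}
    (hX : EE p X) (hf : ∀ k : ℤ, FinZp p ((𝟙_ 𝒯)⟦k⟧ ⟶ X)) :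
    letI := β.mdl (ModStr.free B X) (hX.tensB hD hb).pc
    ∀ z : PiM (B ⊗ X), (∀ N : ℕ, ∃ z' : PiM (B ⊗ X), z = (p : KK p) ^ N • z') → z = 0 := by
  let := β.mdl (ModStr.free B X) (hX.tensB hD hb).pc
  intro z hz
  refine DFinsupp.ext fun k => ?_
  refine FinZp.sep (finZp_tensB hD hb hX hf k) fun N => ?_
  obtain ⟨z', hz'⟩ := hz N
  refine ⟨z' k, ?_⟩
  have h1 : (p : KK p) ^ N • z' = p ^ N • z' := by
    rw [← Nat.cast_pow, Nat.cast_smul_eq_nsmul]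
  rw [hz', h1]
  exact DFinsupp.nsmul_apply _ _ _

end Vale.Agent.P221.H626
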