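import Vale.Agent.P221.H626.Spa
import Vale.Agent.P221.Loc.Pc
import Vale.Agent.P221.H543.Trunc

/-!
# P221 (helper626): homotopy groups in high degrees and `[P⟦t⟧, Y]`

* `sp_cov` : high connective covers are sparse in all degrees;
* `van_high` : if `π_k Y = 0` for all `k ≥ c` outside `A`, then `[P⟦t⟧, Y] = 0` for all `t ≥ c`
  outside `A`.
-/

open CategoryTheory MonoidalCategory MonObj Limits Pretriangulated

set_option linter.unusedSectionVars false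

universe u

noncomputable section

namespace Vale.Agent.P221.H626

open Vale.Agent.P251 Vale.Agent.P251.S Vale.Agent.P251.T Vale.Agent.P251.M Vale.Agent.P251.F
  Vale.Agent.P251.I EvenSpheres Vale.Agent.P257.H80 Vale.Agent.P257.H762 Vale.Agent.P221.H246
  Vale.Agent.P221.Loc Vale.Agent.P221.E Vale.Agent.P221.E.H817
open Vale.Agent.P221.H395 (PComplete)
open Vale.Agent.P221.T (BPS)

variable {𝒯 : Type u} [Category.{0} 𝒯] [Preadditive 𝒯] [HasZeroObject 𝒯]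
    [HasShift 𝒯 ℤ] [∀ n : ℤ, (shiftFunctor 𝒯 n).Additive] [Pretriangulated 𝒯] [IsTriangulated 𝒯]
    [MonoidalCategory 𝒯] [SymmetricCategory 𝒯] [TensorTriangulated 𝒯] [MonoidalClosed 𝒯]
    [HasCoproducts.{0} 𝒯] [HasProducts.{0} 𝒯] [StableCat 𝒯]

/-- high connective covers are sparse in all degrees -/
theorem sp_cov (h0 : Conn (0 : ℤ) (𝟙_ 𝒯)) {A : ℤ → Prop} {c : ℤ} {Y X : 𝒯} {f : Y ⟶ X}
    (hf : IsCov c f) (hX : ∀ k, c ≤ k → ¬ A k → ∀ y : (𝟙_ 𝒯)⟦k⟧ ⟶ X, y = 0) : SpPi A Y := by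
  intro k hk y
  rcases lt_or_ge k c with h | h
  · exact BigCell.conn' h0 hf.cell k h y
  · exact (hf.bij k h).1 ((hX k h hk _).trans (hX k h hk _).symm)

variable {D : MUData 𝒯} {F : SpaceFunctor 𝒯} {e : F.S.obj CCF ≅ (stdEven 𝒯).L}
  {p : ℕ} [hp : Fact p.Prime] {B : 𝒯} [MonObj B] [IsCommMonObj B] {b : D.R ⟶ B} [IsMonHom b]
  {P W : 𝒯} (β : BPS p B P W)

include β in
/-- **`[P⟦t⟧, Y]` in high degrees** -/
theorem van_high (hD : MUUniv e D) (hb : IsBPMon p b) {A : ℤ → Prop} (hA : QSt p A) {Y : 𝒯}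
    (hY : PComplete p Y) {c : ℤ} (hc : ∀ k, c ≤ k → ¬ A k → ∀ y : (𝟙_ 𝒯)⟦k⟧ ⟶ Y, y = 0)
    {t : ℤ} (ht : c ≤ t) (hAt : ¬ A t) (z : P⟦t⟧ ⟶ Y) : z = 0 := by
  have h0 : Conn (0 : ℤ) (𝟙_ 𝒯) := D.conn_unit
  obtain ⟨C, i, δ, hC⟩ := H746.exists_moore (𝒯 := 𝒯) (p : ℤ)
  obtain ⟨Y', f, hf⟩ := exists_cov c Y
  have hP : BigCell 𝒯 c (P⟦t⟧) :=
    ((H543.bigCell_P (β := β) h0).shift t t (by ring)).mono ht
  obtain ⟨g, rfl⟩ := hf.exists_lift h0 hP z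
  rw [(sp_cov h0 hf hc).homP β hD hb hA (hf.pComplete hC h0 hY) (BigCell.conn' h0 hf.cell) hAt g,
    zero_comp]

end Vale.Agent.P221.H626
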