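import Vale.Agent.P221.H395.Comp3
import Vale.Agent.P221.Loc.Good

/-!
# P221 (helper626): homotopy of `p`-complete objects and of their reductions modulo `p ^ e`

`V` is the cofibre of `p ^ e : 𝟙 ⟶ 𝟙`, `e > 0` (triangle `hV`); `Z` is `p`-complete.

* `pi_zero_of_mod` : `π_k (Z ⊗ V) = 0 ⇒ π_k Z = 0`;
* `tf_of_mod` : `π_{k+1} (Z ⊗ V) = 0 ⇒ π_k Z` has no `p`-torsion;
* `sep_of_tf` : `π_k Z` without `p`-torsion is separated;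
* `exists_completion_tri` : completions of triangles;
* `isIso_whiskerRight_V` : isomorphisms mod `p` are isomorphisms mod `p ^ e`.
-/

open CategoryTheory MonoidalCategory Limits Pretriangulated
open Vale.Agent.P251.T Vale.Agent.P251.S

set_option linter.unusedSectionVars false

universe u

namespace Vale.Agent.P221.H626

open Vale.Agent.P221.H395 (PComplete)

variable {𝒯 : Type u} [Category.{0} 𝒯] [Preadditive 𝒯] [HasZeroObject 𝒯]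
    [HasShift 𝒯 ℤ] [∀ n : ℤ, (shiftFunctor 𝒯 n).Additive] [Pretriangulated 𝒯] [IsTriangulated 𝒯]
    [MonoidalCategory 𝒯] [SymmetricCategory 𝒯] [TensorTriangulated 𝒯] [MonoidalClosed 𝒯]
    [HasCoproducts.{0} 𝒯] [HasProducts.{0} 𝒯] [StableCat 𝒯]
  {p : ℕ}

/-- divisible maps to `p`-complete objects -/
theorem PC.zero_of_div {C : 𝒯} {i : 𝟙_ 𝒯 ⟶ C} {δ : C ⟶ (𝟙_ 𝒯)⟦(1 : ℤ)⟧}
    (hC : Triangle.mk ((p : ℤ) • 𝟙 (𝟙_ 𝒯)) i δ ∈ distTriang 𝒯) {Z X : 𝒯} (hZ : PComplete p Z)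
    {e : ℕ} (he : 0 < e) (h : ∀ g : X ⟶ Z, ∃ g' : X ⟶ Z, g = ((p : ℤ) ^ e) • g') (g : X ⟶ Z) :
    g = 0 := by
  refine hZ.hom_eq_zero_of_div hC (fun g => ?_) g
  obtain ⟨g', hg'⟩ := h g
  obtain ⟨e', rfl⟩ : ∃ e', e = e' + 1 := ⟨e - 1, by omega⟩
  exact ⟨((p : ℤ) ^ e') • g', by rw [hg', pow_succ', mul_smul]⟩

/-- separatedness -/
theorem PC.sep_of_tf {C : 𝒯} {i : 𝟙_ 𝒯 ⟶ C} {δ : C ⟶ (𝟙_ 𝒯)⟦(1 : ℤ)⟧}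
    (hC : Triangle.mk ((p : ℤ) • 𝟙 (𝟙_ 𝒯)) i δ ∈ distTriang 𝒯) {Z X : 𝒯} (hZ : PComplete p Z)
    (htf : ∀ g : X ⟶ Z, (p : ℤ) • g = 0 → g = 0) (x : X ⟶ Z)
    (hx : ∀ j : ℕ, ∃ y : X ⟶ Z, x = ((p : ℤ) ^ j) • y) : x = 0 := by
  have htf' : ∀ (j : ℕ) (g : X ⟶ Z), ((p : ℤ) ^ j) • g = 0 → g = 0 := by
    intro j
    induction j with
    | zero => intro g hg; simpa using hg
    | succ j ih =>
      intro g hg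
      rw [pow_succ, mul_smul] at hg
      exact htf _ (ih _ hg)
  choose y hy using hx
  have h1 : ∀ j, y j = (p : ℤ) • y (j + 1) := by
    intro j
    have h2 : ((p : ℤ) ^ j) • (y j - (p : ℤ) • y (j + 1)) = 0 := by
      rw [smul_sub, smul_smul, ← pow_succ, ← hy, ← hy, sub_self]
    exact sub_eq_zero.1 (htf' j _ h2)
  have h2 := hZ.eq_zero_of_compat hC y h1 0
  rw [hy 0, h2, smul_zero]

/-- the triangle of `p ^ e` on `Z` -/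
theorem tri_pow {a : ℤ} {V : 𝒯} {g : 𝟙_ 𝒯 ⟶ V} {h : V ⟶ (𝟙_ 𝒯)⟦(1 : ℤ)⟧}
    (hV : Triangle.mk (a • 𝟙 (𝟙_ 𝒯)) g h ∈ distTriang 𝒯) (Z : 𝒯) :
    ∃ (u : Z ⟶ Z ⊗ V) (w : Z ⊗ V ⟶ Z⟦(1 : ℤ)⟧),
      Triangle.mk (a • 𝟙 Z) u w ∈ distTriang 𝒯 ∧ u = (ρ_ Z).inv ≫ (Z ◁ g) := by
  have h1 := dist_whiskerLeft Z hV
  have h2 : Z ◁ (a • 𝟙 (𝟙_ 𝒯)) = a • 𝟙 (Z ⊗ 𝟙_ 𝒯) := by
    have h5 := map_zsmul ((tensorLeft Z).mapAddHom (X := 𝟙_ 𝒯) (Y := 𝟙_ 𝒯)) a (𝟙 _)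
    change Z ◁ (a • 𝟙 (𝟙_ 𝒯)) = a • (Z ◁ 𝟙 (𝟙_ 𝒯)) at h5
    rw [h5, MonoidalCategory.whiskerLeft_id]
  obtain ⟨w, hw⟩ : ∃ w, Triangle.mk (Z ◁ (a • 𝟙 (𝟙_ 𝒯))) (Z ◁ g) w ∈ distTriang 𝒯 := ⟨_, h1⟩
  rw [h2] at hw
  refine ⟨(ρ_ Z).inv ≫ (Z ◁ g), w ≫ (ρ_ Z).hom⟦(1 : ℤ)⟧', ?_, rfl⟩
  refine isomorphic_distinguished _ hw _ (Triangle.isoMk _ _ (ρ_ Z).symm (ρ_ Z).symm (Iso.refl _)
    ?_ ?_ ?_)
  · change (a • 𝟙 Z) ≫ (ρ_ Z).inv = (ρ_ Z).inv ≫ (a • 𝟙 (Z ⊗ 𝟙_ 𝒯))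
    rw [Preadditive.zsmul_comp, Preadditive.comp_zsmul, Category.id_comp, Category.comp_id]
  · change ((ρ_ Z).inv ≫ (Z ◁ g)) ≫ 𝟙 _ = (ρ_ Z).inv ≫ (Z ◁ g)
    rw [Category.comp_id]
  · change (w ≫ (ρ_ Z).hom⟦(1 : ℤ)⟧') ≫ (ρ_ Z).inv⟦(1 : ℤ)⟧' = 𝟙 _ ≫ w
    rw [Category.assoc, ← Functor.map_comp, Iso.hom_inv_id, CategoryTheory.Functor.map_id,
      Category.comp_id, Category.id_comp]

section mod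

variable {C : 𝒯} {i : 𝟙_ 𝒯 ⟶ C} {δ : C ⟶ (𝟙_ 𝒯)⟦(1 : ℤ)⟧}
  (hC : Triangle.mk ((p : ℤ) • 𝟙 (𝟙_ 𝒯)) i δ ∈ distTriang 𝒯)
  {e : ℕ} {V : 𝒯} {g : 𝟙_ 𝒯 ⟶ V} {h : V ⟶ (𝟙_ 𝒯)⟦(1 : ℤ)⟧}
  (hV : Triangle.mk (((p : ℤ) ^ e) • 𝟙 (𝟙_ 𝒯)) g h ∈ distTriang 𝒯)

include hV in
/-- divisibility by `p ^ e` -/
theorem exists_div_of_mod {Z X : 𝒯} (h0 : ∀ y : X ⟶ Z ⊗ V, y = 0) (x : X ⟶ Z) :
    ∃ y : X ⟶ Z, x = ((p : ℤ) ^ e) • y := by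
  obtain ⟨u, w, hT, -⟩ := tri_pow hV Z
  obtain ⟨y, hy⟩ : ∃ y : X ⟶ Z, x = y ≫ (((p : ℤ) ^ e) • 𝟙 Z) :=
    Triangle.coyoneda_exact₂ _ hT x (h0 _)
  exact ⟨y, by rw [hy, Preadditive.comp_zsmul, Category.comp_id]⟩

include hC hV in
/-- **`π_k (Z ⊗ V) = 0 ⇒ π_k Z = 0`** -/
theorem pi_zero_of_mod (he : 0 < e) {Z X : 𝒯} (hZ : PComplete p Z)
    (h0 : ∀ y : X ⟶ Z ⊗ V, y = 0) (x : X ⟶ Z) : x = 0 :=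
  PC.zero_of_div hC hZ he (exists_div_of_mod hV h0) x

include hV in
/-- **`π_{k+1} (Z ⊗ V) = 0 ⇒ π_k Z` has no `p`-torsion** -/
theorem tf_of_mod (he : 0 < e) {Z : 𝒯} {k : ℤ}
    (h0 : ∀ y : (𝟙_ 𝒯)⟦k + 1⟧ ⟶ Z ⊗ V, y = 0) (x : (𝟙_ 𝒯)⟦k⟧ ⟶ Z) (hx : (p : ℤ) • x = 0) :
    x = 0 := by
  obtain ⟨u, w, hT, -⟩ := tri_pow hV Z
  have h1 : x ≫ (((p : ℤ) ^ e) • 𝟙 Z) = 0 := by
    obtain ⟨e', rfl⟩ : ∃ e', e = e' + 1 := ⟨e - 1, by omega⟩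
    rw [Preadditive.comp_zsmul, Category.comp_id, pow_succ, mul_smul, hx, smul_zero]
  obtain ⟨v, hv⟩ : ∃ v : (Z ⊗ V)⟦(-1 : ℤ)⟧ ⟶ Z,
      ∀ x : (𝟙_ 𝒯)⟦k⟧ ⟶ Z, x ≫ (((p : ℤ) ^ e) • 𝟙 Z) = 0 →
        ∃ y : (𝟙_ 𝒯)⟦k⟧ ⟶ (Z ⊗ V)⟦(-1 : ℤ)⟧, x = y ≫ v :=
    ⟨_, fun x hx => Triangle.coyoneda_exact₂ _ (inv_rot_of_distTriang _ hT) x hx⟩
  obtain ⟨y, hy⟩ := hv x h1
  have h2 : y = 0 := by
    obtain ⟨E⟩ := Vale.Agent.P221.Loc.nonempty_homShift (Z ⊗ V) k (-1)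
    apply E.injective
    rw [map_zero]
    have h3 : ∀ (m : ℤ), m = k + 1 → ∀ y : (𝟙_ 𝒯)⟦m⟧ ⟶ Z ⊗ V, y = 0 := by
      rintro m rfl
      exact h0
    exact h3 _ (by ring) _
  rw [hy, h2, zero_comp]

include hC hV in
/-- isomorphisms mod `p` are isomorphisms mod `p ^ e` -/
theorem isIso_whiskerRight_V {X Y : 𝒯} (c : X ⟶ Y) (hc : IsIso (c ▷ C)) : IsIso (c ▷ V) := by
  obtain ⟨Q, q, w, hT⟩ := distinguished_cocone_triangle c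
  have hQ := (H395.isIso_mod_iff hC hT).1 hc
  have h1 : IsIso (((p : ℤ) ^ e) • 𝟙 Q) := by
    have h2 : ∀ n : ℕ, IsIso (((p : ℤ) ^ n) • 𝟙 Q) := by
      intro n
      induction n with
      | zero => rw [pow_zero, one_smul]; infer_instance
      | succ n ih =>
        have h3 : ((p : ℤ) ^ (n + 1)) • 𝟙 Q = (((p : ℤ) ^ n) • 𝟙 Q) ≫ ((p : ℤ) • 𝟙 Q) := by
          rw [Preadditive.comp_zsmul, Category.comp_id, pow_succ', mul_smul]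
        rw [h3]
        infer_instance
    exact h2 e
  obtain ⟨u, w', hT', -⟩ := tri_pow hV Q
  have h2 : IsZero (Q ⊗ V) := (Triangle.isZero₃_iff_isIso₁ _ hT').2 h1
  exact (Triangle.isZero₃_iff_isIso₁ _ ((tensorRight V).map_distinguished _ hT)).1 h2

include hC in
/-- **completions of triangles** -/
theorem exists_completion_tri {X Y Z LX LY : 𝒯} {f : X ⟶ Y} {f' : Y ⟶ Z}
    {f'' : Z ⟶ X⟦(1 : ℤ)⟧} (hT : Triangle.mk f f' f'' ∈ distTriang 𝒯) {lX : X ⟶ LX} {lY : Y ⟶ LY}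
    (hX : PComplete p LX) (hX' : IsIso (lX ▷ C)) (hY : PComplete p LY) (hY' : IsIso (lY ▷ C)) :
    ∃ (a : LX ⟶ LY) (LZ : 𝒯) (b : LY ⟶ LZ) (c : LZ ⟶ LX⟦(1 : ℤ)⟧) (lZ : Z ⟶ LZ),
      Triangle.mk a b c ∈ distTriang 𝒯 ∧ PComplete p LZ ∧ IsIso (lZ ▷ C) ∧ lX ≫ a = f ≫ lY ∧
        lY ≫ b = f' ≫ lZ ∧ lZ ≫ c = f'' ≫ lX⟦(1 : ℤ)⟧' := by
  obtain ⟨a, ha⟩ := (H395.bij_of_isIso_mod hC lX hX' hY).surjective (f ≫ lY)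
  replace ha : lX ≫ a = f ≫ lY := ha
  obtain ⟨LZ, b, c, hL⟩ := distinguished_cocone_triangle a
  obtain ⟨lZ, h1, h2⟩ := complete_distinguished_triangle_morphism _ _ hT hL lX lY ha.symm
  replace h1 : f' ≫ lZ = lY ≫ b := h1
  replace h2 : f'' ≫ lX⟦(1 : ℤ)⟧' = lZ ≫ c := h2
  refine ⟨a, LZ, b, c, lZ, hL, PComplete.ext₃ _ hL hX hY, ?_, ha, h1.symm, h2.symm⟩
  let Φ : (tensorRight C).mapTriangle.obj (Triangle.mk f f' f'') ⟶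
      (tensorRight C).mapTriangle.obj (Triangle.mk a b c) :=
    (tensorRight C).mapTriangle.map
      { hom₁ := lX
        hom₂ := lY
        hom₃ := lZ
        comm₁ := ha.symm
        comm₂ := h1
        comm₃ := h2 }
  exact isIso₃_of_isIso₁₂ Φ ((tensorRight C).map_distinguished _ hT)
    ((tensorRight C).map_distinguished _ hL) hX' hY'

end mod

end Vale.Agent.P221.H626
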