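import Vale.Agent.P221.H626.Cov4
import Vale.Agent.P221.H377.Shift

/-!
# P221 (helper626): the class of sparse objects with covers

* `CS p D X` : `X` is `p`-complete, bounded below, `π_k X = 0` unless `D k`;
* `covCl` : `CovCl OX D (CS p D)`.
-/

open CategoryTheory MonoidalCategory MonObj Limits Pretriangulated

set_option linter.unusedSectionVars false

universe u

noncomputable section

namespace Vale.Agent.P221.H626

open Vale.Agent.P251 Vale.Agent.P251.S Vale.Agent.P251.T Vale.Agent.P251.M Vale.Agent.P251.F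
  Vale.Agent.P251.I EvenSpheres Vale.Agent.P257.H80 Vale.Agent.P257.H762 Vale.Agent.P221.H246
  Vale.Agent.P221.E Vale.Agent.P221.E.H817
open Vale.Agent.P221.H746 (Good good_bp exists_moore)
open Vale.Agent.P221.H395 (PComplete)
open Vale.Agent.P093.N0 (MUAll)
open Vale.Agent.P221.T (BPS PiM KK GG dT sV SrcT Src Sys SysMap Lead OpAlg Coor)
open Vale.Agent.P221.H460 (OpX Ev)
open Vale.Agent.P221.H377 (AA ofA xx HasEv CovCl Deg)
open Vale.Agent.P221.H543 (KA grA SSES xo)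

variable {𝒯 : Type u} [Category.{0} 𝒯] [Preadditive 𝒯] [HasZeroObject 𝒯]
    [HasShift 𝒯 ℤ] [∀ n : ℤ, (shiftFunctor 𝒯 n).Additive] [Pretriangulated 𝒯] [IsTriangulated 𝒯]
    [MonoidalCategory 𝒯] [SymmetricCategory 𝒯] [TensorTriangulated 𝒯] [MonoidalClosed 𝒯]
    [HasCoproducts.{0} 𝒯] [HasProducts.{0} 𝒯] [StableCat 𝒯]

variable {D : MUData 𝒯} {F : SpaceFunctor 𝒯} {e : F.S.obj CCF ≅ (stdEven 𝒯).L}
  {p : ℕ} [hp : Fact p.Prime] {B : 𝒯} [MonObj B] [IsCommMonObj B] {b : D.R ⟶ B} [IsMonHom b]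
  {P W : 𝒯} (β : BPS p B P W)

/-- sparse, `p`-complete, bounded below -/
structure CS (p : ℕ) (A : ℤ → Prop) (X : 𝒯) : Prop where
  sp : SpPi A X
  pc : PComplete p X
  bb : ∃ m : ℤ, Conn m X

theorem CS.ee {A : ℤ → Prop} {X : 𝒯} (h : CS p A X) (hev : ∀ k, A k → (2 : ℤ) ∣ k) : EE p X :=
  ⟨h.sp.evPi hev, h.pc, h.bb⟩

/-- **sparse objects have covers** -/
theorem covCl (hA2 : β.SpecA2) {n : ℕ} {ld : Lead p n} {S : SrcT p n P}
    (O : OpAlg ld S.src) (hu : S.u = η[B] ≫ β.c)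
    (hT : ∀ (m : ℤ) (g : P⟦m⟧ ⟶ P), O.T m g = β.T g) (OX : OpX O) (hD : MUUniv e D)
    (hA : MUAll D) (hb : IsBPMon p b) {A : ℤ → Prop} (hQ : QSt p A)
    (hev : ∀ k, A k → (2 : ℤ) ∣ k) : CovCl OX A (CS (𝒯 := 𝒯) p A) where
  ev {X} hX := by
    obtain ⟨Z, -⟩ := exists_Ev β hA2 O hu hT hD hb (hX.ee hev)
    exact ⟨PiM (B ⊗ X), inferInstance, _, ⟨Z⟩⟩
  van {X} hX t ht a := by
    obtain ⟨m, hm⟩ := hX.bb
    exact hX.sp.homP β hD hb hQ hX.pc hm ht a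
  cov {X} hX := by
    obtain ⟨c, hc⟩ := hX.bb
    obtain ⟨X₁, Y, i, f, h, hTri, h1, h2, h3, h4, h5, h6, -, -, -, hR, -⟩ :=
      exists_cover' β hA2 O hu hT OX hD hA hb hQ hev hX.sp hX.pc hc
    exact ⟨X₁, Y, i, f, h, hTri, ⟨h1, h2, c, h3⟩, ⟨h4, h5, c, h6⟩, hR (n + 1)⟩

end Vale.Agent.P221.H626
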