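import Vale.Agent.P221.H626.Op
import Vale.Agent.P221.H626.Sep
import Vale.Agent.P221.V.H520.Main
import Vale.Agent.P221.Loc.Good
import Vale.Agent.P221.H924.Mod

/-!
# P221 (helper626): the environment of a form, with all compatibilities

* `finZp_of_good` : homotopy groups of good objects are finitely generated over `ℤ_p`;
* `exists_envX` : the environment of a form, with the compatibilities of the source.
-/

open CategoryTheory MonoidalCategory MonObj Limits Pretriangulated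

set_option linter.unusedSectionVars false

universe u

noncomputable section

namespace Vale.Agent.P221.H626

open Vale.Agent.P251 Vale.Agent.P251.S Vale.Agent.P251.T Vale.Agent.P251.M Vale.Agent.P251.F
  Vale.Agent.P251.I
open Vale.Agent.P221.H395 (PComplete)
open Vale.Agent.P221.T.H769 (Uniq zpMod exists_sum_of_mod)
open Vale.Agent.P221.T (FinZp BPS PiM KK SrcT Src Sys FS grR Lead OpAlg Coor Env FormD dd hat)
open Vale.Agent.P221.Loc (Good FinDeg)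
open Vale.Agent.P221.V (LiftsV)

/-- finitely many classes modulo `p` -/
theorem finZp_of_mod {p : ℕ} [hp : Fact p.Prime] {G H : Type} [AddCommGroup G] [AddCommGroup H]
    (hG : Uniq p G) (f : G →+ H) (hf : ∀ x, f x = 0 → ∃ y, x = p • y) (hH : Finite H) :
    FinZp p G := by
  classical
  let M : Module ℤ_[p] G := zpMod hG
  have hr : Finite f.range := inferInstance
  have hr' : Fintype f.range := Fintype.ofFinite _
  choose b hb using fun y : f.range => y.2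
  have h1 : ∀ z : G, ∃ (a : f.range → ℤ) (z' : G), z = ∑ i, a i • b i + p • z' := by
    intro z
    let y : f.range := ⟨f z, z, rfl⟩
    obtain ⟨z', hz'⟩ := hf (z - b y) (by rw [map_sub, hb y, sub_self])
    refine ⟨Pi.single y 1, z', ?_⟩
    rw [Finset.sum_eq_single y, Pi.single_eq_same, one_smul, ← hz', add_sub_cancel]
    · intro j _ hj
      rw [Pi.single_eq_of_ne hj, zero_smul]
    · intro h
      exact absurd (Finset.mem_univ y) h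
  refine ⟨M, ⟨⟨Finset.univ.image b, ?_⟩⟩⟩
  rw [eq_top_iff]
  intro z _
  obtain ⟨c, hc⟩ := exists_sum_of_mod hG b h1 z
  rw [hc]
  exact Submodule.sum_mem _ fun i _ => Submodule.smul_mem _ _
    (Submodule.subset_span (by simp))

variable {𝒯 : Type u} [Category.{0} 𝒯] [Preadditive 𝒯] [HasZeroObject 𝒯]
    [HasShift 𝒯 ℤ] [∀ n : ℤ, (shiftFunctor 𝒯 n).Additive] [Pretriangulated 𝒯] [IsTriangulated 𝒯]
    [MonoidalCategory 𝒯] [SymmetricCategory 𝒯] [TensorTriangulated 𝒯] [MonoidalClosed 𝒯]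
    [HasCoproducts.{0} 𝒯] [HasProducts.{0} 𝒯] [StableCat 𝒯]

/-- homotopy groups of good objects -/
theorem finZp_of_good {p : ℕ} [hp : Fact p.Prime] {C : 𝒯} {i : 𝟙_ 𝒯 ⟶ C}
    {δ : C ⟶ (𝟙_ 𝒯)⟦(1 : ℤ)⟧} (hC : Triangle.mk ((p : ℤ) • 𝟙 (𝟙_ 𝒯)) i δ ∈ distTriang 𝒯)
    {X : 𝒯} (hX : Good p C X) (k : ℤ) : FinZp p ((𝟙_ 𝒯)⟦k⟧ ⟶ X) := by
  have h1 := dist_whiskerLeft X hC
  refine finZp_of_mod (uniq_hom hX.pc _)
    (Preadditive.rightComp ((𝟙_ 𝒯)⟦k⟧) (H924.rdM i X)) (fun x hx => ?_) (hX.fin k)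
  have hx' : x ≫ (ρ_ X).inv ≫ (X ◁ i) = 0 := hx
  obtain ⟨y, hy⟩ : ∃ y : (𝟙_ 𝒯)⟦k⟧ ⟶ X ⊗ 𝟙_ 𝒯,
      x ≫ (ρ_ X).inv = y ≫ (X ◁ ((p : ℤ) • 𝟙 (𝟙_ 𝒯))) :=
    Triangle.coyoneda_exact₂ _ h1 (x ≫ (ρ_ X).inv) ((Category.assoc _ _ _).trans hx')
  refine ⟨y ≫ (ρ_ X).hom, ?_⟩
  have h2 : X ◁ ((p : ℤ) • 𝟙 (𝟙_ 𝒯)) = (p : ℤ) • 𝟙 (X ⊗ 𝟙_ 𝒯) := by
    rw [← MonoidalCategory.whiskerLeft_id]
    exact (tensorLeft X).map_zsmul
  rw [h2, Preadditive.comp_zsmul, Category.comp_id] at hy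
  rw [← cancel_mono (ρ_ X).inv, hy, ← natCast_zsmul, Preadditive.zsmul_comp, Category.assoc,
    Iso.hom_inv_id, Category.comp_id]

variable {p n : ℕ} [hp : Fact p.Prime] {P : 𝒯}

/-- **the environment of a form, with the compatibilities of the source** -/
theorem exists_envX {R W : 𝒯} [MonObj R] [IsCommMonObj R]
    (b : BPS p R P W) (hTop : b.Top) {B : 𝒯} (φ : FormD b n B)
    (hPar : ∀ K : 𝒯, PComplete p K →
      (∀ (j : ℤ) (f : (𝟙_ 𝒯)⟦2 * j⟧ ⟶ K), f = 0) → ∀ f : P ⟶ K, f = 0) :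
    ∃ (ld : Lead p n) (S : SrcT p n P) (O : OpAlg ld S.src)
      (TB : ∀ d, FS (S.sys B) (grR p n) d), Env S O φ.Q TB ∧ LiftsV S φ.Q ∧
      S.u = η[R] ≫ b.c ∧
      (∀ l, b.c⟦dd p n l⟧' ≫ S.x l = hat b.MP (b.cls (dd p n l) (φ.x l))) ∧
      ∀ (m : ℤ) (g : P⟦m⟧ ⟶ P), O.T m g = b.T g := by
  obtain ⟨ld⟩ := H136.specLead p n
  have A1 := b.specA1
  have B1 := Vale.Agent.P221.T.H598.specB1 b A1
  have B2 := Vale.Agent.P221.T.H609.specB2 b A1 B1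
  let S := b.srcT ld A1 B1 φ.x φ.x_deg
  let O : OpAlg ld S.src := b.opAlg ld A1 B1 B2 φ.x φ.x_deg φ.x_mod
  have hu : S.u = η[R] ≫ b.c := rfl
  have hT : ∀ (m : ℤ) (g : P⟦m⟧ ⟶ P), O.T m g = b.T g := fun _ _ => rfl
  have hSx : ∀ l, b.c⟦dd p n l⟧' ≫ S.x l = hat b.MP (b.cls (dd p n l) (φ.x l)) :=
    fun l => b.c_cext b.cP _
  have hA2 := fun (Y : 𝒯) (M : ModStr R Y) (hY : PComplete p Y) =>
    b.specA2 ld S O hu hT Y M hY
  have hχ : ∀ (g : P⟦(0 : ℤ)⟧ ⟶ P), PiM.of P 0 (S.u⟦(0 : ℤ)⟧' ≫ g) =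
      b.kk b.MP b.cP (MvPolynomial.coeff 0 (O.T 0 g 1)) (PiM.of P 0 (T.zr 𝒯 ≫ η[R] ≫ b.c)) := by
    intro g
    let _ := b.mdl b.MP b.cP
    obtain ⟨co, he, hc, -⟩ := hA2 P b.MP b.cP
    have h1 := co.ev 0 g
    rw [he, hc, B2.T_zero] at h1
    exact h1
  obtain ⟨TB, hTB⟩ : ∃ TB : ∀ d, FS (S.sys B) (grR p n) d,
      T.Approx (S.sys B) TB ((shiftFunctorZero 𝒯 ℤ).hom.app P ≫ φ.Q) := by
    let _ : Module (KK p) (PiM B) := b.mdl φ.MB φ.hB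
    obtain ⟨co, he, -, hc⟩ := hA2 B φ.MB φ.hB
    refine T.H746.specSB p n ld S.src O (S.sys B) (PiM B) (PiM.gr B) co
      (PiM.of B 0 (T.zr 𝒯 ≫ η[R] ≫ φ.q)) ⟨_, rfl⟩ ?_ _ fun E => ?_
    · rintro k _ ⟨z, rfl⟩
      exact φ.free k z
    · exact (hc 0 _ E).trans (φ.coord E rfl)
  refine ⟨ld, S, O, TB, ⟨φ.hB, φ.pi_neg, H903.lifts_of_form φ hSx hPar, hTB, ?_, ?_⟩,
    V.liftsV_of_form φ hSx hPar, hu, hSx, hT⟩
  · rw [hu]
    exact hTop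
  · intro Y m hY _ _ h a g
    exact T.chi_of_src b O hu hχ hY h a g

end Vale.Agent.P221.H626
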