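import Vale.Agent.P221.H509.BPIso
import Vale.Agent.P221.St.FP

/-!
# P221 (helper626): generalised Moore spectra and isomorphisms of Brown-Peterson spectra

* `inducesMul_iso` : self maps;
* `isGenMoore_iso` : generalised Moore spectra.
-/

open CategoryTheory MonoidalCategory MonObj OnePoint Limits

set_option linter.unusedSectionVars false

noncomputable section

namespace Vale.Agent.P221.H626

open Vale.Agent.P251 Vale.Agent.P251.S Vale.Agent.P251.T Vale.Agent.P251.M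
  Vale.Agent.P251.St Vale.Agent.P251.St.SHCat Vale.Agent.P257.St
open Vale.Agent.P221.St

variable {T : SHCat} {S : Susp T} {p : ℕ} {P P' : RingSp T} {φ : GHom S p P} {φ' : GHom S p P'}

theorem mulBy_iso (e : P.obj ⟶ P'.obj) [IsMonHom e] {k : ℕ} (x : Hom (S.obj (Cn k)) P.obj) :
    mulBy x ≫ e = (e ▷ S.obj (Cn k)) ≫ mulBy (R := P') (x ≫ e) := by
  change ((𝟙 P.obj ⊗ₘ x) ≫ μ[P.obj]) ≫ e = (e ▷ S.obj (Cn k)) ≫ (𝟙 P'.obj ⊗ₘ (x ≫ e)) ≫ μ[P'.obj]
  rw [Category.assoc, IsMonHom.mul_hom, ← tensorHom_id, tensorHom_comp_tensorHom_assoc,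
    tensorHom_comp_tensorHom_assoc, Category.id_comp, Category.comp_id, Category.id_comp]

/-- self maps -/
theorem inducesMul_iso (e : P.obj ≅ P'.obj) [IsMonHom e.hom]
    (hφ : ∀ (m : ℕ) (x : VPoly p m), φ m x ≫ e.hom = φ' m x) {V : T.C} {k : ℕ} {w : VPoly p k}
    {f : Hom (ten (S.obj (Cn k)) V) V} (h : InducesMul (φ.val w) f) :
    InducesMul (φ'.val w) f := by
  intro m y
  have h1 : y ≫ (P'.obj ◁ f) = (y ≫ (e.inv ▷ _)) ≫ (P.obj ◁ f) ≫ (e.hom ▷ V) := by
    rw [whisker_exchange, Category.assoc, ← comp_whiskerRight_assoc, Iso.inv_hom_id,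
      id_whiskerRight, Category.id_comp]
  have h2 := h m (y ≫ (e.inv ▷ _))
  change (y ≫ (e.inv ▷ _)) ≫ (P.obj ◁ f) =
    (y ≫ (e.inv ▷ _)) ≫ (α_ P.obj (S.obj (Cn k)) V).inv ≫ (mulBy (φ.val w) ▷ V) at h2
  change y ≫ (P'.obj ◁ f) = y ≫ (α_ P'.obj (S.obj (Cn k)) V).inv ≫ (mulBy (φ'.val w) ▷ V)
  have h3 : φ'.val w = φ.val w ≫ e.hom := (hφ _ w).symm
  rw [h1, ← Category.assoc, h2, Category.assoc, Category.assoc, Category.assoc,
    ← comp_whiskerRight, mulBy_iso, h3, comp_whiskerRight, ← associator_inv_naturality_left_assoc,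
    ← comp_whiskerRight_assoc, Iso.inv_hom_id, id_whiskerRight, Category.id_comp]

/-- generalised Moore spectra -/
theorem isGenMoore_iso (e : P.obj ≅ P'.obj) [IsMonHom e.hom]
    (hφ : ∀ (m : ℕ) (x : VPoly p m), φ m x ≫ e.hom = φ' m x) {j : ℕ} {V : T.C}
    (h : IsGenMoore φ j V) : IsGenMoore φ' j V := by
  induction h with
  | base h1 h2 => exact .base h1 h2
  | step _ h2 h3 h4 h5 ih => exact .step ih h2 h3 (inducesMul_iso e hφ h4) h5

end Vale.Agent.P221.H626
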