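import Vale.Agent.P221.E.H509.Final
import Vale.Agent.P221.H377.Tw
import Vale.Agent.P221.H626.Env
import Vale.Agent.P221.H626.TrGM
import Vale.Agent.P221.H128.A8
import Vale.Agent.P221.H543.Trunc

/-!
# P221 (helper626): the situation of a form, at the statement layer

* `EnvX` : a form `B`, its Brown-Peterson spectrum, the source, the operations;
* `exists_envSt` : every form has such data;
* `EnvX.thick_of_exHigh` : objects with Koszul exactness in high degrees.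
-/

open CategoryTheory MonoidalCategory MonObj Limits Pretriangulated

set_option linter.unusedSectionVars false

noncomputable section

namespace Vale.Agent.P221.H626

open Vale.Agent.P251 Vale.Agent.P251.S Vale.Agent.P251.T Vale.Agent.P251.M Vale.Agent.P251.F
  Vale.Agent.P251.I EvenSpheres Vale.Agent.P257.H702 Vale.Agent.P257.H80 Vale.Agent.P251.Q
  Vale.Agent.P251.St Vale.Agent.P251.St.SHCat Vale.Agent.P257.St
  Vale.Agent.P221.H746 Vale.Agent.P093.N0 Vale.Agent.P221.V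
open Vale.Agent.P221.T (BPS SrcT Src Sys FS grR Lead OpAlg Coor Env KK PiM FinZp FormD dd hat sV)
open Vale.Agent.P221.H460 (OpX)
open Vale.Agent.P221.H377 (MulLin)
open Vale.Agent.P221.H543 (grA xo CX)
open Vale.Agent.P221.H395 (PComplete)

variable {T : SHCat} {S : Susp T} {p n : ℕ} [hp : Fact p.Prime]

/-- the situation of a form -/
structure EnvX (S : Susp T) (p n : ℕ) [hp : Fact p.Prime] {R : RingSp T} (φ : GHom S p R)
    (B : T.C) where
  D : MUData T.C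
  hD : MUUniv (P251.M.lineIso S.toSpaceFunctor) D
  hA : MUAll D
  b₀ : D.R ⟶ R.obj
  mon : IsMonHom b₀
  hb : IsBPMon p b₀
  Pc : T.C
  W : T.C
  β : BPS p R.obj Pc W
  ld : Lead p n
  Sc : SrcT p n Pc
  O : OpAlg ld Sc.src
  OX : OpX O
  F : FormD β n B
  TB : ∀ d, FS (Sc.sys B) (grR p n) d
  env : Env Sc O F.Q TB
  lifts : LiftsV Sc F.Q
  hu : Sc.u = η[R.obj] ≫ β.c
  hS : ∀ l, β.c⟦dd p n l⟧' ≫ Sc.x l = hat β.MP (β.cls (dd p n l) (F.x l))
  hT : ∀ (m : ℤ) (g : Pc⟦m⟧ ⟶ Pc), O.T m g = β.T g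
  hmul : MulLin β φ OX

/-- **forms have such data** -/
theorem exists_envSt {B : T.C} (hB : St.IsForm S p n B) :
    ∃ (R : RingSp T) (o : Oriented S R) (φ : GHom S p R), IsBrownPeterson p o φ ∧
      Nonempty (EnvX S p n φ B) := by
  obtain ⟨D, hD, hA, ⟨U⟩⟩ := H924.exists_mu S.toSpaceFunctor (P251.M.lineIso S.toSpaceFunctor)
  obtain ⟨P, o', φ', x, a, q, hP, hx, hBc, ha, hq, hmod⟩ := hB
  obtain ⟨b₀, _, κ, Φ, hκ, hφ, hΦ⟩ := P221.H509.exists_bpOut' hD hA U hP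
  obtain ⟨Pc, W, b, hv⟩ := Vale.Agent.P221.T.H598.exists_BPS hD hA hκ.mon hΦ
  obtain ⟨C, i, δ, hC⟩ := distinguished_cocone_triangle ((p : ℤ) • 𝟙 (𝟙_ T.C))
  obtain ⟨h1, h2⟩ := hmod C ⟨i, δ, hC⟩
  have h3 : H924.QOut n x κ ((H924.modOf ha).tensorRight C) (q ≫ H924.rdM i B) :=
    H924.qOut_of_mod hκ.good hκ.surj hκ.ker hC (H924.modOf ha) hq h1 h2
  obtain ⟨F, -, -⟩ := Vale.Agent.P221.T.H924.exists_formD b
    (Vale.Agent.P221.T.H924.vHyp_of_phi b hκ hΦ hv) (H924.modOf ha) hBc hq hκ hx hC h3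
  obtain ⟨ld, Sc, O, TB, E, hL, hu, hS, hT⟩ := exists_envX b
    (H136.top_bps hD hκ.mon b) F (H136.par hD hκ.mon b)
  exact ⟨P, o', φ', hP, ⟨
    { D := D, hD := hD, hA := hA, b₀ := b₀, mon := inferInstance, hb := hκ.mon, Pc := Pc, W := W,
      β := b, ld := ld, Sc := Sc, O := O, OX := opX b O hT hD hκ.mon, F := F, TB := TB, env := E,
      lifts := hL, hu := hu, hS := hS, hT := hT,
      hmul := H377.mulLin b hκ.mon hΦ hv hφ hu hT _ }⟩⟩

variable {R : RingSp T} {φ : GHom S p R} {B : T.C}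

theorem EnvX.conn_unit (E : EnvX S p n φ B) : Conn (0 : ℤ) (𝟙_ T.C) := E.D.conn_unit

/-- **objects with Koszul exactness in high degrees** -/
theorem EnvX.thick_of_exHigh (E : EnvX S p n φ B) {X : T.C} (hX : PComplete p X) {m₀ : ℤ}
    (hm : Conn m₀ X) (hfin : ∀ k : ℤ, FinZp p ((𝟙_ T.C)⟦k⟧ ⟶ X)) {k₀ : ℤ}
    (hev : ∀ k : ℤ, k₀ ≤ k → ¬ (2 : ℤ) ∣ k → ∀ x : (𝟙_ T.C)⟦k⟧ ⟶ X, x = 0)
    (hK : ExHigh (xo E.OX (E.Sc.sys X)) (grA (E.Sc.sys X)) (sV p) (n + 1)) :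
    Vale.Agent.P221.T.Thick B X := by
  have := E.mon
  exact H543.thick_of_high E.hu E.hD E.hb E.hT E.F E.env E.lifts
    (fun c X hX => H128.cvr_of_cx E.hu E.hD E.hb E.hT E.F E.hS E.lifts hX) hX hm hfin hev hK

end Vale.Agent.P221.H626
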