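import Vale.Agent.P221.H626.RegY
import Vale.Agent.P221.H543.Reg0
import Vale.Agent.P221.H543.KA

/-!
# P221 (helper626): the Koszul complex in homological degree zero

`Y` a system with `π_* Y` generated over `ℤ_p[v_1, …, v_n]` by finitely many homogeneous elements.

* `exists_coordG` : coordinates of `a ∈ A_k` (without uniqueness);
* `exists_dec` : decomposition of operations whose coordinates lie in `(v_0, …, v_{r-1})`;
* `inB_of_gens` : every element of `A_t`, `t` large, is a sum of multiples of `v_0, …, v_n`;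
* `inB_of_reg0` : the same from `Reg0`.
-/

open MvPolynomial

set_option linter.unusedSectionVars false

namespace Vale.Agent.P221.H626

open Vale.Agent.P221.T Vale.Agent.P221.T.H746 Vale.Agent.P221.H460 Vale.Agent.P221.H377
open Vale.Agent.P221.H543 (Reg0 exists_family0 exists_psi_eq0 xo grA of_mem_grA
  exists_of_mem_grA)

variable {p : ℕ} [hp : Fact p.Prime] {n : ℕ} {ld : Lead p n} {S : Src p n} {O : OpAlg ld S}
  {Y : Sys S} {M : Type} [AddCommGroup M] [Module (KK p) M] {Z : Ev O Y M} {X : OpX O}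
  {r : ℕ} {e : Fin r → ℤ} (g : ∀ i, Y.A (e i))

/-! ### combinations -/

/-- `∑ g_i γ_i` -/
def cmb (k : ℤ) (d : ∀ i, S.E (k - e i)) : Y.A k :=
  ∑ i, Y.act (add_sub_cancel (e i) k) (g i) (d i)

variable (Z) in
theorem c_cmb {k : ℤ} (d : ∀ i, S.E (k - e i)) (z : GG p) :
    Z.c k (cmb g k d) z = ∑ i, Z.c (e i) (g i) (O.T _ (d i) z) := by
  unfold cmb
  rw [map_sum, LinearMap.sum_apply]
  refine Finset.sum_congr rfl fun i _ => ?_
  rw [Z.act]
  rfl

theorem cmb_add {k : ℤ} (d d' : ∀ i, S.E (k - e i)) :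
    cmb g k (fun i => d i + d' i) = cmb g k d + cmb g k d' := by
  unfold cmb
  rw [← Finset.sum_add_distrib]
  exact Finset.sum_congr rfl fun i _ => map_add _ _ _

/-- homogeneous families and their operations -/
abbrev Cf (r n p : ℕ) [Fact p.Prime] : Type := Fin r → (ℕ →₀ ℕ) → MvPolynomial (Fin n) ℤ_[p]

/-- the approximation property in degrees `< N` -/
def App (Z : Ev O Y M) (g : ∀ i, Y.A (e i)) {k : ℤ} (a : Y.A k) (N : ℕ) (f : Cf r n p) : Prop :=
  Hom p e k f ∧ ∀ d : ∀ i, S.E (k - e i), Has (O := O) k d f →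
    ∀ E, dT p E < N → Z.c k a (monomial E 1) = Z.c k (cmb g k d) (monomial E 1)

variable (hψ : ∀ (k : ℤ) (x : Y.Pi k), ∃ f : Fin r → MvPolynomial (Fin n) ℤ_[p],
    HomD p e k f ∧ Z.e k x = psi g Z X f)

include hψ in
/-- one step -/
theorem app_step {k : ℤ} (a : Y.A k) (N : ℕ) (f : Cf r n p) (h : App Z g a N f) :
    ∃ f' : Cf r n p, App Z g a (N + 1) f' ∧ ∀ i E, dT p E < N → f' i E = f i E := by
  classical
  obtain ⟨hf, hf'⟩ := h
  -- cut off
  let f₁ : Cf r n p := fun i E => if dT p E < N then f i E else 0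
  have hf₁ : Hom p e k f₁ := by
    intro i E
    by_cases h : dT p E < N
    · have h6 : f₁ i E = f i E := if_pos h
      rw [h6]
      exact hf i E
    · have h6 : f₁ i E = 0 := if_neg h
      rw [h6, map_zero]
      exact HK_zero _
  obtain ⟨d₀, hd₀⟩ := exists_has' (O := O) (X := X) hf
  obtain ⟨d, hd⟩ := exists_has' (O := O) (X := X) hf₁
  have h0 : ∀ E, dT p E < N → Z.c k a (monomial E 1) = Z.c k (cmb g k d) (monomial E 1) := by
    intro E hE
    rw [hf' d₀ hd₀ E hE, c_cmb, c_cmb]
    refine Finset.sum_congr rfl fun i _ => ?_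
    rw [T_eq_of_low X (c := N) (fun E' hE' => ?_) E hE]
    rw [hd₀, hd]
    have h6 : f₁ i E' = f i E' := if_pos hE'
    rw [h6]
  have h1 : ∀ E, dT p E < N → Z.c k (a - cmb g k d) (monomial E 1) = 0 := by
    intro E hE
    rw [map_sub, LinearMap.sub_apply, h0 E hE, sub_self]
  have h2 := Z.low k N (a - cmb g k d) h1
  have h3 : ∀ E, dT p E = N → ∃ f' : Fin r → MvPolynomial (Fin n) ℤ_[p],
      (∀ i, HK p (k + N - e i) (RN p n (f' i))) ∧
        Z.c k (a - cmb g k d) (monomial E 1) =
          ∑ i, Z.c (e i) (g i) (X.eta (RN p n (f' i))) := by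
    intro E hE
    obtain ⟨x, hx⟩ := h2 E hE
    obtain ⟨f', h4, h5⟩ := hψ (k + N) x
    exact ⟨f', h4, hx.symm.trans h5⟩
  choose f' hf1 hf2 using h3
  let u : Cf r n p := fun i E => if h : dT p E = N then f' E h i else 0
  have hu : Hom p e k u := by
    intro i E
    by_cases h : dT p E = N
    · have h6 : u i E = f' E h i := dif_pos h
      rw [h6]
      exact HK_cast (by omega) (hf1 E h i)
    · have h6 : u i E = 0 := dif_neg h
      rw [h6, map_zero]
      exact HK_zero _
  obtain ⟨c, hc⟩ := exists_has' (O := O) (X := X) hu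
  refine ⟨fun i E => f₁ i E + u i E, ⟨hf₁.add hu, fun d' hd' E hE => ?_⟩, fun i E hE => ?_⟩
  · have h7 : ∀ z, Z.c k (cmb g k d') z = Z.c k (cmb g k d) z + Z.c k (cmb g k c) z := by
      intro z
      rw [← LinearMap.add_apply, ← map_add, ← cmb_add, c_cmb, c_cmb]
      refine Finset.sum_congr rfl fun i _ => ?_
      rw [T_eq X fun E => ?_]
      rw [hd', map_add (O.T _), LinearMap.add_apply, coeff_add, hd, hc, map_add]
    have h8 : ∀ i E, dT p E < N → coeff 0 (O.T _ (c i) (monomial E 1)) = 0 := by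
      intro i E hE
      rw [hc]
      have h6 : u i E = 0 := dif_neg (by omega)
      rw [h6, map_zero]
    rw [h7]
    by_cases hE' : dT p E = N
    · have h9 : Z.c k (cmb g k c) (monomial E 1) = Z.c k (a - cmb g k d) (monomial E 1) := by
        rw [hf2 E hE', c_cmb]
        refine Finset.sum_congr rfl fun i _ => ?_
        rw [(X.low _ N (c i) (h8 i)).2 E hE', hc]
        have h6 : u i E = f' E hE' i := dif_pos hE'
        rw [h6]
      rw [h9, map_sub, LinearMap.sub_apply, add_sub_cancel]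
    · have h10 : dT p E < N := by push_cast at hE; omega
      have h9 : Z.c k (cmb g k c) (monomial E 1) = 0 := by
        rw [c_cmb]
        refine Finset.sum_eq_zero fun i _ => ?_
        rw [(X.low _ N (c i) (h8 i)).1 E h10, map_zero]
      rw [h9, add_zero]
      exact h0 E h10
  · have h6 : f₁ i E = f i E := if_pos hE
    have h7 : u i E = 0 := dif_neg (by omega)
    change f₁ i E + u i E = f i E
    rw [h6, h7, add_zero]

include hψ in
/-- **coordinates exist** -/
theorem exists_coordG {k : ℤ} (a : Y.A k) : ∃ f : Cf r n p, Hom p e k f ∧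
    ∀ d : ∀ i, S.E (k - e i), Has (O := O) k d f → a = cmb g k d := by
  classical
  have h0 : App Z g a 0 (fun _ _ => 0) := by
    refine ⟨fun i E => by rw [map_zero]; exact HK_zero _, fun d _ E hE => ?_⟩
    have := dT_nonneg (p := p) E
    exact absurd hE (by push_cast; omega)
  choose nx hnx hnx' using fun (N : ℕ) (f : Cf r n p) (h : App Z g a N f) =>
    app_step g hψ a N f h
  let F : ∀ N : ℕ, {f : Cf r n p // App Z g a N f} := fun N =>
    Nat.rec ⟨_, h0⟩ (fun N f => ⟨nx N f.1 f.2, hnx N f.1 f.2⟩) N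
  have hF : ∀ (N : ℕ) i E, dT p E < N → (F (N + 1)).1 i E = (F N).1 i E := fun N i E hE =>
    hnx' N (F N).1 (F N).2 i E hE
  have h1 : ∀ N N' : ℕ, N ≤ N' → ∀ i E, dT p E < N → (F N').1 i E = (F N).1 i E := by
    intro N N' hN i E hE
    induction N', hN using Nat.le_induction with
    | base => rfl
    | succ N' hN ih => rw [hF N' i E (by omega), ih]
  let u : Cf r n p := fun i E => (F ((dT p E).toNat + 1)).1 i E
  have hu : Hom p e k u := fun i E => (F _).2.1 i E
  have hu' : ∀ N : ℕ, ∀ i E, dT p E < N → u i E = (F N).1 i E := by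
    intro N i E hE
    have h3 := dT_nonneg (p := p) E
    exact (h1 _ N (by omega) i E (by omega)).symm
  refine ⟨u, hu, fun d hd => ?_⟩
  apply Z.inj k
  refine monoExt fun E => ?_
  have h3 := dT_nonneg (p := p) E
  obtain ⟨d', hd'⟩ := exists_has' (O := O) (X := X) (F ((dT p E).toNat + 1)).2.1
  rw [(F ((dT p E).toNat + 1)).2.2 d' hd' E (by omega), c_cmb, c_cmb]
  refine Finset.sum_congr rfl fun i _ => ?_
  rw [T_eq_of_low X (c := ((dT p E).toNat + 1 : ℕ)) (fun E' hE' => ?_) E (by omega)]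
  rw [hd, hd', hu' _ i E' hE']

/-! ### decomposition of operations -/

/-- the homogeneous polynomials of degree `k` -/
def HG (p : ℕ) [Fact p.Prime] (k : ℤ) : AddSubgroup (KK p) where
  carrier := {f | HK p k f}
  add_mem' := fun h h' => HK.add h h'
  zero_mem' := HK_zero _
  neg_mem' := fun {f} h => by
    have h1 := HK.sub (HK_zero (p := p) k) h
    rwa [zero_sub] at h1

theorem HG_smul {k m : ℤ} {f y : KK p} (hf : HK p m f) (hy : y ∈ HG p k) :
    f • y ∈ HG p (k + m) := by
  change HK p (k + m) (f * y)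
  exact HK_cast (by ring) (hf.mul (show HK p k y from hy))

/-- the leading coefficient, as a functional -/
noncomputable def cf0 {m : ℤ} (O : OpAlg ld S) (d : S.E m) : GG p →ₗ[KK p] KK p :=
  (MvPolynomial.lcoeff (KK p) 0) ∘ₗ O.T m d

theorem cf0_apply {m : ℤ} (d : S.E m) (z : GG p) : cf0 O d z = coeff 0 (O.T m d z) := rfl

/-- **operations whose coordinates lie in `(v_0, …, v_{r-1})`** -/
theorem exists_dec {m : ℤ} (X : OpX O) (d : S.E m) {s : ℕ}
    (h : ∀ E, InB (vop p (KK p)) (HG p) (sV p) s (m + dT p E)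
      (coeff 0 (O.T m d (monomial E 1)))) :
    ∃ c : ∀ a : ℕ, S.E (m - sV p a), ∀ z, O.T m d z =
      ∑ a ∈ Finset.range s, O.T _ (c a) (X.eta (vK p a) * z) := by
  have h1 : cf0 O d ∈ fgr (HG p) m := fun E => HK_coord d E
  obtain ⟨w, hw, hw'⟩ := (inB_xop_iff X (HG p) HG_smul h1).2 h
  have h2 : ∀ a : ℕ, ∃ c : S.E (m - sV p a), a < s → cf0 O c = w a := by
    intro a
    by_cases ha : a < s
    · obtain ⟨c, -, hc⟩ := X.ex (m - sV p a) 0 (fun E => w a (monomial E 1))
        (fun E => hw a ha E) fun E => Ip_of_nonpos p le_rfl _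
      exact ⟨c, fun _ => monoExt fun E => hc E⟩
    · exact ⟨0, fun h => absurd h ha⟩
  choose c hc using h2
  choose ε hε using fun a : ℕ => X.comp (sub_add_cancel m (sV p a)) (c a) (gm X a)
  have h3 : O.T m d = O.T m (∑ a ∈ Finset.range s, ε a) := by
    refine T_eq X fun E => ?_
    rw [map_sum, LinearMap.sum_apply, coeff_sum]
    have h4 : coeff 0 (O.T m d (monomial E 1)) = cf0 O d (monomial E 1) := rfl
    rw [h4, hw', LinearMap.sum_apply]
    refine Finset.sum_congr rfl fun a ha => ?_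
    rw [hε a, LinearMap.comp_apply, T_gm, xop_apply, ← hc a (Finset.mem_range.1 ha), cf0_apply]
  refine ⟨c, fun z => ?_⟩
  rw [h3, map_sum, LinearMap.sum_apply]
  refine Finset.sum_congr rfl fun a _ => ?_
  rw [hε a, LinearMap.comp_apply, T_gm]

include hψ in
/-- **high degrees** -/
theorem inB_of_gens {t : ℤ} (ht : ∀ i, e i < t) (a : Y.A t) :
    InB (xo X Y) (grA Y) (sV p) (n + 1) t (ofA Y t a) := by
  obtain ⟨f, hf, hf'⟩ := exists_coordG g hψ a
  obtain ⟨d, hd⟩ := exists_has' (O := O) (X := X) hf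
  have ha := hf' d hd
  have h1 : ∀ i E, InB (vop p (KK p)) (HG p) (sV p) (n + 1) (t - e i + dT p E)
      (coeff 0 (O.T _ (d i) (monomial E 1))) := by
    intro i E
    rw [hd]
    have h2 : (p : ℤ_[p]) ∣ coeff 0 (f i E) := by
      have h3 : coeff 0 (f i E) = 0 := by
        by_contra hne
        have h4 := hf i E
        have h5 : coeff 0 (RN p n (f i E)) = coeff 0 (f i E) := by
          rw [← constantCoeff_eq, ← constantCoeff_eq]
          exact constantCoeff_rename _ _
        have h6 := h4 (d := 0) (by rwa [h5])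
        rw [map_zero] at h6
        have h7 := dT_nonneg (p := p) E
        have h8 := ht i
        omega
      rw [h3]
      exact dvd_zero _
    obtain ⟨w, hw, hw'⟩ := In_of_const (hf i E) h2
    rw [hw', map_sum]
    refine InB.sum _ _ fun a _ => ?_
    rw [map_mul, RN_vq (by have := a.2; omega)]
    exact InB.single (x := vop p (KK p)) (a := (a : ℕ)) a.2 (hw a)
  choose c hc using fun i => exists_dec X (d i) (h1 i)
  let b : ∀ a : ℕ, Y.A (t - sV p a) := fun a =>
    ∑ i, Y.act (show e i + (t - e i - sV p a) = t - sV p a by ring) (g i) (c i a)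
  have h2 : a = ∑ j ∈ Finset.range (n + 1), Y.act (sub_add_cancel t (sV p j)) (b j) (gm X j) := by
    apply Z.inj
    refine LinearMap.ext fun z => ?_
    rw [ha, c_cmb, map_sum, LinearMap.sum_apply]
    simp only [c_act_gm]
    have h3 : ∀ j z, Z.c _ (b j) z = ∑ i, Z.c (e i) (g i) (O.T _ (c i j) z) := by
      intro j z
      rw [map_sum, LinearMap.sum_apply]
      refine Finset.sum_congr rfl fun i _ => ?_
      rw [Z.act]
      rfl
    rw [Finset.sum_congr rfl fun j _ => h3 j _, Finset.sum_comm]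
    refine Finset.sum_congr rfl fun i _ => ?_
    rw [hc i, map_sum]
  rw [h2, map_sum]
  refine InB.sum _ _ fun j hj => ?_
  have h3 := InB.single (x := xo X Y) (gr := grA Y) (dg := sV p) (Finset.mem_range.1 hj)
    (of_mem_grA Y (t - sV p j) (b j))
  have h4 : xo X Y j (ofA Y (t - sV p j) (b j)) =
      ofA Y t (Y.act (sub_add_cancel t (sV p j)) (b j) (gm X j)) :=
    opA_of Y (sub_add_cancel t (sV p j)) (gm X j) (b j)
  rwa [h4] at h3

/-- **the Koszul complex in homological degree zero** -/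
theorem inB_of_reg0 (hR : Reg0 Z X) : ∀ᶠ t : ℤ in Filter.atTop, ∀ z ∈ grA Y t,
    InB (xo X Y) (grA Y) (sV p) (n + 1) t z := by
  obtain ⟨r, e, g, hs, -⟩ := exists_family0 hR
  have hψ := exists_psi_eq0 g hR hs
  obtain ⟨t₀, ht₀⟩ : ∃ t₀ : ℤ, ∀ i, e i < t₀ := by
    obtain ⟨m, hm⟩ := (Set.finite_range e).bddAbove
    exact ⟨m + 1, fun i => by have := hm ⟨i, rfl⟩; omega⟩
  refine Filter.eventually_atTop.2 ⟨t₀, fun t ht z hz => ?_⟩
  obtain ⟨a, rfl⟩ := exists_of_mem_grA hz
  exact inB_of_gens g hψ (fun i => lt_of_lt_of_le (ht₀ i) ht) a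

end Vale.Agent.P221.H626
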