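import Vale.Agent.P221.Loc.Fp
import Vale.Agent.P221.Loc.Pc
import Vale.Agent.P221.T.H520.T2

/-!
# P221 (helper626): `X ⊗ W` for connective covers and shifts of `X`

* `cov_ten` : `π_k (X' ⊗ W) = 0` if `π_k (X ⊗ W) = 0` and `k` is large, `X'` a cover of `X`, `W` a
  generalised Moore spectrum;
* `shift_ten` : shifts.
-/

open CategoryTheory MonoidalCategory MonObj Limits Pretriangulated

set_option linter.unusedSectionVars false

noncomputable section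

namespace Vale.Agent.P221.H626

open Vale.Agent.P251 Vale.Agent.P251.S Vale.Agent.P251.T Vale.Agent.P251.M Vale.Agent.P251.I
  Vale.Agent.P251.St Vale.Agent.P251.St.SHCat Vale.Agent.P257.St Vale.Agent.P257.H762
open Vale.Agent.P221.St
open Vale.Agent.P221.Loc (FinDeg Good IsCov totallyFinite_of_good nonempty_homShift)

variable {T : SHCat} {S : Susp T} {p : ℕ} {R : RingSp T}

/-- **covers** -/
theorem cov_ten (h0 : Conn (0 : ℤ) (𝟙_ T.C)) {C : T.C} {i : 𝟙_ T.C ⟶ C}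
    {δ : C ⟶ (𝟙_ T.C)⟦(1 : ℤ)⟧}
    (hC : Triangle.mk ((p : ℤ) • 𝟙 (𝟙_ T.C)) i δ ∈ distTriang T.C) {c : ℤ} {X' X : T.C}
    {f : X' ⟶ X} (hf : IsCov c f) (hX : Good p C X) {φ : GHom S p R} {j : ℕ} {W : T.C}
    (hW : IsGenMoore φ j W) : ∃ N : ℤ, ∀ k, N ≤ k → (∀ y : (𝟙_ T.C)⟦k⟧ ⟶ X ⊗ W, y = 0) →
      ∀ y : (𝟙_ T.C)⟦k⟧ ⟶ X' ⊗ W, y = 0 := by
  obtain ⟨Q, g, w, hT⟩ := distinguished_cocone_triangle f
  have hQ : Good p C Q := Good.ext₃ hT (hf.good hC h0 hX) hX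
  obtain ⟨-, N, hN⟩ := totallyFinite_of_good hC hQ ⟨c, fun j hj => hf.cof_zero h0 hT j hj⟩ hW
  have hTW := dist_whiskerRight W hT
  refine ⟨max N 0, fun k hk h y => ?_⟩
  have hN0 : N ≤ k := le_trans (le_max_left _ _) hk
  have hk0 : 0 ≤ k := le_trans (le_max_right _ _) hk
  refine Vale.Agent.P221.T.tri_inj hTW y (fun z => ⟨0, ?_⟩) (h _)
  rw [zero_comp]
  exact (hN (k + 1) (by rw [abs_of_nonneg (by omega)]; omega) z).symm

/-- **shifts** -/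
theorem shift_ten {X W : T.C} (m : ℤ) {k : ℤ} (h : ∀ y : (𝟙_ T.C)⟦k - m⟧ ⟶ X ⊗ W, y = 0)
    (y : (𝟙_ T.C)⟦k⟧ ⟶ X⟦m⟧ ⊗ W) : y = 0 := by
  obtain ⟨e⟩ := nonempty_homShift (X ⊗ W) k m
  let i : X⟦m⟧ ⊗ W ≅ (X ⊗ W)⟦m⟧ := ((tensorRight W).commShiftIso m).app X
  rw [← cancel_mono i.hom, zero_comp]
  exact e.injective ((h _).trans (map_zero e).symm)

end Vale.Agent.P221.H626
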