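import Vale.Agent.P221.H246.LocFp
import Vale.Agent.P221.Loc.Good
import Vale.Agent.P221.H626.Env

/-!
# P221 (helper626): `π_t (X ⊗ V)` is finite

`X` `p`-complete, bounded below, with `π_* (X ⊗ S/p)` finite in each degree, `V` a generalised Moore
spectrum.
-/

open CategoryTheory MonoidalCategory MonObj Limits Pretriangulated

set_option linter.unusedSectionVars false

noncomputable section

namespace Vale.Agent.P221.H626

open Vale.Agent.P251 Vale.Agent.P251.S Vale.Agent.P251.T Vale.Agent.P251.M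
  Vale.Agent.P251.St Vale.Agent.P251.St.SHCat Vale.Agent.P257.St
open Vale.Agent.P221.St
open Vale.Agent.P221.Loc (FinDeg Good)

variable {T : SHCat} {S : Susp T} {p : ℕ} {R : RingSp T}

/-- finiteness of `X ⊗ V` for `V` in the thick subcategory of `C` -/
theorem finDeg_ten {X C V : T.C} (h : FinDeg (X ⊗ C)) (hV : Thick C V) : FinDeg (X ⊗ V) := by
  induction hV with
  | base => exact h
  | @zero Y h0 =>
    have h1 : IsZero Y := (IsZero.iff_id_eq_zero _).2 h0
    exact FinDeg.of_isZero ((tensorLeft X).map_isZero h1)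
  | @susp k Y _ ih =>
    exact (ih.shift k).of_iso (((tensorLeft X).commShiftIso k).app Y).symm
  | cof hd _ _ ih₁ ih₂ => exact FinDeg.ext₃ (dist_whiskerLeft X hd) ih₁ ih₂
  | @retract Y Y' i r hir _ ih =>
    exact ih.of_retract (X ◁ i) (X ◁ r) (by
      rw [← MonoidalCategory.whiskerLeft_comp, show i ≫ r = 𝟙 Y from hir,
        MonoidalCategory.whiskerLeft_id])

/-- **`π_t (X ⊗ V)` is finite** -/
theorem finite_ten_genMoore {C : T.C} {i : 𝟙_ T.C ⟶ C} {δ : C ⟶ (𝟙_ T.C)⟦(1 : ℤ)⟧}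
    (hC : Triangle.mk ((p : ℤ) • 𝟙 (𝟙_ T.C)) i δ ∈ distTriang T.C) {X : T.C} (hX : Good p C X)
    {φ : GHom S p R} {j : ℕ} {V : T.C} (hV : IsGenMoore φ j V) (t : ℤ) :
    Finite ((𝟙_ T.C)⟦t⟧ ⟶ X ⊗ V) :=
  finDeg_ten hX.fin (H246.thick_genMoore hC hV) t

end Vale.Agent.P221.H626
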