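import Vale.Agent.P221.H377.ExHT
import Vale.Agent.P221.H460.ConvE
import Vale.Agent.P221.H626.EnvSt
import Vale.Agent.P221.H626.High
import Vale.Agent.P221.H626.CovT
import Vale.Agent.P221.H626.FinV
import Vale.Agent.P221.H626.CovCl

/-!
# P221 (helper626): sparse fp-spectra are in the thick subcategory

* `stw_of_tower` : transport of the towers;
* `thick_of_isSparse` : the theorem.
-/

open CategoryTheory MonoidalCategory MonObj Limits Pretriangulated

set_option linter.unusedSectionVars false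

noncomputable section

namespace Vale.Agent.P221.H626

open Vale.Agent.P251 Vale.Agent.P251.S Vale.Agent.P251.T Vale.Agent.P251.M Vale.Agent.P251.F
  Vale.Agent.P251.I EvenSpheres Vale.Agent.P257.H702 Vale.Agent.P257.H80 Vale.Agent.P251.Q
  Vale.Agent.P251.St Vale.Agent.P251.St.SHCat Vale.Agent.P257.St
  Vale.Agent.P221.H746 Vale.Agent.P093.N0 Vale.Agent.P257.H762
open Vale.Agent.P221.T (BPS SrcT Src Sys FS grR Lead OpAlg Coor Env KK PiM FinZp FormD dd hat sV)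
open Vale.Agent.P221.H460 (OpX)
open Vale.Agent.P221.H377 (MulLin STw)
open Vale.Agent.P221.H543 (grA xo CX)
open Vale.Agent.P221.H395 (PComplete)
open Vale.Agent.P221.St (IsGenMoore)
open Vale.Agent.P221.Loc (Good IsCov exists_cov)

variable {T : SHCat} {S : Susp T} {p n : ℕ}

/-- transport of towers -/
theorem stw_of_tower {P P' : RingSp T} {φ : GHom S p P} {φ' : GHom S p P'} (e : P.obj ≅ P'.obj)
    [IsMonHom e.hom] (hφ : ∀ (m : ℕ) (x : VPoly p m), φ m x ≫ e.hom = φ' m x)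
    {E E' : ℕ → T.C → Prop} (h0 : E 0 (𝟙_ T.C) → E' 0 (𝟙_ T.C))
    (hE : ∀ (j : ℕ) (W : T.C), IsGenMoore φ' j W → E j W → E' j W) {j : ℕ} {V : T.C}
    (h : StI.IsTower φ E j V) : STw φ' E' j V := by
  induction h with
  | base hE₀ h1 h2 => exact .base (h0 hE₀) h1 h2
  | step _ hE₁ h2 h3 h4 h5 ih => exact .step ih (hE _ _ ih.gen hE₁) h2 h3 (inducesMul_iso e hφ h4) h5

/-- the unit -/
theorem ten_one_zero {X : T.C} {k : ℤ} :
    (∀ y : (𝟙_ T.C)⟦k⟧ ⟶ X ⊗ 𝟙_ T.C, y = 0) ↔ ∀ y : (𝟙_ T.C)⟦k⟧ ⟶ X, y = 0 := by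
  constructor
  · intro h y
    rw [← cancel_mono (ρ_ X).inv, zero_comp]
    exact h _
  · intro h y
    rw [← cancel_mono (ρ_ X).hom, zero_comp]
    exact h _

/-- **sparse fp-spectra are in the thick subcategory** -/
theorem thick_of_isSparse (hp : p.Prime) {B X : T.C}
    (hB : StE.IsStandardForm S p n B) (h : StE.IsSparse S p n X) : St.Thick B X := by
  have hp' : Fact p.Prime := ⟨hp⟩
  have hX : StI.IsFpType S p n X := by
    obtain ⟨_, _, _, _, h⟩ := h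
    exact H460.isFpType_of_E h
  have hBI := H460.isStandardForm_of_E hB
  obtain ⟨D₀, hD₀, hA₀, ⟨U⟩⟩ :=
    H924.exists_mu S.toSpaceFunctor (P251.M.lineIso S.toSpaceFunctor)
  have hB' : St.IsForm S p n B := H924.isForm_of_isStandardForm hD₀ hA₀ U
    (Loc.isStandardForm_iff.1 (Loc.isStandardFormI_iff.1 hBI))
  obtain ⟨R, o', φ', hR, ⟨E⟩⟩ := exists_envSt hB'
  obtain ⟨m, D, ε, N, N', P, o, φ, V, hper, hpar, hgap, hc, hbb, hP, hV, -, hz⟩ :=
    H460.exists_of_isSparse h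
  obtain ⟨e, _, _, he⟩ := P221.H509.exists_bp_iso hP hR
  obtain ⟨C, i, δ, hC⟩ := H746.exists_moore (𝒯 := T.C) (p : ℤ)
  have h0 : Conn (0 : ℤ) (𝟙_ T.C) := E.conn_unit
  have hG : Good p C X := Loc.good_of_fpType hp hC (Loc.isFpTypeI_of hX)
  have hN : ∀ k, N ≤ k → ¬ D k → ∀ y : (𝟙_ T.C)⟦k⟧ ⟶ X, y = 0 := fun k hk hk' =>
    ten_one_zero.1 (H460.tower_zero hV (Nat.zero_le _) k hk hk')
  -- the cover
  obtain ⟨X₁, f, hf⟩ := exists_cov N X
  have hG₁ : Good p C X₁ := hf.good hC h0 hG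
  -- the shift
  have hD' : ∀ t a : ℤ, D (t + a * (2 * p - 2) + ε) ↔ D (t + ε) := fun t a => by
    rw [← hper (t + ε) a]
    have h1 : t + ε + a * (2 * p - 2) = t + a * (2 * p - 2) + ε := by ring
    rw [h1]
  have hG₂ : Good p C (X₁⟦-ε⟧) := hG₁.shift _
  have hsp : SpPi (fun k => D (k + ε)) (X₁⟦-ε⟧) := by
    have h1 := (sp_cov h0 hf hN).shift (-ε)
    have h2 : (fun k => D (k - -ε)) = fun k => D (k + ε) := by
      funext k
      rw [sub_neg_eq_add]
    rwa [h2] at h1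
  have hCS : CS p (fun k => D (k + ε)) (X₁⟦-ε⟧) := ⟨hsp, hG₂.pc, hG₂.bb⟩
  have hten : ∀ (j : ℕ) (W : T.C), IsGenMoore φ' j W → ∃ N₀ : ℤ, ∀ k, N₀ ≤ k →
      (∀ y : (𝟙_ T.C)⟦k + ε⟧ ⟶ X ⊗ W, y = 0) → ∀ y : (𝟙_ T.C)⟦k⟧ ⟶ X₁⟦-ε⟧ ⊗ W, y = 0 := by
    intro j W hW
    obtain ⟨N₀, hN₀⟩ := cov_ten h0 hC hf hG hW
    refine ⟨N₀ - ε, fun k hk h1 => shift_ten (-ε) ?_⟩
    rw [sub_neg_eq_add]
    exact hN₀ _ (by omega) h1
  have hV' : STw φ' (fun j W => j ≤ m → ∀ᶠ k : ℤ in Filter.atTop, ¬ D (k + ε) →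
      ∀ y : (𝟙_ T.C)⟦k⟧ ⟶ X₁⟦-ε⟧ ⊗ W, y = 0) (n + 1) V := by
    refine stw_of_tower e he (fun _ _ => Filter.Eventually.of_forall fun k hk =>
      ten_one_zero.2 (hsp k hk)) (fun j W hW h1 hj => ?_) hV
    obtain ⟨N₀, hN₀⟩ := hten j W hW
    refine Filter.eventually_atTop.2 ⟨max N₀ (N - ε), fun k hk hDk => hN₀ k (le_trans (le_max_left _ _) hk) ?_⟩
    have h2 := le_trans (le_max_right _ _) hk
    exact h1 hj _ (by omega) hDk
  have hev : ∀ t, D (t + ε) → 2 ∣ t := fun t ht => by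
    have := hpar _ ht
    rwa [add_sub_cancel_right] at this
  have hg : (1 : ℕ) ≤ max 1 (n - m - 1) := le_max_left _ _
  have hDeg : H377.Deg p (max 1 (n - m - 1)) (fun k => D (k + ε)) := by
    refine ⟨hD', fun t ht i h1 h2 hti => ?_⟩
    rcases eq_or_lt_of_le h1 with rfl | h1'
    · have h3 := hev _ ht
      have h4 := hev _ hti
      omega
    · refine hgap _ ht i h1 ?_ (by
        have h4 : t + ε + i = t + i + ε := by ring
        rwa [h4])
      push_cast at h2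
      omega
  have hK := H377.exHigh_of_tower E hDeg hg hev (m := m) (by omega) hCS (finZp_of_good hC hG₂)
    (fun j W hW => finite_ten_genMoore hC hG₂ hW) hV' (by
      obtain ⟨N₀, hN₀⟩ := hten _ V hV'.gen
      refine Filter.eventually_atTop.2 ⟨max N₀ (max (N' - ε + 1) (-ε)), fun k hk =>
        hN₀ k (le_trans (le_max_left _ _) hk) ?_⟩
      have h2 := le_trans (le_max_right _ _) hk
      have h3 := le_trans (le_max_left _ _) h2
      have h4 := le_trans (le_max_right _ _) h2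
      exact hz _ (by rw [abs_of_nonneg (by omega)]; omega))
  obtain ⟨m₀, hm₀⟩ := hG₂.bb
  have hT : St.Thick B (X₁⟦-ε⟧) := P221.H509.stThick_of_thick (E.thick_of_exHigh hG₂.pc hm₀
    (finZp_of_good hC hG₂) (k₀ := 0) (fun k _ hk => hsp k fun h1 => hk (by
      have := hpar _ h1
      rwa [add_sub_cancel_right] at this)) hK)
  have hT₁ : St.Thick B X₁ :=
    H521.thick_of_iso ((shiftFunctorCompIsoId T.C (-ε) ε (by ring)).app X₁) (St.Thick.susp ε hT)
  refine H460.thick_of_thickI (H460.thick_of_gen (Q := fun Z => Z = X₁) (M := X) hp hBI hX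
    (H460.evIso_ident X) (fun Y hY => hY ▸ hT₁) (StI.ThickOf.base ⟨X₁, f, ⟨N, hf.bij⟩, rfl⟩))

end Vale.Agent.P221.H626
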