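import Vale.Agent.P221.H626.Kos
import Vale.Agent.P221.H377.Sys

/-!
# P221 (helper626): regular sequences on the functionals of a `p`-complete `BP`-module

`M = π_* Y` with the graded pieces `Mg`; `F = Hom (GG p, M)`, `fgr Mg k` the functionals of degree `k`,
`xop X a ζ = ζ ∘ (η_R (v_a) ·)`.

* `inB_xop_iff` : `ζ ∈ ∑_{a < m} F x_a ↔` all values of `ζ` lie in `(v_0, …, v_{m-1}) M`;
* `isReg_xop` : if `v_0, …, v_{r-1}` is a regular sequence on `M`, then `x_0, …, x_{r-1}` is one on `F`;
* `ex_xop`, `ex_xop_zero` : exactness of the Koszul complex;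
* `rg_xx` : the version for `⨁_k A_k`.
-/

open MvPolynomial

set_option linter.unusedSectionVars false

namespace Vale.Agent.P221.H626

open Vale.Agent.P221.T Vale.Agent.P221.T.H746 Vale.Agent.P221.H460 Vale.Agent.P221.H377

section inb

variable {F : Type*} [AddCommGroup F] {x : ℕ → F →+ F} {gr : ℤ → AddSubgroup F} {dg : ℕ → ℤ}

theorem InB.zero (r : ℕ) (k : ℤ) : InB x gr dg r k 0 :=
  ⟨fun _ => 0, fun _ _ => AddSubgroup.zero_mem _, (Finset.sum_eq_zero fun _ _ => map_zero _).symm⟩

theorem InB.add {r : ℕ} {k : ℤ} {z z' : F} (h : InB x gr dg r k z) (h' : InB x gr dg r k z') :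
    InB x gr dg r k (z + z') := by
  obtain ⟨y, hy, rfl⟩ := h
  obtain ⟨y', hy', rfl⟩ := h'
  refine ⟨fun a => y a + y' a, fun a ha => AddSubgroup.add_mem _ (hy a ha) (hy' a ha), ?_⟩
  rw [← Finset.sum_add_distrib]
  exact Finset.sum_congr rfl fun a _ => (map_add _ _ _).symm

theorem InB.neg {r : ℕ} {k : ℤ} {z : F} (h : InB x gr dg r k z) : InB x gr dg r k (-z) := by
  obtain ⟨y, hy, rfl⟩ := h
  refine ⟨fun a => -y a, fun a ha => AddSubgroup.neg_mem _ (hy a ha), ?_⟩
  rw [← Finset.sum_neg_distrib]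
  exact Finset.sum_congr rfl fun a _ => (map_neg _ _).symm

theorem InB.sub {r : ℕ} {k : ℤ} {z z' : F} (h : InB x gr dg r k z) (h' : InB x gr dg r k z') :
    InB x gr dg r k (z - z') := by
  rw [sub_eq_add_neg]
  exact h.add h'.neg

theorem InB.sum {r : ℕ} {k : ℤ} {ι : Type*} (s : Finset ι) (f : ι → F)
    (h : ∀ i ∈ s, InB x gr dg r k (f i)) : InB x gr dg r k (∑ i ∈ s, f i) := by
  classical
  induction s using Finset.induction_on with
  | empty =>
    rw [Finset.sum_empty]
    exact InB.zero r k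
  | insert a s ha ih =>
    rw [Finset.sum_insert ha]
    exact (h a (Finset.mem_insert_self _ _)).add (ih fun i hi => h i (Finset.mem_insert_of_mem hi))

theorem InB.mono {r r' : ℕ} (hr : r ≤ r') {k : ℤ} {z : F} (h : InB x gr dg r k z) :
    InB x gr dg r' k z := by
  obtain ⟨y, hy, rfl⟩ := h
  refine ⟨fun a => if a < r then y a else 0, fun a _ => ?_, ?_⟩
  · beta_reduce
    split_ifs with h1
    · exact hy a h1
    · exact AddSubgroup.zero_mem _
  · obtain ⟨j, rfl⟩ := Nat.exists_eq_add_of_le hr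
    rw [Finset.sum_range_add, Finset.sum_eq_zero (s := Finset.range j), add_zero]
    · refine Finset.sum_congr rfl fun a ha => ?_
      beta_reduce
      rw [if_pos (Finset.mem_range.1 ha)]
    · intro a _
      beta_reduce
      rw [if_neg (by omega), map_zero]

/-- one summand -/
theorem InB.single {r a : ℕ} (ha : a < r) {k : ℤ} {w : F} (hw : w ∈ gr (k - dg a)) :
    InB x gr dg r k (x a w) := by
  refine InB.mono (r := a + 1) ha (inB_succ.2 ⟨w, hw, ?_⟩)
  rw [sub_self]
  exact InB.zero _ _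

theorem InB.cast {r : ℕ} {k k' : ℤ} (h : k = k') {z : F} (hz : InB x gr dg r k z) :
    InB x gr dg r k' z := h ▸ hz

theorem InB.mem {r : ℕ} {k : ℤ} {z : F} (hg : ∀ a k, ∀ z ∈ gr k, x a z ∈ gr (k + dg a))
    (h : InB x gr dg r k z) : z ∈ gr k := by
  obtain ⟨y, hy, rfl⟩ := h
  refine AddSubgroup.sum_mem _ fun a ha => ?_
  have h1 := hg a _ _ (hy a (Finset.mem_range.1 ha))
  rwa [sub_add_cancel] at h1

end inb

variable {p : ℕ} [hp : Fact p.Prime] {n : ℕ} {ld : Lead p n} {S : Src p n} {O : OpAlg ld S}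
  (X : OpX O) {M : Type} [AddCommGroup M] [Module (KK p) M] (Mg : ℤ → AddSubgroup M)

/-- the functionals of degree `k` -/
def fgr (k : ℤ) : AddSubgroup (GG p →ₗ[KK p] M) where
  carrier := {ζ | ∀ E, ζ (monomial E 1) ∈ Mg (k + dT p E)}
  add_mem' := fun {ζ ζ'} h h' E => by
    rw [LinearMap.add_apply]
    exact AddSubgroup.add_mem _ (h E) (h' E)
  zero_mem' := fun E => by
    rw [LinearMap.zero_apply]
    exact AddSubgroup.zero_mem _
  neg_mem' := fun {ζ} h E => by
    rw [LinearMap.neg_apply]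
    exact AddSubgroup.neg_mem _ (h E)

variable {Mg} in
theorem mem_fgr {k : ℤ} {ζ : GG p →ₗ[KK p] M} :
    ζ ∈ fgr Mg k ↔ ∀ E, ζ (monomial E 1) ∈ Mg (k + dT p E) := Iff.rfl

/-- right multiplication with `v_m` -/
noncomputable def xop (m : ℕ) : (GG p →ₗ[KK p] M) →+ (GG p →ₗ[KK p] M) where
  toFun ζ := ζ ∘ₗ LinearMap.mulLeft (KK p) (X.eta (vK p m))
  map_zero' := by rw [LinearMap.zero_comp]
  map_add' := fun ζ ζ' => by rw [LinearMap.add_comp]

@[simp] theorem xop_apply (m : ℕ) (ζ : GG p →ₗ[KK p] M) (z : GG p) :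
    xop X m ζ z = ζ (X.eta (vK p m) * z) := rfl

theorem xop_comm (a b : ℕ) (ζ : GG p →ₗ[KK p] M) : xop X a (xop X b ζ) = xop X b (xop X a ζ) := by
  refine LinearMap.ext fun z => ?_
  rw [xop_apply, xop_apply, xop_apply, xop_apply, ← mul_assoc, ← mul_assoc,
    mul_comm (X.eta (vK p a))]

/-- multiplication with `v_m` on `M` -/
noncomputable def vop (p : ℕ) [Fact p.Prime] (M : Type) [AddCommGroup M] [Module (KK p) M] (m : ℕ) : M →+ M where
  toFun y := vK p m • y
  map_zero' := smul_zero _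
  map_add' := smul_add _

@[simp] theorem vop_apply (m : ℕ) (y : M) : vop p M m y = vK p m • y := rfl

section mod

variable (hsm : ∀ {k m : ℤ} {f : KK p} {y : M}, HK p m f → y ∈ Mg k → f • y ∈ Mg (k + m))

include hsm in
/-- multiplication with homogeneous elements -/
theorem InB.smul {r : ℕ} {k m k' : ℤ} (h : k + m = k') {f : KK p} (hf : HK p m f) {y : M}
    (hy : InB (vop p M) Mg (sV p) r k y) : InB (vop p M) Mg (sV p) r k' (f • y) := by
  subst h
  obtain ⟨z, hz, rfl⟩ := hy
  refine ⟨fun a => f • z a, fun a ha => ?_, ?_⟩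
  · have h1 := hsm hf (hz a ha)
    have h2 : k - sV p a + m = k + m - sV p a := by ring
    rwa [h2] at h1
  · rw [Finset.smul_sum]
    refine Finset.sum_congr rfl fun a _ => ?_
    rw [vop_apply, vop_apply, smul_comm]

/-- the value at `η f · t^E` as a sum -/
theorem val_sum (f : GG p) (E : ℕ →₀ ℕ) (ζ : GG p →ₗ[KK p] M) : ζ (f * monomial E 1) =
    ∑ E' ∈ f.support, coeff E' f • ζ (monomial (E' + E) 1) := by
  conv_lhs => rw [f.as_sum, Finset.sum_mul, map_sum]
  refine Finset.sum_congr rfl fun E' _ => ?_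
  rw [monomial_mul, mul_one, ← map_smul, smul_monomial, smul_eq_mul, mul_one]

include hsm in
/-- **the values at `η_R (v_m) t^E`** -/
theorem val_comb {k : ℤ} {ζ : GG p →ₗ[KK p] M} (hζ : ζ ∈ fgr Mg k) (m : ℕ) (E : ℕ →₀ ℕ) :
    InB (vop p M) Mg (sV p) m (k + sV p m + dT p E)
      (ζ (X.eta (vK p m) * monomial E 1) - vK p m • ζ (monomial E 1)) := by
  classical
  have h1 : ζ (X.eta (vK p m) * monomial E 1) - vK p m • ζ (monomial E 1) =
      ∑ E' ∈ (X.eta (vK p m)).support.erase 0,
        coeff E' (X.eta (vK p m)) • ζ (monomial (E' + E) 1) := by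
    rw [val_sum]
    by_cases h0 : (0 : ℕ →₀ ℕ) ∈ (X.eta (vK p m)).support
    · rw [← Finset.add_sum_erase _ _ h0, X.eta_zero, zero_add, add_sub_cancel_left]
    · have h2 : vK p m = 0 := by
        have h3 := notMem_support_iff.1 h0
        rwa [X.eta_zero] at h3
      rw [Finset.erase_eq_of_notMem h0, h2, zero_smul, sub_zero]
  rw [h1]
  refine InB.sum _ _ fun E' hE' => ?_
  obtain ⟨g, hg, hg'⟩ := eta_comb X m (Finset.ne_of_mem_erase hE')
  rw [hg', Finset.sum_smul]
  refine InB.sum _ _ fun a _ => ?_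
  rw [mul_smul]
  refine InB.single (x := vop p M) a.2 ?_
  have h2 := hsm (hg a) (hζ (E' + E))
  have h3 : k + dT p (E' + E) + (sV p m - dT p E' - sV p a) = k + sV p m + dT p E - sV p a := by
    rw [dT_add]
    ring
  rwa [h3] at h2

include hsm in
theorem xop_mem {k : ℤ} {ζ : GG p →ₗ[KK p] M} (hζ : ζ ∈ fgr Mg k) (m : ℕ) :
    xop X m ζ ∈ fgr Mg (k + sV p m) := by
  intro E
  have h1 := val_comb X Mg hsm hζ m E
  have hv : ∀ a k, ∀ z ∈ Mg k, vop p M a z ∈ Mg (k + sV p a) := fun a k z hz =>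
    hsm (HK_vK a) hz
  have h2 := h1.mem hv
  have h3 := hv m _ _ (hζ E)
  rw [xop_apply]
  have h4 : k + dT p E + sV p m = k + sV p m + dT p E := by ring
  rw [h4] at h3
  have h5 := AddSubgroup.add_mem _ h2 h3
  rwa [vop_apply, sub_add_cancel] at h5

/-- functionals with prescribed values -/
theorem exists_fun (c : (ℕ →₀ ℕ) → M) : ∃ ζ : GG p →ₗ[KK p] M, ∀ E, ζ (monomial E 1) = c E := by
  classical
  refine ⟨(basisMonomials ℕ (KK p)).constr ℕ c, fun E => ?_⟩
  have h1 := (basisMonomials ℕ (KK p)).constr_basis ℕ c E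
  rwa [coe_basisMonomials] at h1

include hsm in
/-- **the sum of the images of `x_0, …, x_{m-1}`** -/
theorem inB_xop_iff {m : ℕ} : ∀ {k : ℤ} {ζ : GG p →ₗ[KK p] M} (_ : ζ ∈ fgr Mg k),
    InB (xop X) (fgr Mg) (sV p) m k ζ ↔
      ∀ E, InB (vop p M) Mg (sV p) m (k + dT p E) (ζ (monomial E 1)) := by
  induction m with
  | zero =>
    intro k ζ _
    rw [inB_zero]
    constructor
    · rintro rfl E
      rw [LinearMap.zero_apply]
      exact InB.zero _ _
    · intro h
      exact monoExt fun E => (inB_zero.1 (h E)).trans (LinearMap.zero_apply _).symm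
  | succ m ih =>
    intro k ζ hζ
    constructor
    · intro h E
      obtain ⟨w, hw, h1⟩ := inB_succ.1 h
      have h2 : ζ - xop X m w ∈ fgr Mg k := by
        have h3 := xop_mem X Mg hsm hw m
        rw [sub_add_cancel] at h3
        exact AddSubgroup.sub_mem _ hζ h3
      have h3 := (ih h2).1 h1 E
      have h4 := val_comb X Mg hsm hw m E
      rw [sub_add_cancel] at h4
      rw [inB_succ]
      have h5 := hw E
      have h6 : k - sV p m + dT p E = k + dT p E - sV p m := by ring
      rw [h6] at h5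
      refine ⟨_, h5, ?_⟩
      have h7 := h3.add h4
      rw [LinearMap.sub_apply, xop_apply] at h7
      rwa [sub_add_sub_cancel] at h7
    · intro h
      have h1 : ∀ E, ∃ w ∈ Mg (k + dT p E - sV p m),
          InB (vop p M) Mg (sV p) m (k + dT p E) (ζ (monomial E 1) - vop p M m w) := fun E =>
        inB_succ.1 (h E)
      choose c hc hc' using h1
      obtain ⟨w, hw⟩ := exists_fun (p := p) c
      have hw' : w ∈ fgr Mg (k - sV p m) := by
        intro E
        rw [hw]
        have h6 : k - sV p m + dT p E = k + dT p E - sV p m := by ring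
        rw [h6]
        exact hc E
      rw [inB_succ]
      refine ⟨w, hw', ?_⟩
      have h2 : ζ - xop X m w ∈ fgr Mg k := by
        have h3 := xop_mem X Mg hsm hw' m
        rw [sub_add_cancel] at h3
        exact AddSubgroup.sub_mem _ hζ h3
      rw [ih h2]
      intro E
      have h4 := val_comb X Mg hsm hw' m E
      rw [sub_add_cancel] at h4
      have h5 := (hc' E).sub h4
      rw [vop_apply, ← hw E] at h5
      rwa [LinearMap.sub_apply, xop_apply, ← sub_sub_sub_cancel_right _ _ (vK p m • w (monomial E 1))]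

include hsm in
/-- **regular sequences** -/
theorem isReg_xop {r : ℕ} (h : IsReg (vop p M) Mg (sV p) r) :
    IsReg (xop X) (fgr Mg) (sV p) r := by
  intro b hb k ζ hζ h1
  rw [inB_xop_iff X Mg hsm (xop_mem X Mg hsm hζ b)] at h1
  rw [inB_xop_iff X Mg hsm hζ]
  intro E
  refine h b hb _ _ (hζ E) ?_
  have h2 := (h1 E).sub (val_comb X Mg hsm hζ b E)
  rw [xop_apply, sub_sub_cancel] at h2
  exact h2.cast (by ring)

include hsm in
/-- the Koszul complex of a regular sequence -/
theorem ex_xop {r : ℕ} (h : IsReg (vop p M) Mg (sV p) r) {s t : ℤ} (hs : 1 ≤ s) :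
    Ex (xop X) (fgr Mg) (sV p) r s t :=
  ex_of_reg (xop_comm X) (fun a _ _ hz => xop_mem X Mg hsm hz a) (isReg_xop X Mg hsm h) hs

include hsm in
theorem ex_xop_zero {r : ℕ} {t₀ : ℤ}
    (h : ∀ t, t₀ ≤ t → ∀ y ∈ Mg t, InB (vop p M) Mg (sV p) r t y) {t : ℤ} (ht : t₀ ≤ t) :
    Ex (xop X) (fgr Mg) (sV p) r 0 t := by
  rw [ex_zero_iff]
  intro ζ hζ
  rw [inB_xop_iff X Mg hsm hζ]
  intro E
  have := dT_nonneg (p := p) E
  exact h _ (by omega) _ (hζ E)

end mod

/-! ### modules -/

section coor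

variable {Y : Sys S} {Mg} (co : Coor O Y M Mg)

include co in
theorem range_c (k : ℤ) (ζ : GG p →ₗ[KK p] M) : (∃ a, co.c k a = ζ) ↔ ζ ∈ fgr Mg k := co.range k ζ

include co in
theorem xop_c {m : ℕ} {k k' : ℤ} (h : k + sV p m = k') (a : Y.A k) :
    co.c k' (Y.act h a (gm X m)) = xop X m (co.c k a) := by
  rw [co.act]
  refine LinearMap.ext fun z => ?_
  rw [LinearMap.comp_apply, T_gm, xop_apply]

/-- the structure `Ev` of a module -/
def evOfCoor : Ev O Y M where
  c := co.c
  inj := co.inj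
  act := co.act
  e := co.e
  e_inj := co.e_inj
  ev := co.ev
  low k c₀ a _ E hE := by
    have h1 := (co.range k (co.c k a)).1 ⟨a, rfl⟩ E
    rw [hE] at h1
    exact (co.e_range _ _).2 h1

include co in
/-- the values at `1` -/
theorem mem_Nm_iff {m : ℕ} {k : ℤ} {x : Y.Pi k} :
    x ∈ Nm (evOfCoor co) X m k ↔ InB (vop p M) Mg (sV p) m k (co.e k x) := by
  have hsm := fun {k m : ℤ} {f : KK p} {y : M} => co.smul_mem (k := k) (m := m) (f := f) (y := y)
  have h0 : (monomial (0 : ℕ →₀ ℕ) 1 : GG p) = 1 := rfl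
  constructor
  · rintro ⟨b, hb⟩
    change co.e k x = _ at hb
    rw [hb]
    refine InB.sum _ _ fun a _ => ?_
    change InB (vop p M) Mg (sV p) m k (co.c _ (b a) (X.eta (vK p a)))
    have h1 : co.c _ (b a) ∈ fgr Mg (k - sV p a) := (range_c co _ _).1 ⟨_, rfl⟩
    have h2 := val_comb X Mg hsm h1 a 0
    rw [h0, mul_one, sub_add_cancel, dT_zero, add_zero] at h2
    have h3 : InB (vop p M) Mg (sV p) m k (vK p a • co.c _ (b a) 1) := by
      refine InB.single (x := vop p M) a.2 ?_
      have h4 := h1 0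
      rwa [h0, dT_zero, add_zero] at h4
    have h5 := (h2.mono a.2.le).add h3
    rwa [sub_add_cancel] at h5
  · intro h
    obtain ⟨ζ, hζ⟩ := exists_fun (p := p) (M := M) fun E => if E = 0 then co.e k x else 0
    have hζ' : ζ ∈ fgr Mg k := by
      intro E
      rw [hζ]
      split_ifs with hE
      · rw [hE, dT_zero, add_zero]
        exact (co.e_range _ _).1 ⟨x, rfl⟩
      · exact AddSubgroup.zero_mem _
    have h1 : InB (xop X) (fgr Mg) (sV p) m k ζ := by
      rw [inB_xop_iff X Mg hsm hζ']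
      intro E
      rw [hζ]
      split_ifs with hE
      · rw [hE, dT_zero, add_zero]
        exact h
      · exact InB.zero _ _
    obtain ⟨y, hy, hy'⟩ := h1
    have h2 : ∀ a : Fin m, ∃ b : Y.A (k - sV p a), co.c _ b = y a := fun a =>
      (range_c co _ _).2 (hy a a.2)
    choose b hb using h2
    refine ⟨b, ?_⟩
    change co.e k x = ∑ a : Fin m, co.c _ (b a) (X.eta (vK p a))
    have h3 : ζ 1 = co.e k x := by
      rw [← h0, hζ, if_pos rfl]
    rw [← h3, hy', LinearMap.sum_apply, Finset.sum_range]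
    refine Finset.sum_congr rfl fun a _ => ?_
    rw [xop_apply, mul_one, hb]

include co in
/-- `W = NA` -/
theorem mem_W_iff' {m : ℕ} {α : AA Y} :
    α ∈ W (D0 Y) (xx X Y) (fun _ => 1) m ↔ ∀ k, InB (vop p M) Mg (sV p) m k (co.e k (Y.ev k (α k))) := by
  classical
  constructor
  · intro h k
    rw [← mem_Nm_iff X co]
    exact W_le_NA (evOfCoor co) X m h k
  · intro h
    rw [← DirectSum.sum_support_of α]
    refine AddSubgroup.sum_mem _ fun k _ => ?_
    refine (mem_W_iff (evOfCoor co) X).2 ?_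
    rw [mem_Nm_iff X co]
    exact h k

include co in
/-- the components of `x_m α` -/
theorem xx_component (m : ℕ) {k k' : ℤ} (h : k + sV p m = k') (α : AA Y) :
    (xx X Y m α) k' = Y.act h (α k) (gm X m) := by
  classical
  induction α using DirectSum.induction_on with
  | zero =>
    rw [map_zero, DirectSum.zero_apply, DirectSum.zero_apply, map_zero, AddMonoidHom.zero_apply]
  | of l a =>
    rw [xx, opA_of Y (rfl : l + sV p m = _)]
    by_cases hl : l = k
    · subst hl
      subst h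
      rw [DirectSum.of_eq_same, DirectSum.of_eq_same]
    · rw [DirectSum.of_eq_of_ne _ _ _ (by omega), DirectSum.of_eq_of_ne _ _ _ (by omega), map_zero,
        AddMonoidHom.zero_apply]
  | add α β h1 h2 =>
    rw [map_add, DirectSum.add_apply, DirectSum.add_apply, map_add, h1, h2, AddMonoidHom.add_apply]

include co in
/-- **regularity in `⨁_k A_k`, modulo the kernel of the evaluation** -/
theorem rg_xx {r : ℕ} (h : IsReg (vop p M) Mg (sV p) r) (m : ℕ) (hm : m < r) :
    Rg (xx X Y m) (W (D0 Y) (xx X Y) (fun _ => 1) m) := by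
  have hsm := fun {k m : ℤ} {f : KK p} {y : M} => co.smul_mem (k := k) (m := m) (f := f) (y := y)
  have h0 : (monomial (0 : ℕ →₀ ℕ) 1 : GG p) = 1 := rfl
  intro α hα
  rw [mem_W_iff' X co] at hα ⊢
  intro k
  refine h m hm k _ ((co.e_range _ _).1 ⟨_, rfl⟩) ?_
  have h1 := hα (k + sV p m)
  rw [xx_component X co m rfl, co.ev, xop_c, xop_apply, mul_one] at h1
  have h2 : co.c k (α k) ∈ fgr Mg k := (range_c co _ _).1 ⟨_, rfl⟩
  have h3 := val_comb X Mg hsm h2 m 0
  rw [h0, mul_one, dT_zero, add_zero, ← co.ev] at h3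
  have h4 := h1.sub h3
  rwa [co.ev, sub_sub_cancel, ← co.ev] at h4

end coor

end Vale.Agent.P221.H626
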