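import Vale.Agent.P221.H626.Ev3
import Vale.Agent.P221.T.H598.SB1
import Vale.Agent.P221.T.H609.SB2
import Vale.Agent.P221.T.H817.A1
import Vale.Agent.P221.T.H817.A2
import Vale.Agent.P221.T.Src

/-!
# P221 (helper626): more on the operations of `BP`

* `ee_P` : the `p`-complete Brown-Peterson spectrum `P` is even, `p`-complete and bounded below;
* `T_low` : the lowest coordinates of an operation;
* `opX` : the structure `OpX`.
-/

open CategoryTheory MonoidalCategory MonObj Limits Pretriangulated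

set_option linter.unusedSectionVars false

universe u

noncomputable section

namespace Vale.Agent.P221.H626

open Vale.Agent.P251 Vale.Agent.P251.S Vale.Agent.P251.T Vale.Agent.P251.M Vale.Agent.P251.F
  Vale.Agent.P251.I EvenSpheres Vale.Agent.P257.H80 Vale.Agent.P257.H762 Vale.Agent.P221.H246
  Vale.Agent.P221.Loc Vale.Agent.P221.E Vale.Agent.P221.E.H817
open Vale.Agent.P221.H395 (PComplete)
open Vale.Agent.P221.T (fm fm_comp shift_fm fm_assoc fm_tlMap gc comp_gc gc_map gc_comp ext_isLin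
  IsLin BPS PiM zr KK GG HK dT SrcT Lead OpAlg Coor Ip II)
open Vale.Agent.P221.H460 (Ev OpX HK_neg_eq_zero)
open MvPolynomial (monomial coeff)

variable {𝒯 : Type u} [Category.{0} 𝒯] [Preadditive 𝒯] [HasZeroObject 𝒯]
    [HasShift 𝒯 ℤ] [∀ n : ℤ, (shiftFunctor 𝒯 n).Additive] [Pretriangulated 𝒯] [IsTriangulated 𝒯]
    [MonoidalCategory 𝒯] [SymmetricCategory 𝒯] [TensorTriangulated 𝒯] [MonoidalClosed 𝒯]
    [HasCoproducts.{0} 𝒯] [HasProducts.{0} 𝒯] [StableCat 𝒯]

variable {D : MUData 𝒯} {F : SpaceFunctor 𝒯} {e : F.S.obj CCF ≅ (stdEven 𝒯).L}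
  {p : ℕ} [hp : Fact p.Prime] {B : 𝒯} [MonObj B] [IsCommMonObj B] {b : D.R ⟶ B} [IsMonHom b]
  {P W : 𝒯} (β : BPS p B P W)

/-- homogeneous polynomials have even degree -/
theorem HK_odd {k : ℤ} (hk : ¬ (2 : ℤ) ∣ k) {f : KK p} (hf : HK p k f) : f = 0 := by
  ext E
  rw [MvPolynomial.coeff_zero]
  by_contra hne
  have h1 : dT p E = k := hf hne
  have h2 := dT_eq p E
  omega

include β in
/-- `P` is even, `p`-complete and bounded below -/
theorem ee_P : EE p P := by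
  have h0 : ∀ {k : ℤ} (z : (𝟙_ 𝒯)⟦k⟧ ⟶ P), (∀ f : KK p, HK p k f → f = 0) → z = 0 := by
    intro k z h
    obtain ⟨f, ⟨hf, hz⟩, -⟩ := β.free k z
    rw [h f hf, map_zero] at hz
    exact Vale.Agent.P221.T.PiM.of_injective P k (hz.trans (map_zero _).symm)
  refine ⟨fun k x => h0 x fun f hf => HK_odd (by omega) hf, β.cP, 0, fun k hk x => ?_⟩
  exact h0 x fun f hf => HK_neg_eq_zero hk hf

/-- `B ⊗ P ⟶ W` is a split monomorphism -/
theorem exists_retr_w' (hD : MUUniv e D) (hb : IsBPMon p b) :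
    ∃ v : W ⟶ B ⊗ P, β.w' ≫ v = 𝟙 _ := by
  have h1 := ((ee_P β).tensB hD hb).pc
  obtain ⟨v, hv⟩ := (β.w_bij0' (B ⊗ P) h1).2 (B ◁ β.c)
  refine ⟨v, (β.c_bij0 B (B ⊗ P) h1).1 ?_⟩
  change (B ◁ β.c) ≫ β.w' ≫ v = (B ◁ β.c) ≫ 𝟙 _
  rw [← Category.assoc, β.c_w', Category.comp_id]
  exact hv

/-- the operations in terms of `B ⊗ P` -/
theorem Wm_eq (h1 : PComplete p (B ⊗ P)) {m : ℤ} (g : P⟦m⟧ ⟶ P) :
    β.Wm g = β.til (ModStr.free B P) h1 (g ≫ unitMap B P) ≫ β.w' := by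
  apply β.wext_unique β.cW
  have h2 : fm (tensorLeft B) (β.c⟦m⟧' ≫ g) = (B ◁ β.c)⟦m⟧' ≫ fm (tensorLeft B) g :=
    shift_fm (tensorLeft B) β.c g
  have h3 : β.w⟦m⟧' ≫ β.til (ModStr.free B P) h1 (g ≫ unitMap B P) =
      (B ◁ β.c)⟦m⟧' ≫ fm (tensorLeft B) g := by
    rw [β.w_til, ← Category.assoc (β.c⟦m⟧'), ext_unit_free, h2]
  rw [β.w_Wm, ← Category.assoc (β.w⟦m⟧'), h3, Category.assoc]

theorem ω_T_monomial (h1 : PComplete p (B ⊗ P)) {m : ℤ} (g : P⟦m⟧ ⟶ P) (E : ℕ →₀ ℕ) :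
    β.ω (β.T g (monomial E 1)) = PiM.of W (m + dT p E)
      (gc rfl (β.τ E) (Vale.Agent.P221.T.ext (ModStr.free B P) (β.c⟦m⟧' ≫ g ≫ unitMap B P)) ≫
        β.w') := by
  rw [β.specA1.ω_T, β.ω_monomial, Vale.Agent.P221.T.PiM.map_of _ rfl, Wm_eq β h1, gc_comp,
    gc_map, β.w_til]

theorem map_comp0 {X Y Z : 𝒯} {m : ℤ} (f : X⟦m⟧ ⟶ Y) (g : Y ⟶ Z) (x : PiM X) :
    PiM.map (f ≫ g) x = PiM.map0 g (PiM.map f x) := by
  induction x using DirectSum.induction_on with
  | zero => rw [map_zero, map_zero, map_zero]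
  | of l x =>
    have h1 := Vale.Agent.P221.T.PiM.map_of f (rfl : m + l = m + l) x
    have h2 := Vale.Agent.P221.T.PiM.map_of (f ≫ g) (rfl : m + l = m + l) x
    have h3 := Vale.Agent.P221.T.PiM.map0_of g (m + l) (gc rfl x f)
    unfold PiM.of at h1 h2 h3
    rw [h1, h2, h3, gc_comp]
  | add x y hx hy => rw [map_add, map_add, map_add, hx, hy]

/-- the right unit -/
theorem ω_eta (h1 : PComplete p (B ⊗ P)) {k : ℤ} {f : KK p} (hf : HK p k f) :
    β.ω (β.eta f) = PiM.of W k (β.cls k f ≫ unitMap B P ≫ β.w') := by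
  have h2 : β.T (β.mult k f) 1 = β.eta f := by
    rw [(Vale.Agent.P221.T.H598.specB1 β β.specA1).T_mult k f hf, _root_.mul_one]
  have h4 : (η[B] ≫ β.c)⟦k⟧' ≫ β.mult k f = β.cls k f := by
    rw [Functor.map_comp, Category.assoc, BPS.mult, β.c_cext, Vale.Agent.P221.T.unit_hat]
  rw [← h2, β.specA1.ω_T, Wm_eq β h1, map_comp0, Vale.Agent.P221.T.H609.map_til_one,
    Vale.Agent.P221.T.PiM.map0_of, ← Category.assoc, h4, Category.assoc]

/-- the key step -/
theorem T_key (hD : MUUniv e D) (hb : IsBPMon p b) {m c : ℤ} (g : P⟦m⟧ ⟶ P)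
    (h : ∀ E, dT p E < c → β.T g (monomial E 1) = 0) (E : ℕ →₀ ℕ) (hE : dT p E = c) :
    β.T g (monomial E 1) = β.eta (coeff 0 (β.T g (monomial E 1))) := by
  have h1 := ((ee_P β).tensB hD hb).pc
  obtain ⟨v, hv⟩ := exists_retr_w' β hD hb
  have h2 : ∀ E, dT p E < c → gc (rfl : m + dT p E = m + dT p E) (β.τ E)
      (Vale.Agent.P221.T.ext (ModStr.free B P) (β.c⟦m⟧' ≫ g ≫ unitMap B P)) = 0 := by
    intro E hE
    have h3 := ω_T_monomial β h1 g E
    rw [h E hE, map_zero] at h3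
    have h4 := Vale.Agent.P221.T.PiM.of_injective W _ ((map_zero (PiM.of W _)).trans h3)
    have h5 := congrArg (fun t => t ≫ v) h4
    simp only [Category.assoc, hv, zero_comp] at h5
    exact ((Category.comp_id _).symm.trans h5.symm)
  obtain ⟨x, hx⟩ := exists_low β hD hb (ee_P β) g h2 E hE
  obtain ⟨f, ⟨hf, hxf⟩, -⟩ := β.free (m + c) x
  have h6 : x = β.cls (m + c) f := by
    apply Vale.Agent.P221.T.PiM.of_injective
    rw [hxf, Vale.Agent.P221.T.H609.of_cls β hf]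
    rfl
  have h7 : β.T g (monomial E 1) = β.eta f := by
    apply β.specA1.ω_bij.1
    rw [ω_T_monomial β h1, ω_eta β h1 hf, ← h6]
    have h8 := congrArg (PiM.map0 β.w') hx
    rw [Vale.Agent.P221.T.PiM.map0_of, Vale.Agent.P221.T.PiM.map0_of] at h8
    rw [← h8, Category.assoc]
  have B2 := Vale.Agent.P221.T.H609.specB2 β β.specA1
    (Vale.Agent.P221.T.H598.specB1 β β.specA1)
  rw [h7, B2.eta_zero]

/-- **the lowest coordinates of an operation** -/
theorem T_low (hD : MUUniv e D) (hb : IsBPMon p b) {m : ℤ} (g : P⟦m⟧ ⟶ P) (c : ℤ)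
    (h : ∀ E, dT p E < c → coeff 0 (β.T g (monomial E 1)) = 0) :
    (∀ E, dT p E < c → β.T g (monomial E 1) = 0) ∧
      ∀ E, dT p E = c → β.T g (monomial E 1) = β.eta (coeff 0 (β.T g (monomial E 1))) := by
  have h1 : ∀ (N : ℕ) (E : ℕ →₀ ℕ), dT p E < N → dT p E < c → β.T g (monomial E 1) = 0 := by
    intro N
    induction N with
    | zero =>
      intro E hE
      have h2 := Vale.Agent.P221.T.dT_nonneg (p := p) E
      push_cast at hE
      omega
    | succ N ih =>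
      intro E hE hE'
      have h3 := T_key β hD hb g (c := dT p E) (fun E' h' => ih E' (by push_cast at hE; omega)
        (by omega)) E rfl
      rw [h3, h E hE', map_zero]
  have h4 : ∀ E, dT p E < c → β.T g (monomial E 1) = 0 := fun E hE =>
    h1 ((dT p E).toNat + 1) E (by
      have h2 := Vale.Agent.P221.T.dT_nonneg (p := p) E
      push_cast
      omega) hE
  exact ⟨h4, fun E hE => T_key β hD hb g h4 E hE⟩

theorem T_sub {m : ℤ} (g g' : P⟦m⟧ ⟶ P) : β.T (g - g') = β.T g - β.T g' := by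
  rw [sub_eq_add_neg, β.specA1.T_add, β.T_neg β.specA1]
  refine LinearMap.ext fun z => ?_
  rw [LinearMap.add_apply, LinearMap.neg_apply, LinearMap.sub_apply]
  exact (sub_eq_add_neg (β.T g z) (β.T g' z)).symm

/-- operations with coordinates in `I^t` -/
theorem mem_Ip (hD : MUUniv e D) (hb : IsBPMon p b) {m t : ℤ} {c : (ℕ →₀ ℕ) → KK p}
    (hc : ∀ E, HK p (m + dT p E) (c E)) (hc' : ∀ E, c E ∈ Ip p t) (g : P⟦m⟧ ⟶ P)
    (hg : ∀ E, coeff 0 (β.T g (monomial E 1)) = c E) (E E' : ℕ →₀ ℕ) :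
    coeff E' (β.T g (monomial E 1)) ∈ Ip p t := by
  classical
  have hfin : {E' : ℕ →₀ ℕ | dT p E' ≤ dT p E}.Finite := by
    refine (finite_dB p (dT p E)).subset fun E' hE' => ?_
    change dT p E' ≤ dT p E at hE'
    change 2 * dB p E' ≤ dT p E
    rwa [← dT_eq]
  let s : Finset (ℕ →₀ ℕ) := hfin.toFinset
  let N : ℕ := s.sup fun E => (c E).vars.sup id + 1
  have hN : ∀ E' ∈ s, ∃ q : MvPolynomial (Fin N) ℤ_[p],
      MvPolynomial.rename (fun i : Fin N => (i : ℕ)) q = c E' := by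
    intro E' hE'
    refine MvPolynomial.exists_rename_eq_of_vars_subset_range (c E') _ Fin.val_injective ?_
    intro i hi
    have h1 : i ≤ (c E').vars.sup id := Finset.le_sup (f := id) hi
    have h2 : (c E').vars.sup id + 1 ≤ N := Finset.le_sup (f := fun E => (c E).vars.sup id + 1) hE'
    exact ⟨⟨i, by omega⟩, rfl⟩
  let c' : (ℕ →₀ ℕ) → MvPolynomial (Fin N) ℤ_[p] := fun E' =>
    if h : E' ∈ s then (hN E' h).choose else 0
  have hc1 : ∀ E' ∈ s, MvPolynomial.rename (fun i : Fin N => (i : ℕ)) (c' E') = c E' := by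
    intro E' h
    change MvPolynomial.rename (fun i : Fin N => (i : ℕ))
      (if h : E' ∈ s then (hN E' h).choose else 0) = c E'
    rw [dif_pos h]
    exact (hN E' h).choose_spec
  have hc2 : ∀ E', E' ∉ s → c' E' = 0 := fun E' h => dif_neg h
  have B2 := Vale.Agent.P221.T.H609.specB2 β β.specA1
    (Vale.Agent.P221.T.H598.specB1 β β.specA1)
  obtain ⟨g', h1, h2⟩ := B2.appr N m t c' (fun E' => by
      by_cases h : E' ∈ s
      · rw [hc1 E' h]
        exact hc E'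
      · rw [hc2 E' h, map_zero]
        exact MvPolynomial.isWeightedHomogeneous_zero _ _ _) (fun E' => by
      by_cases h : E' ∈ s
      · rw [hc1 E' h]
        exact hc' E'
      · rw [hc2 E' h, map_zero]
        exact Ideal.zero_mem _)
  have h3 := (T_low β hD hb (g - g') (dT p E + 1) fun E' hE' => by
    have hE : E' ∈ s := hfin.mem_toFinset.2 (by change dT p E' ≤ dT p E; omega)
    rw [T_sub, LinearMap.sub_apply, MvPolynomial.coeff_sub, hg, h2, hc1 E' hE, sub_self]).1 E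
      (by omega)
  rw [T_sub, LinearMap.sub_apply, sub_eq_zero] at h3
  rw [h3]
  exact h1 E E'

/-- **the structure `OpX`** -/
def opX {n : ℕ} {ld : Lead p n} {S : SrcT p n P} (O : OpAlg ld S.src)
    (hT : ∀ (m : ℤ) (g : P⟦m⟧ ⟶ P), O.T m g = β.T g) (hD : MUUniv e D) (hb : IsBPMon p b) :
    OpX O where
  comp {m m' l} h g g' := by
    change P⟦m⟧ ⟶ P at g
    change P⟦m'⟧ ⟶ P at g'
    refine ⟨gc h g' g, ?_⟩
    have h1 := β.specA1.T_gc h g' g
    exact (hT l _).trans (h1.trans (by rw [hT m g, hT m' g']))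
  eta := β.eta
  eta_zero := (Vale.Agent.P221.T.H609.specB2 β β.specA1
    (Vale.Agent.P221.T.H598.specB1 β β.specA1)).eta_zero
  mult k f hf := ⟨β.mult k f, fun z => by
    rw [hT k (β.mult k f)]
    exact (Vale.Agent.P221.T.H598.specB1 β β.specA1).T_mult k f hf z⟩
  low m c g h := by
    change P⟦m⟧ ⟶ P at g
    have h0 : O.T m g = β.T g := hT m g
    rw [h0] at h ⊢
    exact T_low β hD hb g c h
  ex m t c hc hc' := by
    obtain ⟨g, hg⟩ := (Vale.Agent.P221.T.H609.specB2 β β.specA1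
      (Vale.Agent.P221.T.H598.specB1 β β.specA1)).exists_T m c hc
    refine ⟨g, ?_, fun E => ?_⟩
    · refine (O.F_iff t m g).2 fun E E' => ?_
      rw [hT m g]
      exact mem_Ip β hD hb hc hc' g hg E E'
    · rw [hT m g]
      exact hg E

theorem opX_eta {n : ℕ} {ld : Lead p n} {S : SrcT p n P} (O : OpAlg ld S.src)
    (hT : ∀ (m : ℤ) (g : P⟦m⟧ ⟶ P), O.T m g = β.T g) (hD : MUUniv e D) (hb : IsBPMon p b) :
    (opX β O hT hD hb).eta = β.eta := rfl

end Vale.Agent.P221.H626
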