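import Vale.Agent.P221.H45.LocA

/-!
# P221 (helper626): the topological half of piece [C]

`M` a module over the commutative ring `R`, on `X`; `w ∈ π_d R`; `f : V⟦d⟧ ⟶ V` inducing the
multiplication with `w` on `π_* (R ⊗ V)`.

* `comm_gc` : `X ⊗ f` and `w ⊗ V` commute;
* `tor_diff` : every element of `π_* (X ⊗ V)` is killed by a power of `X ⊗ f - w ⊗ V`.
-/

open CategoryTheory MonoidalCategory MonObj Limits Pretriangulated
open Vale.Agent.P251.T Vale.Agent.P251.M Vale.Agent.P251.S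

set_option linter.unusedSectionVars false

universe u

noncomputable section

namespace Vale.Agent.P221.H626

open Vale.Agent.P221.T
open Vale.Agent.P221.H45 (actM onR onL Tor IsLoc Induces TelD isLoc_tel ι₀ fm_right_eq
  fm_left_eq gc_fm_interchange')

variable {𝒯 : Type u} [Category.{0} 𝒯] [Preadditive 𝒯] [HasZeroObject 𝒯]
    [HasShift 𝒯 ℤ] [∀ n : ℤ, (shiftFunctor 𝒯 n).Additive] [Pretriangulated 𝒯] [IsTriangulated 𝒯]
    [MonoidalCategory 𝒯] [SymmetricCategory 𝒯] [TensorTriangulated 𝒯] [MonoidalClosed 𝒯]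
    [HasCoproducts.{0} 𝒯] [HasProducts.{0} 𝒯] [StableCat 𝒯]

section coh

variable (R X V : 𝒯)

theorem coh1 : (β_ (R ⊗ V) X).hom ≫ (α_ X R V).inv ≫ (β_ X R).hom ▷ V =
    (α_ R V X).hom ≫ R ◁ (β_ V X).hom ≫ (α_ R X V).inv := by
  rw [BraidedCategory.braiding_tensor_left_hom]
  simp only [Category.assoc, Iso.hom_inv_id_assoc]
  rw [← comp_whiskerRight, SymmetricCategory.symmetry]
  simp

theorem coh3 : (β_ X V).hom ▷ R ≫ (α_ V X R).hom ≫ V ◁ (β_ X R).hom ≫ (β_ V (R ⊗ X)).hom =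
    (β_ (X ⊗ V) R).hom ≫ (α_ R X V).inv := by
  rw [← cancel_mono (α_ R X V).hom]
  simp only [Category.assoc, Iso.inv_hom_id, Category.comp_id]
  rw [← BraidedCategory.hexagon_forward_assoc X V R,
    BraidedCategory.hexagon_forward V R X,
    ← BraidedCategory.braiding_naturality_right_assoc]
  rw [BraidedCategory.braiding_tensor_right_hom X R V]
  simp only [Category.assoc, Iso.inv_hom_id_assoc]
  rw [← whiskerLeft_comp, SymmetricCategory.symmetry, MonoidalCategory.whiskerLeft_id,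
    Category.comp_id, BraidedCategory.braiding_tensor_left_hom]

end coh

section aw

variable {R : 𝒯} {d : ℤ} (w : (𝟙_ 𝒯)⟦d⟧ ⟶ R)

/-- `A⟦d⟧ ⟶ A ⊗ R` -/
def aw (A : 𝒯) : A⟦d⟧ ⟶ A ⊗ R := ((ρ_ A).inv)⟦d⟧' ≫ fm (tensorLeft A) w

theorem aw_nat {A B : 𝒯} (u : A ⟶ B) : aw w A ≫ u ▷ R = u⟦d⟧' ≫ aw w B := by
  unfold aw
  rw [Category.assoc, fm_tlMap, ← Functor.map_comp_assoc, ← Functor.map_comp_assoc,
    rightUnitor_inv_naturality]

theorem fm_aw (X A : 𝒯) : fm (tensorLeft X) (aw w A) = aw w (X ⊗ A) ≫ (α_ X A R).hom := by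
  have h : fm (tensorLeft X) (aw w A) ≫ (α_ X A R).inv = aw w (X ⊗ A) := by
    unfold aw
    rw [shift_fm, Category.assoc, fm_assoc, ← Functor.map_comp_assoc]
    congr 2
    change X ◁ (ρ_ A).inv ≫ (α_ X A (𝟙_ 𝒯)).inv = _
    simp
  rw [← h, Category.assoc, Iso.inv_hom_id]
  exact (Category.comp_id _).symm

end aw

section act

variable {R : 𝒯} [MonObj R] {d : ℤ} (w : (𝟙_ 𝒯)⟦d⟧ ⟶ R)

theorem actM_eq {X : 𝒯} (M : ModStr R X) : actM M w = aw w X ≫ (β_ X R).hom ≫ M.act := by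
  unfold actM aw
  rw [fm_right_eq]
  simp only [Category.assoc]
  rw [← Functor.map_comp_assoc, leftUnitor_inv_braiding]

theorem actM_comp {X Y : 𝒯} {M : ModStr R X} {N : ModStr R Y} {u : X ⟶ Y}
    (hu : M.IsLinear N u) : actM M w ≫ u = u⟦d⟧' ≫ actM N w := by
  have h1 : M.act ≫ u = (R ◁ u) ≫ N.act := hu
  rw [actM_eq, actM_eq, Category.assoc, Category.assoc, h1,
    ← BraidedCategory.braiding_naturality_left_assoc, ← Category.assoc, aw_nat, Category.assoc]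

theorem onR_actM {X : 𝒯} (M : ModStr R X) (V : 𝒯) :
    onR (actM M w) V = actM (M.tensorRight V) w := by
  have h1 : fm (tensorLeft V) (aw w X ≫ (β_ X R).hom ≫ M.act) =
      (aw w (V ⊗ X) ≫ (α_ V X R).hom) ≫ V ◁ ((β_ X R).hom ≫ M.act) := by
    rw [fm_comp, fm_aw]
    rfl
  have h2 : (β_ X V).hom ▷ R ≫ (α_ V X R).hom ≫ V ◁ ((β_ X R).hom ≫ M.act) ≫ (β_ V X).hom =
      (β_ (X ⊗ V) R).hom ≫ (M.tensorRight V).act := by
    change _ = (β_ (X ⊗ V) R).hom ≫ (α_ R X V).inv ≫ (M.act ▷ V)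
    rw [whiskerLeft_comp, Category.assoc, BraidedCategory.braiding_naturality_right,
      ← reassoc_of% (coh3 R X V)]
  change fm (tensorRight V) (actM M w) = _
  rw [actM_eq, actM_eq, fm_right_eq, h1, ← h2]
  simp only [Category.assoc]
  rw [← Category.assoc ((aw w (X ⊗ V))), aw_nat, Category.assoc]

end act

section main

variable {R X : 𝒯} [MonObj R] [IsCommMonObj R] (M : ModStr R X) {d : ℤ} (w : (𝟙_ 𝒯)⟦d⟧ ⟶ R)
  {V : 𝒯} (f : V⟦d⟧ ⟶ V)

/-- the action `(R ⊗ V) ⊗ X ⟶ X ⊗ V` -/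
def tht (V : 𝒯) : (R ⊗ V) ⊗ X ⟶ X ⊗ V :=
  (β_ (R ⊗ V) X).hom ≫ (α_ X R V).inv ≫ ((β_ X R).hom ≫ M.act) ▷ V

theorem tht_eq : tht M V = (α_ R V X).hom ≫ R ◁ (β_ V X).hom ≫ (M.tensorRight V).act := by
  change _ = (α_ R V X).hom ≫ R ◁ (β_ V X).hom ≫ (α_ R X V).inv ≫ (M.act ▷ V)
  unfold tht
  rw [comp_whiskerRight, reassoc_of% (coh1 R X V)]

theorem tht_lin : (((ModStr.self R).tensorRight V).tensorRight X).IsLinear (M.tensorRight V)
    (tht M V) := by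
  have h1 := (M.tensorRight V).mul_act
  have h2 : (R ◁ (M.tensorRight V).act) ≫ (M.tensorRight V).act =
      (α_ R R (X ⊗ V)).inv ≫ (μ[R] ▷ (X ⊗ V)) ≫ (M.tensorRight V).act := by
    rw [h1, Iso.inv_hom_id_assoc]
  unfold ModStr.IsLinear
  rw [tht_eq, whiskerLeft_comp, whiskerLeft_comp, Category.assoc, Category.assoc, h2]
  change ((α_ R (R ⊗ V) X).inv ≫ (((α_ R R V).inv ≫ μ[R] ▷ V) ▷ X)) ≫ _ = _
  rw [← Category.assoc, ← Category.assoc, ← Category.assoc, ← Category.assoc, ← Category.assoc]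
  congr 1
  rw [comp_whiskerRight]
  simp only [Category.assoc]
  rw [associator_naturality_left_assoc, ← whisker_exchange]
  simp only [← Category.assoc]
  congr 1
  simp only [Category.assoc, MonoidalCategory.pentagon_inv_inv_hom_hom_inv]
  monoidal

theorem onL_tht : onR (onL R f) X ≫ tht M V = (tht M V)⟦d⟧' ≫ onL X f := by
  have h1 : fm (tensorRight X) (fm (tensorLeft R) f) = ((β_ (R ⊗ V) X).hom)⟦d⟧' ≫
      fm (tensorLeft X) (fm (tensorLeft R) f) ≫ (β_ X (R ⊗ V)).hom := fm_right_eq X _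
  change fm (tensorRight X) (fm (tensorLeft R) f) ≫ _ = _ ≫ fm (tensorLeft X) f
  rw [h1]
  unfold tht
  simp only [Category.assoc]
  rw [SymmetricCategory.symmetry_assoc, reassoc_of% (fm_assoc X R f), fm_tlMap]
  simp only [Functor.map_comp, Category.assoc]

theorem onR_tht : onR (onR (actM (ModStr.self R) w) V) X ≫ tht M V =
    (tht M V)⟦d⟧' ≫ onR (actM M w) V := by
  rw [onR_actM, onR_actM, onR_actM]
  exact actM_comp w (tht_lin M)

theorem fm_sub {P Q : 𝒯} {m : ℤ} (F : 𝒯 ⥤ 𝒯) [F.CommShift ℤ] [F.Additive] (a b : P⟦m⟧ ⟶ Q) :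
    fm F (a - b) = fm F a - fm F b := by
  unfold fm
  rw [F.map_sub, Preadditive.comp_sub]

theorem diff_tht : onR (onL R f - onR (actM (ModStr.self R) w) V) X ≫ tht M V =
    (tht M V)⟦d⟧' ≫ (onL X f - onR (actM M w) V) := by
  change fm (tensorRight X) (_ - _) ≫ _ = _
  rw [fm_sub, Preadditive.sub_comp, Preadditive.comp_sub, ← onL_tht, ← onR_tht]

/-- the section of `tht` -/
theorem exists_sec (y : X ⊗ V ⟶ X ⊗ V) : ∃ s : X ⊗ V ⟶ (R ⊗ V) ⊗ X, s ≫ tht M V = y := by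
  refine ⟨y ≫ ((λ_ X).inv ≫ η[R] ▷ X) ▷ V ≫ (α_ R X V).hom ≫ R ◁ (β_ X V).hom ≫
    (α_ R V X).inv, ?_⟩
  rw [tht_eq]
  simp only [Category.assoc, Iso.inv_hom_id_assoc]
  rw [← whiskerLeft_comp_assoc, SymmetricCategory.symmetry]
  change y ≫ _ ≫ (α_ R X V).hom ≫ R ◁ 𝟙 (X ⊗ V) ≫ (α_ R X V).inv ≫ (M.act ▷ V) = y
  rw [MonoidalCategory.whiskerLeft_id, Category.id_comp, Iso.hom_inv_id_assoc,
    ← comp_whiskerRight, Category.assoc, M.one_act, Iso.inv_hom_id, id_whiskerRight]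
  exact Category.comp_id y

/-- torsion elements are preserved -/
theorem Tor.map {A A' : 𝒯} {g : A⟦d⟧ ⟶ A} {g' : A'⟦d⟧ ⟶ A'} {u : A ⟶ A'}
    (hu : g ≫ u = u⟦d⟧' ≫ g') {k : ℤ} {y : (𝟙_ 𝒯)⟦k⟧ ⟶ A} (hy : Tor g y) : Tor g' (y ≫ u) := by
  induction hy with
  | zero =>
    rw [zero_comp]
    exact .zero
  | step h y _ ih =>
    refine .step h _ ?_
    rwa [gc_map, ← hu, gc_comp]

variable {f w}

/-- **(C2)** -/
theorem tor_diff (hw : Induces w f) {k : ℤ} (y : (𝟙_ 𝒯)⟦k⟧ ⟶ X ⊗ V) :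
    Tor (onL X f - onR (actM M w) V) y := by
  let g : (R ⊗ V)⟦d⟧ ⟶ R ⊗ V := onL R f - onR (actM (ModStr.self R) w) V
  have hg : ∀ {k k' : ℤ} (h : d + k = k') (y : (𝟙_ 𝒯)⟦k⟧ ⟶ R ⊗ V), gc h y g = 0 := by
    intro k k' h y
    have h1 := hw h y
    change gc h y (_ - _) = 0
    rw [gc, Preadditive.comp_sub, Preadditive.comp_sub, sub_eq_zero]
    exact h1
  let U : TelD g 0 := tel _
  have hU := isLoc_tel U
  have hz : IsZero U.obj := by
    refine StableCat.generator _ fun m z => ?_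
    have h1 : ∀ z : (𝟙_ 𝒯)⟦m⟧ ⟶ U.obj ⊗ 𝟙_ 𝒯, z = 0 := by
      refine hU.van (𝟙_ 𝒯) fun i k₁ _ y => .step rfl y ?_
      have h2 : gc (rfl : d + k₁ = d + k₁) y (onR g (𝟙_ 𝒯)) = 0 := by
        have h3 : onR g (𝟙_ 𝒯) ≫ (ρ_ _).hom = ((ρ_ _).hom)⟦d⟧' ≫ g := by
          change ((rsh d (R ⊗ V) (𝟙_ 𝒯)).inv ≫ g ▷ 𝟙_ 𝒯) ≫ (ρ_ (R ⊗ V)).hom =
            ((ρ_ (R ⊗ V)).hom)⟦d⟧' ≫ g
          rw [Category.assoc, rightUnitor_naturality, ← H377.rsh_rightUnitor, Category.assoc,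
            Iso.inv_hom_id_assoc]
        rw [← cancel_mono (ρ_ (R ⊗ V)).hom, zero_comp, ← gc_comp, h3, ← gc_map, hg]
      rw [h2]
      exact .zero
    rw [← cancel_mono (ρ_ U.obj).inv, zero_comp]
    exact h1 _
  obtain ⟨s, hs⟩ := exists_sec M (𝟙 (X ⊗ V))
  have h4 : Tor (onR g X) (y ≫ s) := by
    rw [← hU.tor]
    have h5 : IsZero (U.obj ⊗ X) := (tensorRight X).map_isZero hz
    exact h5.eq_of_tgt _ _
  have h6 := Tor.map (diff_tht M w f) h4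
  rwa [Category.assoc, hs, Category.comp_id] at h6

/-- **(C1)** -/
theorem comm_gc (hd : SignProp 𝒯 d 1) {d' : ℤ} (h : d + d = d') (V : 𝒯) (w : (𝟙_ 𝒯)⟦d⟧ ⟶ R)
    (f : V⟦d⟧ ⟶ V) :
    gc h (onL X f) (onR (actM M w) V) = gc h (onR (actM M w) V) (onL X f) :=
  (gc_fm_interchange' hd h h (actM M w) f).symm

/-- **(C1)**, on classes -/
theorem comm_cls (hd : SignProp 𝒯 d 1) {k k₁ k₂ : ℤ} (h : d + k = k₁) (h' : d + k₁ = k₂) (V : 𝒯)
    (w : (𝟙_ 𝒯)⟦d⟧ ⟶ R) (f : V⟦d⟧ ⟶ V) (y : (𝟙_ 𝒯)⟦k⟧ ⟶ X ⊗ V) :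
    gc h' (gc h y (onL X f)) (onR (actM M w) V) =
      gc h' (gc h y (onR (actM M w) V)) (onL X f) := by
  have h1 : (d + d) + k = k₂ := by omega
  rw [← gc_assoc y (onL X f) (onR (actM M w) V) rfl h1 h h',
    ← gc_assoc y (onR (actM M w) V) (onL X f) rfl h1 h h', comm_gc M hd rfl V w f]

end main

end Vale.Agent.P221.H626
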