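import Vale.Agent.P221.H626.RegY

/-!
# P221 (helper626): a criterion for `(v_0, v_1, …)` to be a regular sequence

* `inB_of_mul` : in `KK p = ℤ_p[v_1, v_2, …]` the element `v_m` is regular modulo
  `(v_0, …, v_{m-1})`, in the graded sense;
* `isReg_of_gen` : a graded module `M` without `p`-torsion, such that `M / p` is free over `KK p / p`, is
  regular.
-/

open MvPolynomial

set_option linter.unusedSectionVars false

namespace Vale.Agent.P221.H626

open Vale.Agent.P221.T Vale.Agent.P221.T.H746 Vale.Agent.P221.H460 Vale.Agent.P221.H377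

theorem InB.map {F F' : Type*} [AddCommGroup F] [AddCommGroup F'] {x : ℕ → F →+ F}
    {x' : ℕ → F' →+ F'} {gr : ℤ → AddSubgroup F} {gr' : ℤ → AddSubgroup F'} {dg : ℕ → ℤ}
    {r : ℕ} {k e k' : ℤ} (h : k + e = k') {z : F} (f : F →+ F') (hf : ∀ k, ∀ z ∈ gr k, f z ∈ gr' (k + e))
    (hx : ∀ a z, f (x a z) = x' a (f z)) (hz : InB x gr dg r k z) : InB x' gr' dg r k' (f z) := by
  subst h
  obtain ⟨y, hy, rfl⟩ := hz
  refine ⟨fun a => f (y a), fun a ha => ?_, ?_⟩
  · have h1 := hf _ _ (hy a ha)
    have h2 : k - dg a + e = k + e - dg a := by ring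
    rwa [h2] at h1
  · rw [map_sum]
    exact Finset.sum_congr rfl fun a _ => hx a _

variable {p : ℕ} [hp : Fact p.Prime]

/-- the homogeneous elements of degree `k` -/
noncomputable def hk (p : ℕ) [Fact p.Prime] (k : ℤ) : AddSubgroup (KK p) where
  carrier := {f | HK p k f}
  add_mem' := fun h h' => h.add h'
  zero_mem' := HK_zero _
  neg_mem' := fun {f} h => by
    have h1 := (isWeightedHomogeneous_C (fun i => sV p (i + 1)) (-1 : ℤ_[p])).mul h
    rw [zero_add] at h1
    have h2 : C (-1 : ℤ_[p]) * f = -f := by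
      rw [map_neg, map_one, neg_mul, one_mul]
    rwa [h2] at h1

theorem mem_hk {k : ℤ} {f : KK p} : f ∈ hk p k ↔ HK p k f := Iff.rfl

theorem hk_smul {k m : ℤ} {f y : KK p} (hf : HK p m f) (hy : y ∈ hk p k) : f • y ∈ hk p (k + m) := by
  rw [smul_eq_mul, mem_hk, add_comm]
  exact hf.mul hy

/-- monomials divisible by a variable -/
theorem inB_monomial {m : ℕ} {k : ℤ} {E : ℕ →₀ ℕ} (c : ℤ_[p])
    (hE : Finsupp.weight (fun i => sV p (i + 1)) E = k) {i : ℕ} (hi : E i ≠ 0) (him : i + 1 < m) :
    InB (vop p (KK p)) (hk p) (sV p) m k (monomial E c) := by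
  have h3 : E = (E - Finsupp.single i 1) + Finsupp.single i 1 := by
    rw [tsub_add_cancel_of_le]
    rw [Finsupp.single_le_iff]
    omega
  have h4 : Finsupp.weight (fun i => sV p (i + 1)) (E - Finsupp.single i 1) =
      k - sV p (i + 1) := by
    rw [h3, map_add, Finsupp.weight_single, one_smul] at hE
    omega
  have h5 : monomial E c = vop p (KK p) (i + 1) (monomial (E - Finsupp.single i 1) c) := by
    rw [vop_apply]
    change _ = X i * _
    rw [X, monomial_mul, one_mul, add_comm, ← h3]
  rw [h5]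
  exact InB.single him (isWeightedHomogeneous_monomial _ _ _ h4)

/-- monomials divisible by `p` -/
theorem inB_monomial_p {m : ℕ} (hm : 0 < m) {k : ℤ} {E : ℕ →₀ ℕ} (c : ℤ_[p])
    (hE : Finsupp.weight (fun i => sV p (i + 1)) E = k) :
    InB (vop p (KK p)) (hk p) (sV p) m k (monomial E ((p : ℤ_[p]) * c)) := by
  have h5 : monomial E ((p : ℤ_[p]) * c) = vop p (KK p) 0 (monomial E c) := by
    rw [vop_apply]
    change _ = ((p : ℕ) : KK p) * _
    rw [← map_natCast (C : ℤ_[p] →+* KK p), C_mul_monomial]
  rw [h5]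
  refine InB.single hm ?_
  have h0 : k - sV p 0 = k := by simp [sV]
  rw [h0]
  exact isWeightedHomogeneous_monomial _ _ _ hE

/-- **`v_{m+1}` is regular modulo `(v_0, …, v_m)`** -/
theorem inB_of_mul {m : ℕ} {k : ℤ} {f : KK p} (hf : HK p k f) (h : ℕ → KK p)
    (he : vK p (m + 1) * f = ∑ a ∈ Finset.range (m + 1), vK p a * h a) :
    InB (vop p (KK p)) (hk p) (sV p) (m + 1) k f := by
  classical
  rw [f.as_sum]
  refine InB.sum _ _ fun E hE => ?_
  have hE' : Finsupp.weight (fun i => sV p (i + 1)) E = k := hf (mem_support_iff.1 hE)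
  by_cases h1 : ∃ i < m, E i ≠ 0
  · obtain ⟨i, hi, hi'⟩ := h1
    exact inB_monomial _ hE' hi' (by omega)
  · push Not at h1
    have h2 : coeff (E + Finsupp.single m 1) (vK p (m + 1) * f) = coeff E f := by
      change coeff (E + Finsupp.single m 1) (X m * f) = _
      rw [mul_comm, coeff_mul_X]
    have h3 : (p : ℤ_[p]) ∣ coeff (E + Finsupp.single m 1)
        (∑ a ∈ Finset.range (m + 1), vK p a * h a) := by
      rw [coeff_sum]
      refine Finset.dvd_sum fun a ha => ?_
      cases a with
      | zero =>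
        change (p : ℤ_[p]) ∣ coeff _ (((p : ℕ) : KK p) * h 0)
        rw [← map_natCast (C : ℤ_[p] →+* KK p), coeff_C_mul]
        exact Dvd.intro _ rfl
      | succ a =>
        have ha' := Finset.mem_range.1 ha
        change (p : ℤ_[p]) ∣ coeff _ (X a * h (a + 1))
        rw [coeff_X_mul', if_neg]
        · exact dvd_zero _
        · rw [Finsupp.mem_support_iff, not_not, Finsupp.add_apply, h1 a (by omega),
            Finsupp.single_eq_of_ne (by omega), add_zero]
    rw [← he, h2] at h3
    obtain ⟨c, hc⟩ := h3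
    rw [hc]
    exact inB_monomial_p (by omega) c hE'

section gen

variable {M : Type} [AddCommGroup M] [Module (KK p) M] (Mg : ℤ → AddSubgroup M)
  (hsm : ∀ {k m : ℤ} {f : KK p} {y : M}, HK p m f → y ∈ Mg k → f • y ∈ Mg (k + m))
  {I : Type} (e : I → ℤ) (g : I → M) (hg : ∀ i, g i ∈ Mg (e i))
  (tf : ∀ k, ∀ y ∈ Mg k, (p : KK p) • y = 0 → y = 0)
  (span : ∀ k, ∀ y ∈ Mg k, ∃ (s : Finset I) (f : I → KK p), (∀ i, HK p (k - e i) (f i)) ∧
    ∃ y' ∈ Mg k, y = ∑ i ∈ s, f i • g i + (p : KK p) • y')
  (ind : ∀ (k : ℤ) (s : Finset I) (f : I → KK p), (∀ i, HK p (k - e i) (f i)) →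
    (∃ y' ∈ Mg k, ∑ i ∈ s, f i • g i = (p : KK p) • y') → ∀ i ∈ s, ∃ h, f i = (p : KK p) * h)

include hsm hg tf span ind in
/-- **regularity from a basis modulo `p`** -/
theorem isReg_of_gen (r : ℕ) : IsReg (vop p M) Mg (sV p) r := by
  classical
  intro b _ k z hz hb
  cases b with
  | zero =>
    rw [inB_zero] at hb ⊢
    exact tf k z hz hb
  | succ m =>
    obtain ⟨y, hy, he⟩ := hb
    obtain ⟨s₀, f₀, hf₀, z', hz', he₀⟩ := span k z hz
    -- the expansions of the `y a`
    have h1 : ∀ a, ∃ (s : Finset I) (f : I → KK p), (∀ i, HK p (k + sV p (m + 1) - sV p a - e i) (f i)) ∧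
        ∃ y' ∈ Mg (k + sV p (m + 1) - sV p a), a < m + 1 → y a = ∑ i ∈ s, f i • g i + (p : KK p) • y' := by
      intro a
      by_cases ha : a < m + 1
      · obtain ⟨s, f, hf, y', hy', h2⟩ := span _ _ (hy a ha)
        exact ⟨s, f, hf, y', hy', fun _ => h2⟩
      · exact ⟨∅, fun _ => 0, fun _ => HK_zero _, 0, AddSubgroup.zero_mem _, fun h => absurd h ha⟩
    choose s f hf y' hy' hy'' using h1
    -- a common support
    let S : Finset I := s₀ ∪ (Finset.range (m + 1)).biUnion s
    let f₀' : I → KK p := fun i => if i ∈ s₀ then f₀ i else 0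
    let f' : ℕ → I → KK p := fun a i => if i ∈ s a then f a i else 0
    have hS₀ : ∑ i ∈ s₀, f₀ i • g i = ∑ i ∈ S, f₀' i • g i := by
      rw [← Finset.sum_subset (Finset.subset_union_left : s₀ ⊆ S) fun i _ hi => by
        simp only [f₀', if_neg hi, zero_smul]]
      refine Finset.sum_congr rfl fun i hi => ?_
      simp only [f₀', if_pos hi]
    have hS : ∀ a < m + 1, ∑ i ∈ s a, f a i • g i = ∑ i ∈ S, f' a i • g i := by
      intro a ha
      have hsub : s a ⊆ S := (Finset.subset_biUnion_of_mem s (Finset.mem_range.2 ha)).trans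
        Finset.subset_union_right
      rw [← Finset.sum_subset hsub fun i _ hi => by
        simp only [f', if_neg hi, zero_smul]]
      refine Finset.sum_congr rfl fun i hi => ?_
      simp only [f', if_pos hi]
    have hf₀' : ∀ i, HK p (k - e i) (f₀' i) := by
      intro i
      simp only [f₀']
      split_ifs
      · exact hf₀ i
      · exact HK_zero _
    have hf' : ∀ a i, HK p (k + sV p (m + 1) - sV p a - e i) (f' a i) := by
      intro a i
      simp only [f']
      split_ifs
      · exact hf a i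
      · exact HK_zero _
    -- the relation
    let F : I → KK p := fun i => vK p (m + 1) * f₀' i -
      ∑ a ∈ Finset.range m, vK p (a + 1) * f' (a + 1) i
    have hF : ∀ i, HK p (k + sV p (m + 1) - e i) (F i) := by
      intro i
      have e1 : k + sV p (m + 1) - e i = sV p (m + 1) + (k - e i) := by ring
      have e2 : F i ∈ hk p (k + sV p (m + 1) - e i) := by
        refine AddSubgroup.sub_mem _ ?_ (AddSubgroup.sum_mem _ fun a _ => ?_)
        · rw [mem_hk, e1]
          exact (HK_vK _).mul (hf₀' i)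
        · have e3 : k + sV p (m + 1) - e i =
              sV p (a + 1) + (k + sV p (m + 1) - sV p (a + 1) - e i) := by ring
          rw [mem_hk, e3]
          exact (HK_vK _).mul (hf' _ i)
      exact e2
    have hp0 : vK p 0 = (p : KK p) := rfl
    have key : ∑ i ∈ S, F i • g i = (p : KK p) • (y 0 +
        ∑ a ∈ Finset.range m, vK p (a + 1) • y' (a + 1) - vK p (m + 1) • z') := by
      have e1 : vK p (m + 1) • z = vK p (m + 1) • (∑ i ∈ S, f₀' i • g i) +
          (p : KK p) • vK p (m + 1) • z' := by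
        conv_lhs => rw [he₀]
        rw [hS₀, smul_add, smul_comm (vK p (m + 1)) (p : KK p)]
      have e2 : vK p (m + 1) • z = (p : KK p) • y 0 + (∑ a ∈ Finset.range m,
          vK p (a + 1) • (∑ i ∈ S, f' (a + 1) i • g i) +
          (p : KK p) • ∑ a ∈ Finset.range m, vK p (a + 1) • y' (a + 1)) := by
        have e3 : vK p (m + 1) • z = ∑ a ∈ Finset.range (m + 1), vK p a • y a := he
        rw [e3, Finset.sum_range_succ', add_comm, hp0]
        congr 1
        rw [Finset.smul_sum, ← Finset.sum_add_distrib]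
        refine Finset.sum_congr rfl fun a ha => ?_
        have ha' := Finset.mem_range.1 ha
        conv_lhs => rw [hy'' (a + 1) (by omega)]
        rw [hS _ (by omega), smul_add, smul_comm (vK p (a + 1)) (p : KK p)]
      have e4 : ∑ i ∈ S, F i • g i = vK p (m + 1) • (∑ i ∈ S, f₀' i • g i) -
          ∑ a ∈ Finset.range m, vK p (a + 1) • (∑ i ∈ S, f' (a + 1) i • g i) := by
        have e5 : ∀ i, F i • g i = vK p (m + 1) • (f₀' i • g i) -
            ∑ a ∈ Finset.range m, vK p (a + 1) • (f' (a + 1) i • g i) := by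
          intro i
          simp only [F]
          rw [sub_smul, mul_smul, Finset.sum_smul]
          congr 1
          exact Finset.sum_congr rfl fun a _ => mul_smul _ _ _
        rw [Finset.sum_congr rfl fun i _ => e5 i, Finset.sum_sub_distrib, ← Finset.smul_sum,
          Finset.sum_comm]
        congr 1
        exact Finset.sum_congr rfl fun a _ => (Finset.smul_sum).symm
      rw [e4, eq_sub_of_add_eq e1.symm, e2, smul_sub, smul_add]
      abel
    have hmem : y 0 + ∑ a ∈ Finset.range m, vK p (a + 1) • y' (a + 1) - vK p (m + 1) • z' ∈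
        Mg (k + sV p (m + 1)) := by
      refine AddSubgroup.sub_mem _ (AddSubgroup.add_mem _ ?_ (AddSubgroup.sum_mem _ fun a _ => ?_))
        (hsm (HK_vK _) hz')
      · have h2 := hy 0 (by omega)
        have h3 : k + sV p (m + 1) - sV p 0 = k + sV p (m + 1) := by simp [sV]
        rwa [h3] at h2
      · have h2 := hsm (HK_vK (p := p) (a + 1)) (hy' (a + 1))
        rwa [sub_add_cancel] at h2
    have hdiv := ind _ S F hF ⟨_, hmem, key⟩
    -- the coefficients `f₀' i`
    have h5 : ∀ i ∈ S, InB (vop p (KK p)) (hk p) (sV p) (m + 1) (k - e i) (f₀' i) := by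
      intro i hi
      obtain ⟨h, hh⟩ := hdiv i hi
      refine inB_of_mul (hf₀' i) (fun a => if a = 0 then h else f' a i) ?_
      have h6 : vK p (m + 1) * f₀' i = F i + ∑ a ∈ Finset.range m, vK p (a + 1) * f' (a + 1) i :=
        (sub_add_cancel _ _).symm
      rw [Finset.sum_range_succ', h6, hh, hp0, add_comm]
      simp
    rw [he₀, hS₀]
    refine InB.add (InB.sum _ _ fun i hi => ?_) ?_
    · refine InB.map (e := e i) (by ring) (x := vop p (KK p))
        { toFun := fun f => f • g i
          map_zero' := zero_smul _ _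
          map_add' := fun _ _ => add_smul _ _ _ } (fun l f hf => ?_) (fun a f => ?_) (h5 i hi)
      · have h6 := hsm (mem_hk.1 hf) (hg i)
        rw [add_comm] at h6
        exact h6
      · exact mul_smul (vK p a) f (g i)
    · refine InB.single (x := vop p M) (a := 0) (by omega) ?_
      have h3 : k - sV p 0 = k := by simp [sV]
      rwa [h3]

end gen

end Vale.Agent.P221.H626
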