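import Vale.Agent.P221.H626.Spa
import Vale.Agent.P221.H626.RegM
import Vale.Agent.P221.H746.ZBP2
import Vale.Agent.P221.H246.GenC
import Vale.Agent.P221.T.H924.Compl
import Vale.Agent.P221.T.H817.FreeP
import Vale.Agent.P221.T.H598.Mult

/-!
# P221 (helper626): sums of shifts of the Brown-Peterson monoid

`T = ∐ 𝟙⟦m i⟧`, `Q = B ⊗ T`, `uB m i : B⟦m i⟧ ⟶ Q`.

* `exists_expand`, `exists_desc` : elements of `π_* Q`, maps from `Q`;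
* `good_Q` : `Good p Q`, for even `m i`.
-/

open CategoryTheory MonoidalCategory MonObj Limits Pretriangulated

set_option linter.unusedSectionVars false

universe u

noncomputable section

namespace Vale.Agent.P221.H626

open Vale.Agent.P251 Vale.Agent.P251.S Vale.Agent.P251.T Vale.Agent.P251.M Vale.Agent.P251.F
  Vale.Agent.P251.I EvenSpheres Vale.Agent.P257.H80 Vale.Agent.P257.H762 Vale.Agent.P221.H246
  Vale.Agent.P221.E Vale.Agent.P221.E.H817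
open Vale.Agent.P221.Loc (nonempty_homShift)
open Vale.Agent.P221.H746 (Good good_bp exists_moore)
open Vale.Agent.P221.H395 (PComplete)
open Vale.Agent.P093.N0 (MUAll)
open Vale.Agent.P221.T (fm fm_comp shift_fm gc comp_gc gc_map gc_comp gc_surj hat hat_isLin unit_hat
  IsLin BPS PiM zr KK GG HK dT)

variable {𝒯 : Type u} [Category.{0} 𝒯] [Preadditive 𝒯] [HasZeroObject 𝒯]
    [HasShift 𝒯 ℤ] [∀ n : ℤ, (shiftFunctor 𝒯 n).Additive] [Pretriangulated 𝒯] [IsTriangulated 𝒯]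
    [MonoidalCategory 𝒯] [SymmetricCategory 𝒯] [TensorTriangulated 𝒯] [MonoidalClosed 𝒯]
    [HasCoproducts.{0} 𝒯] [HasProducts.{0} 𝒯] [StableCat 𝒯]

variable (B : 𝒯) [MonObj B] {J : Type} (m : J → ℤ)

/-- `B⟦k⟧ ≅ B ⊗ 𝟙⟦k⟧` -/
def thB (k : ℤ) : B⟦k⟧ ≅ B ⊗ (𝟙_ 𝒯)⟦k⟧ :=
  (shiftFunctor 𝒯 k).mapIso (ρ_ B).symm ≪≫ (csh B k (𝟙_ 𝒯)).symm

/-- `∐ 𝟙⟦m i⟧` -/
abbrev TT (𝒯 : Type u) [Category.{0} 𝒯] [HasShift 𝒯 ℤ] [MonoidalCategory 𝒯]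
    [HasCoproducts.{0} 𝒯] {J : Type} (m : J → ℤ) : 𝒯 := ∐ fun i => (𝟙_ 𝒯)⟦m i⟧

/-- the generators of `π_* (B ⊗ T)` -/
def tB (i : J) : (𝟙_ 𝒯)⟦m i⟧ ⟶ B ⊗ TT 𝒯 m :=
  Sigma.ι (fun i => (𝟙_ 𝒯)⟦m i⟧) i ≫ unitMap B (TT 𝒯 m)

/-- the inclusions -/
def uB (i : J) : B⟦m i⟧ ⟶ B ⊗ TT 𝒯 m := hat (ModStr.free B (TT 𝒯 m)) (tB B m i)

theorem uB_eq (i : J) : uB B m i = (thB B (m i)).hom ≫ B ◁ Sigma.ι (fun i => (𝟙_ 𝒯)⟦m i⟧) i := by
  unfold uB hat tB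
  rw [ext_unit_free]
  exact (Category.assoc _ _ _).symm

/-- **elements of `π_* Q`** -/
theorem exists_expand {k : ℤ} (x : (𝟙_ 𝒯)⟦k⟧ ⟶ B ⊗ TT 𝒯 m) :
    ∃ (s : Finset J) (z : ∀ i, (𝟙_ 𝒯)⟦k⟧ ⟶ B⟦m i⟧), x = ∑ i ∈ s, z i ≫ uB B m i := by
  obtain ⟨s, g, hg⟩ := compact_sumL B (fun i => (𝟙_ 𝒯)⟦m i⟧) (isSphere_one_shift k) x
  refine ⟨s, fun i => g i ≫ (thB B (m i)).inv, ?_⟩
  rw [hg]
  refine Finset.sum_congr rfl fun i _ => ?_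
  rw [uB_eq, Category.assoc, Iso.inv_hom_id_assoc]

/-- the projections -/
theorem exists_proj [DecidableEq J] (i : J) : ∃ q : B ⊗ TT 𝒯 m ⟶ B⟦m i⟧, uB B m i ≫ q = 𝟙 _ ∧
    ∀ j, j ≠ i → uB B m j ≫ q = 0 := by
  let q₀ : TT 𝒯 m ⟶ (𝟙_ 𝒯)⟦m i⟧ := Sigma.desc fun j =>
    if h : j = i then eqToHom (by rw [h]) else 0
  refine ⟨B ◁ q₀ ≫ (thB B (m i)).inv, ?_, fun j hj => ?_⟩
  · have h1 : Sigma.ι (fun i => (𝟙_ 𝒯)⟦m i⟧) i ≫ q₀ = 𝟙 _ := by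
      simp [q₀]
    rw [uB_eq, Category.assoc, ← MonoidalCategory.whiskerLeft_comp_assoc, h1,
      MonoidalCategory.whiskerLeft_id, Category.id_comp, Iso.hom_inv_id]
  · have h1 : Sigma.ι (fun i => (𝟙_ 𝒯)⟦m i⟧) j ≫ q₀ = 0 := by
      simp [q₀, hj]
    rw [uB_eq, Category.assoc, ← MonoidalCategory.whiskerLeft_comp_assoc, h1,
      MonoidalPreadditive.whiskerLeft_zero, zero_comp, comp_zero]

/-- components of sums -/
theorem sum_proj [DecidableEq J] {k : ℤ} {s : Finset J} {z : ∀ i, (𝟙_ 𝒯)⟦k⟧ ⟶ B⟦m i⟧} {i : J}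
    (hi : i ∈ s) {q : B ⊗ TT 𝒯 m ⟶ B⟦m i⟧} (h1 : uB B m i ≫ q = 𝟙 _)
    (h2 : ∀ j, j ≠ i → uB B m j ≫ q = 0) : (∑ i ∈ s, z i ≫ uB B m i) ≫ q = z i := by
  rw [Preadditive.sum_comp, Finset.sum_eq_single i]
  · rw [Category.assoc, h1, Category.comp_id]
  · intro j _ hj
    rw [Category.assoc, h2 j hj, comp_zero]
  · intro h
    exact absurd hi h

/-- **maps from `Q`** -/
theorem exists_desc {X : 𝒯} (a : ∀ i, B⟦m i⟧ ⟶ X) : ∃ φ : B ⊗ TT 𝒯 m ⟶ X,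
    ∀ i, uB B m i ≫ φ = a i := by
  have : (tensorLeft B).IsLeftAdjoint := ⟨_, ⟨ihom.adjunction B⟩⟩
  refine ⟨inv (sigmaComparison (tensorLeft B) fun i => (𝟙_ 𝒯)⟦m i⟧) ≫
    Sigma.desc fun i => (thB B (m i)).inv ≫ a i, fun i => ?_⟩
  have h1 : B ◁ Sigma.ι (fun i => (𝟙_ 𝒯)⟦m i⟧) i ≫
      inv (sigmaComparison (tensorLeft B) fun i => (𝟙_ 𝒯)⟦m i⟧) =
        Sigma.ι (fun i => B ⊗ (𝟙_ 𝒯)⟦m i⟧) i := by
    rw [IsIso.comp_inv_eq]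
    exact (ι_comp_sigmaComparison (tensorLeft B) (fun i => (𝟙_ 𝒯)⟦m i⟧) i).symm
  rw [uB_eq, Category.assoc, reassoc_of% h1, Sigma.ι_desc, Iso.hom_inv_id_assoc]

variable {B} {p : ℕ}

theorem Good.tf (h : Good p B) (k : ℤ) (x : (𝟙_ 𝒯)⟦k⟧ ⟶ B) (hx : (p : ℤ) • x = 0) : x = 0 := by
  obtain ⟨l, rfl | rfl⟩ := Int.even_or_odd' k
  · have h1 := h.tfE l ((stdSph l).hom ≫ x) (by rw [← Preadditive.comp_zsmul, hx, comp_zero])
    rw [← cancel_epi (stdSph l).hom, h1, comp_zero]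
  · exact h.oddTf l x hx

/-- **`Q` is good** -/
theorem good_Q (h : Good p B) (hm : ∀ i, (2 : ℤ) ∣ m i) : Good p (B ⊗ TT 𝒯 m) := by
  classical
  have htf : ∀ (k : ℤ) (x : (𝟙_ 𝒯)⟦k⟧ ⟶ B ⊗ TT 𝒯 m), (p : ℤ) • x = 0 → x = 0 := by
    intro k x hx
    obtain ⟨s, z, rfl⟩ := exists_expand B m x
    refine Finset.sum_eq_zero fun i hi => ?_
    obtain ⟨q, h1, h2⟩ := exists_proj B m i
    have h3 : (p : ℤ) • z i = 0 := by
      have h4 := congrArg (fun f => f ≫ q) hx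
      beta_reduce at h4
      rw [Preadditive.zsmul_comp, sum_proj B m hi h1 h2, zero_comp] at h4
      exact h4
    obtain ⟨e⟩ := nonempty_homShift B k (m i)
    have h5 : z i = 0 := by
      apply e.injective
      rw [map_zero]
      exact Good.tf h _ _ (by rw [← map_zsmul, h3, map_zero])
    rw [h5, zero_comp]
  refine ⟨fun w a ha => ?_, fun k a ha => htf _ a ha, fun k a => ?_⟩
  · have h1 := htf (2 * w) ((stdSph w).inv ≫ a) (by rw [← Preadditive.comp_zsmul, ha, comp_zero])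
    rw [← cancel_epi (stdSph w).inv, h1, comp_zero]
  · obtain ⟨s, z, rfl⟩ := exists_expand B m a
    have h1 : ∀ i, ∃ z', z i = (p : ℤ) • z' := by
      intro i
      obtain ⟨e⟩ := nonempty_homShift B (2 * k + 1) (m i)
      obtain ⟨j, hj⟩ := hm i
      have h2 : ∀ (l : ℤ) (_ : l = 2 * (k - j) + 1) (x : (𝟙_ 𝒯)⟦l⟧ ⟶ B), ∃ x', x = (p : ℤ) • x' := by
        rintro l rfl x
        exact h.oddDiv _ x
      obtain ⟨x', hx'⟩ := h2 _ (by rw [hj]; ring) (e (z i))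
      refine ⟨e.symm x', ?_⟩
      apply e.injective
      rw [hx', map_zsmul, e.apply_symm_apply]
    choose z' hz' using h1
    refine ⟨∑ i ∈ s, z' i ≫ uB B m i, ?_⟩
    rw [Finset.smul_sum]
    refine Finset.sum_congr rfl fun i _ => ?_
    rw [hz' i, Preadditive.zsmul_comp]

end Vale.Agent.P221.H626
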