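import Vale.Agent.P221.H626.Cov1
import Vale.Agent.P221.H626.Op

/-!
# P221 (helper626): the completion of a sum of shifts of the Brown-Peterson monoid

`l : Q = B ⊗ ∐ 𝟙⟦m i⟧ ⟶ Y` the `p`-completion, `g i : 𝟙⟦m i⟧ ⟶ Y` the generators.

* `span_Y`, `ind_Y` : the `g i` are a basis of `π_* Y` modulo `p`;
* `isReg_Y` : `(v_0, v_1, …)` is a regular sequence on `π_* Y`;
* `zero_Y` : vanishing of `π_k Y`.
-/

open CategoryTheory MonoidalCategory MonObj Limits Pretriangulated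

set_option linter.unusedSectionVars false

universe u

noncomputable section

namespace Vale.Agent.P221.H626

open Vale.Agent.P251 Vale.Agent.P251.S Vale.Agent.P251.T Vale.Agent.P251.M Vale.Agent.P251.F
  Vale.Agent.P251.I EvenSpheres Vale.Agent.P257.H80 Vale.Agent.P257.H762 Vale.Agent.P221.H246
  Vale.Agent.P221.E Vale.Agent.P221.E.H817
open Vale.Agent.P221.Loc (nonempty_homShift)
open Vale.Agent.P221.H746 (Good good_bp exists_moore)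
open Vale.Agent.P221.H395 (PComplete)
open Vale.Agent.P093.N0 (MUAll)
open Vale.Agent.P221.T (fm fm_comp shift_fm gc comp_gc gc_map gc_comp gc_surj gc_unit_shift
  gc_add_left hat hat_isLin unit_hat IsLin BPS PiM zr KK GG HK dT sV)

variable {𝒯 : Type u} [Category.{0} 𝒯] [Preadditive 𝒯] [HasZeroObject 𝒯]
    [HasShift 𝒯 ℤ] [∀ n : ℤ, (shiftFunctor 𝒯 n).Additive] [Pretriangulated 𝒯] [IsTriangulated 𝒯]
    [MonoidalCategory 𝒯] [SymmetricCategory 𝒯] [TensorTriangulated 𝒯] [MonoidalClosed 𝒯]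
    [HasCoproducts.{0} 𝒯] [HasProducts.{0} 𝒯] [StableCat 𝒯]

variable {p : ℕ} [hp : Fact p.Prime] {B : 𝒯} [MonObj B] [IsCommMonObj B] {P W : 𝒯}
  (β : BPS p B P W)

/-- the completion map of `B` -/
theorem cg_beta (hB : Good p B) : CG p β.c := by
  obtain ⟨C, i, δ, hC⟩ := exists_moore (𝒯 := 𝒯) (p : ℤ)
  exact cg_of_good hC hB β.cP (Vale.Agent.P221.H395.isIso_mod_of_univ hC β.c β.cP
    fun Z hZ f => (β.c_bij0' Z hZ).existsUnique f)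

section val

variable {Y : 𝒯} (N : ModStr B Y) (hY : PComplete p Y)

/-- values of linear maps -/
theorem map_lin {m j k : ℤ} (h : m + j = k) {φ : P⟦m⟧ ⟶ Y} (hφ : IsLin β.MP N φ)
    (w : (𝟙_ 𝒯)⟦j⟧ ⟶ P) {f : KK p} (hf : PiM.of P j w =
      β.kk β.MP β.cP f (PiM.of P 0 (zr 𝒯 ≫ η[B] ≫ β.c))) :
    PiM.of Y k (gc h w φ) = β.kk N hY f (PiM.of Y m ((η[B] ≫ β.c)⟦m⟧' ≫ φ)) := by
  have h1 := β.kk_lin β.MP β.cP N hY φ hφ f (PiM.of P 0 (zr 𝒯 ≫ η[B] ≫ β.c))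
  rw [← hf, Vale.Agent.P221.T.PiM.map_of φ h, Vale.Agent.P221.T.PiM.map_of φ (add_zero m)] at h1
  rw [h1]
  congr 2
  exact gc_unit_shift (add_zero m) (η[B] ≫ β.c) φ

theorem gc_one {A Q : 𝒯} {e k k' : ℤ} (h : e + k' = k) (w : A⟦k'⟧ ⟶ Q) {X : 𝒯} (a : Q⟦e⟧ ⟶ X) :
    gc h w (𝟙 _) ≫ a = gc h w a := by
  rw [← gc_comp, Category.id_comp]

theorem gc_smul_left {A Q X : 𝒯} {e k k' : ℤ} (h : e + k' = k) (n : ℤ) (w : A⟦k'⟧ ⟶ Q)
    (a : Q⟦e⟧ ⟶ X) : gc h (n • w) a = n • gc h w a := by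
  unfold gc
  rw [Functor.map_zsmul, Preadditive.zsmul_comp, Preadditive.comp_zsmul]

theorem gc_one_inj {A Q : 𝒯} {e k k' : ℤ} (h : e + k' = k) {w w' : A⟦k'⟧ ⟶ Q}
    (hw : gc h w (𝟙 _) = gc h w' (𝟙 _)) : w = w' := by
  unfold gc at hw
  have h1 := (cancel_epi _).1 hw
  rw [Category.comp_id, Category.comp_id] at h1
  exact (shiftFunctor 𝒯 e).map_injective h1

include β in
/-- multiples of `g` by the elements of `π_* B` -/
theorem val_hat {m j k : ℤ} (h : m + j = k) (g : (𝟙_ 𝒯)⟦m⟧ ⟶ Y)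
    (z : (𝟙_ 𝒯)⟦j⟧ ⟶ B) : ∃ f : KK p, HK p j f ∧
      PiM.of Y k (gc h z (hat N g)) = β.kk N hY f (PiM.of Y m g) := by
  obtain ⟨φ, h1, h2⟩ := β.exists_hat_c N hY g
  obtain ⟨f, ⟨hf, hf'⟩, -⟩ := β.free j (z ≫ β.c)
  refine ⟨f, hf, ?_⟩
  have h3 := map_lin β N hY h h2 (z ≫ β.c) hf'
  rw [gc_map, h1] at h3
  rw [h3, Functor.map_comp, Category.assoc, h1, unit_hat]

include β in
/-- multiples of `g` by the elements of `KK p`, modulo `p` -/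
theorem exists_mod (hB : Good p B) {m j k : ℤ} (hj : (2 : ℤ) ∣ j) (h : m + j = k)
    (g : (𝟙_ 𝒯)⟦m⟧ ⟶ Y) {f : KK p} (hf : HK p j f) :
    ∃ (z : (𝟙_ 𝒯)⟦j⟧ ⟶ B) (y : (𝟙_ 𝒯)⟦k⟧ ⟶ Y),
      β.kk N hY f (PiM.of Y m g) = PiM.of Y k (gc h z (hat N g) + (p : ℤ) • y) ∧
      ((∃ z', z = (p : ℤ) • z') → ∃ f', f = (p : KK p) * f') := by
  obtain ⟨φ, h1, h2⟩ := β.exists_hat_c N hY g
  have h3 := Vale.Agent.P221.T.H609.of_cls β hf
  obtain ⟨l, rfl⟩ := hj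
  obtain ⟨z, w', hw⟩ := (cg_beta β hB).surj l (β.cls (2 * l) f)
  have h4 := map_lin β N hY h h2 (β.cls (2 * l) f) h3
  refine ⟨z, gc h w' φ, ?_, fun ⟨z', hz'⟩ => ?_⟩
  · have h5 : (η[B] ≫ β.c)⟦m⟧' ≫ φ = g := by
      rw [Functor.map_comp, Category.assoc, h1, unit_hat]
    rw [h5] at h4
    rw [← h4, hw, gc_add_left, gc_smul_left, gc_map, h1]
  · obtain ⟨f', ⟨hf', h5⟩, -⟩ := β.free (2 * l) (z' ≫ β.c + w')
    refine ⟨f', ?_⟩
    refine Vale.Agent.P221.T.H609.kk_unit_inj β hf (g := (p : KK p) * f') ?_ ?_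
    · have h6 : HK p (sV p 0 + 2 * l) ((p : KK p) * f') :=
        (Vale.Agent.P221.H377.HK_vK (p := p) 0).mul hf'
      have h8 : sV p 0 + 2 * l = 2 * l := by simp [sV]
      rwa [h8] at h6
    · rw [map_mul, map_natCast]
      have h7 : β.kk β.MP β.cP f β.unit = (p : ℤ) • PiM.of P (2 * l) (z' ≫ β.c + w') := by
        rw [← h3, hw, hz', ← map_zsmul, smul_add, Preadditive.zsmul_comp]
      rw [h7, h5]
      exact natCast_zsmul _ _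

end val

/-- the completion of `B ⊗ ∐ 𝟙⟦m i⟧` -/
structure CD (p : ℕ) (B : 𝒯) [MonObj B] {J : Type} (m : J → ℤ) (Y : 𝒯) where
  /-- the module structure -/
  N : ModStr B Y
  hY : PComplete p Y
  /-- the completion map -/
  l : B ⊗ TT 𝒯 m ⟶ Y
  hl : (ModStr.free B (TT 𝒯 m)).IsLinear N l
  cg : CG p l
  ext : ∀ X : 𝒯, PComplete p X → ∀ φ : B ⊗ TT 𝒯 m ⟶ X, ∃ F : Y ⟶ X, l ≫ F = φ

theorem exists_CD (hB : Good p B) {J : Type} (m : J → ℤ) (hm : ∀ i, (2 : ℤ) ∣ m i) :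
    ∃ Y : 𝒯, Nonempty (CD p B m Y) := by
  obtain ⟨C, i, δ, hC⟩ := exists_moore (𝒯 := 𝒯) (p : ℤ)
  obtain ⟨Y, l, N, hY, hl, -, hmod⟩ := Vale.Agent.P221.T.H924.exists_compl p
    (ModStr.free B (TT 𝒯 m))
  exact ⟨Y, ⟨⟨N, hY, l, hl, cg_of_good hC (good_Q m hB hm) hY (hmod C i δ hC), fun X hX φ =>
    (Vale.Agent.P221.H395.bij_of_isIso_mod hC l (hmod C i δ hC) hX).2 φ⟩⟩⟩

section cd

variable {J : Type} {m : J → ℤ} {Y : 𝒯} (Δ : CD p B m Y) (hm : ∀ i, (2 : ℤ) ∣ m i)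
  (hB : Good p B)

/-- the generators -/
def CD.g (i : J) : (𝟙_ 𝒯)⟦m i⟧ ⟶ Y := tB B m i ≫ Δ.l

theorem CD.u_l (i : J) : uB B m i ≫ Δ.l = hat Δ.N (Δ.g i) := by
  have h1 : IsLin (ModStr.self B) Δ.N (uB B m i ≫ Δ.l) :=
    (hat_isLin (ModStr.free B (TT 𝒯 m)) (tB B m i)).comp Δ.hl
  rw [h1.eq_hat, ← Category.assoc]
  unfold uB CD.g
  rw [unit_hat]

include hm hB

/-- an element of `π_k Q` -/
theorem CD.exists_val {k : ℤ} (a : (𝟙_ 𝒯)⟦k⟧ ⟶ B ⊗ TT 𝒯 m) : ∃ (s : Finset J) (f : J → KK p),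
    (∀ i, HK p (k - m i) (f i)) ∧
      PiM.of Y k (a ≫ Δ.l) = ∑ i ∈ s, β.kk Δ.N Δ.hY (f i) (PiM.of Y (m i) (Δ.g i)) := by
  obtain ⟨s, z, rfl⟩ := exists_expand B m a
  have h1 : ∀ i, ∃ f : KK p, HK p (k - m i) f ∧
      PiM.of Y k (z i ≫ uB B m i ≫ Δ.l) = β.kk Δ.N Δ.hY f (PiM.of Y (m i) (Δ.g i)) := by
    intro i
    obtain ⟨z', hz'⟩ := gc_surj (e := m i) (k' := k - m i) (by omega) (z i)
    obtain ⟨f, hf, h2⟩ := val_hat β Δ.N Δ.hY (show m i + (k - m i) = k by omega) (Δ.g i) z'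
    refine ⟨f, hf, ?_⟩
    rw [← h2, ← hz', Δ.u_l, gc_one]
  choose f hf hf' using h1
  refine ⟨s, f, hf, ?_⟩
  rw [Preadditive.sum_comp, map_sum]
  refine Finset.sum_congr rfl fun i _ => ?_
  rw [← hf' i, Category.assoc]

/-- **the generators span `π_* Y` modulo `p`** -/
theorem CD.span {k : ℤ} (x : (𝟙_ 𝒯)⟦k⟧ ⟶ Y) : ∃ (s : Finset J) (f : J → KK p),
    (∀ i, HK p (k - m i) (f i)) ∧ ∃ x' : (𝟙_ 𝒯)⟦k⟧ ⟶ Y,
      PiM.of Y k x = ∑ i ∈ s, β.kk Δ.N Δ.hY (f i) (PiM.of Y (m i) (Δ.g i)) +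
        β.kk Δ.N Δ.hY (p : KK p) (PiM.of Y k x') := by
  by_cases hk : (2 : ℤ) ∣ k
  · obtain ⟨l, rfl⟩ := hk
    obtain ⟨a, x', hx⟩ := Δ.cg.surj l x
    obtain ⟨s, f, hf, h1⟩ := Δ.exists_val β hm hB a
    refine ⟨s, f, hf, x', ?_⟩
    rw [hx, map_add, h1, map_zsmul, map_natCast]
    congr 1
    exact natCast_zsmul _ _
  · obtain ⟨l, rfl⟩ : ∃ l, k = 2 * l + 1 := ⟨k / 2, by omega⟩
    refine ⟨∅, fun _ => 0, fun _ => Vale.Agent.P221.T.H746.HK_zero _, 0, ?_⟩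
    rw [Δ.cg.odd l x, map_zero, map_zero, Finset.sum_empty, zero_add]

/-- **the generators are independent modulo `p`** -/
theorem CD.ind {k : ℤ} (s : Finset J) (f : J → KK p) (hf : ∀ i, HK p (k - m i) (f i))
    (x : (𝟙_ 𝒯)⟦k⟧ ⟶ Y) (hx : ∑ i ∈ s, β.kk Δ.N Δ.hY (f i) (PiM.of Y (m i) (Δ.g i)) =
      β.kk Δ.N Δ.hY (p : KK p) (PiM.of Y k x)) : ∀ i ∈ s, ∃ h, f i = (p : KK p) * h := by
  classical
  by_cases hk : (2 : ℤ) ∣ k
  · choose z y h1 h2 using fun i => exists_mod β Δ.N Δ.hY hB (m := m i) (j := k - m i) (k := k)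
      (by have := hm i; omega) (by omega) (Δ.g i) (hf i)
    obtain ⟨l, rfl⟩ := hk
    have h3 : (∑ i ∈ s, gc (show m i + (2 * l - m i) = 2 * l by omega) (z i) (𝟙 _) ≫ uB B m i) ≫
        Δ.l = (p : ℤ) • (x - ∑ i ∈ s, y i) := by
      apply Vale.Agent.P221.T.PiM.of_injective Y (2 * l)
      have h4 : β.kk Δ.N Δ.hY (p : KK p) (PiM.of Y (2 * l) x) = (p : ℤ) • PiM.of Y (2 * l) x := by
        rw [map_natCast]
        exact (natCast_zsmul _ _).symm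
      rw [h4, Finset.sum_congr rfl fun i _ => h1 i] at hx
      have h5 : ∀ i, PiM.of Y (2 * l) ((gc (show m i + (2 * l - m i) = 2 * l by omega) (z i)
          (𝟙 _) ≫ uB B m i) ≫ Δ.l) = PiM.of Y (2 * l) (gc (show m i + (2 * l - m i) = 2 * l by omega)
            (z i) (hat Δ.N (Δ.g i)) + (p : ℤ) • y i) - (p : ℤ) • PiM.of Y (2 * l) (y i) := by
        intro i
        rw [Category.assoc, Δ.u_l, gc_one, map_add, map_zsmul, add_sub_cancel_right]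
      rw [Preadditive.sum_comp, map_sum, Finset.sum_congr rfl fun i _ => h5 i,
        Finset.sum_sub_distrib, hx, map_zsmul, map_sub, map_sum, smul_sub, Finset.smul_sum]
    obtain ⟨a, ha⟩ := Δ.cg.inj l _ _ h3
    intro i hi
    refine h2 i ?_
    obtain ⟨q, h4, h5⟩ := exists_proj B m i
    have h6 := congrArg (fun f => f ≫ q) ha
    beta_reduce at h6
    rw [sum_proj B m (z := fun i => gc (show m i + (2 * l - m i) = 2 * l by omega) (z i) (𝟙 _))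
      hi h4 h5, Preadditive.zsmul_comp] at h6
    obtain ⟨z', hz'⟩ := gc_surj (e := m i) (k' := 2 * l - m i) (by omega) (a ≫ q)
    refine ⟨z', gc_one_inj (show m i + (2 * l - m i) = 2 * l by omega) ?_⟩
    rw [h6, gc_smul_left, hz']
  · intro i _
    refine ⟨0, ?_⟩
    rw [mul_zero]
    have h1 := hm i
    exact HK_odd (by omega) (hf i)

include β Δ in
/-- vanishing of `π_k Y` -/
theorem CD.zero {k : ℤ} (h : ∀ (i : J) (z : (𝟙_ 𝒯)⟦k - m i⟧ ⟶ P), z = 0)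
    (x : (𝟙_ 𝒯)⟦k⟧ ⟶ Y) : x = 0 := by
  by_cases hk : (2 : ℤ) ∣ k
  · obtain ⟨l, rfl⟩ := hk
    -- every element is divisible by `p`
    have hdiv : ∀ x : (𝟙_ 𝒯)⟦2 * l⟧ ⟶ Y, ∃ x', x = (p : ℤ) • x' := by
      intro x
      obtain ⟨a, x', rfl⟩ := Δ.cg.surj l x
      obtain ⟨s, z, rfl⟩ := exists_expand B m a
      have h1 : ∀ i, ∃ z', z i = (p : ℤ) • z' := by
        intro i
        obtain ⟨w, hw⟩ := gc_surj (e := m i) (k' := 2 * l - m i) (by omega) (z i)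
        obtain ⟨j, hj⟩ := hm i
        have h2 : ∀ (t : ℤ) (_ : t = 2 * (l - j)) (w : (𝟙_ 𝒯)⟦t⟧ ⟶ B) (_ : w ≫ β.c = 0),
            ∃ w', w = (p : ℤ) • w' := by
          rintro t rfl w hw
          exact (cg_beta β hB).inj _ w 0 (by rw [hw, smul_zero])
        obtain ⟨w', hw'⟩ := h2 _ (by rw [hj]; ring) w (h i _)
        refine ⟨gc (show m i + (2 * l - m i) = 2 * l by omega) w' (𝟙 _), ?_⟩
        rw [← hw, hw', gc_smul_left]
      choose z' hz' using h1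
      refine ⟨(∑ i ∈ s, z' i ≫ uB B m i) ≫ Δ.l + x', ?_⟩
      rw [smul_add, ← Preadditive.zsmul_comp, Finset.smul_sum]
      congr 2
      refine Finset.sum_congr rfl fun i _ => ?_
      rw [hz' i, Preadditive.zsmul_comp]
    choose D hD using hdiv
    let y : ℕ → ((𝟙_ 𝒯)⟦2 * l⟧ ⟶ Y) := fun n => Nat.rec x (fun _ y => D y) n
    have h1 : ∀ n, y n = p • y (n + 1) := fun n => by
      have h2 := hD (y n)
      rw [natCast_zsmul] at h2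
      exact h2
    obtain ⟨C, i, δ, hC⟩ := exists_moore (𝒯 := 𝒯) (p : ℤ)
    exact (Vale.Agent.P221.T.H769.uniq_of_dc (Vale.Agent.P221.H509.dc_hom hC Δ.hY _)).eq_zero
      (x := y) h1 0
  · obtain ⟨l, rfl⟩ : ∃ l, k = 2 * l + 1 := ⟨k / 2, by omega⟩
    exact Δ.cg.odd l x

end cd

end Vale.Agent.P221.H626
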