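import Vale.Agent.P221.H626.Cov2
import Vale.Agent.P221.H543.KA
import Vale.Agent.P221.T.H520.T2

/-!
# P221 (helper626): covers of even objects

* `ka_of_coor` : Koszul exactness for modules;
* `CD.isReg`, `CD.ka` : the completion of a sum of shifts of `B` is Koszul acyclic;
* `exists_cover` : covers.
-/

open CategoryTheory MonoidalCategory MonObj Limits Pretriangulated

set_option linter.unusedSectionVars false

universe u

noncomputable section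

namespace Vale.Agent.P221.H626

open Vale.Agent.P251 Vale.Agent.P251.S Vale.Agent.P251.T Vale.Agent.P251.M Vale.Agent.P251.F
  Vale.Agent.P251.I EvenSpheres Vale.Agent.P257.H80 Vale.Agent.P257.H762 Vale.Agent.P221.H246
  Vale.Agent.P221.E Vale.Agent.P221.E.H817
open Vale.Agent.P221.Loc (nonempty_homShift)
open Vale.Agent.P221.H746 (Good good_bp exists_moore)
open Vale.Agent.P221.H395 (PComplete)
open Vale.Agent.P093.N0 (MUAll)
open Vale.Agent.P221.T (fm fm_comp shift_fm gc comp_gc gc_map gc_comp gc_surj gc_unit_shift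
  gc_add_left hat hat_isLin unit_hat IsLin BPS PiM zr KK GG HK dT sV SrcT Src Sys SysMap Lead OpAlg
  Coor tri_inj tri_exact)
open Vale.Agent.P221.H460 (OpX Ev)
open Vale.Agent.P221.H377 (AA ofA xx)
open Vale.Agent.P221.H543 (KA grA SSES xo)

section alg

section iso

variable {F F' : Type} [AddCommGroup F] [AddCommGroup F'] {x : ℕ → F →+ F} {x' : ℕ → F' →+ F'}
  {gr : ℤ → AddSubgroup F} {gr' : ℤ → AddSubgroup F'} {dg : ℕ → ℤ}

/-- the exact sequence of an isomorphism -/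
theorem se_iso (f : F →+ F') (hmem : ∀ k, ∀ z ∈ gr k, f z ∈ gr' k)
    (hinj : ∀ k, ∀ z ∈ gr k, f z = 0 → z = 0) (hsur : ∀ k, ∀ z ∈ gr' k, ∃ y ∈ gr k, f y = z)
    (c : ℤ) : SE f (0 : F' →+ Unit) gr gr' (fun _ => ⊥) c where
  mem_f := hmem
  mem_g _ _ _ := AddSubgroup.zero_mem _
  comp _ _ _ _ := rfl
  inj k _ := hinj k
  ex k _ z hz _ := hsur k z hz
  sur _ _ z _ := ⟨0, AddSubgroup.zero_mem _, Subsingleton.elim _ _⟩

theorem ex_punit (x : ℕ → Unit →+ Unit) (gr : ℤ → AddSubgroup Unit) (dg : ℕ → ℤ) (r : ℕ)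
    (s t : ℤ) : Ex x gr dg r s t := by
  have h : ∀ (r : ℕ) (z : KC Unit r), z = 0 := by
    intro r
    induction r with
    | zero => exact fun _ => rfl
    | succ r ih => exact fun z => pr_ext (ih _) (ih _)
  exact ex_of_zero fun z _ => h r z

theorem Ex.of_iso (f : F →+ F') (hmem : ∀ k, ∀ z ∈ gr k, f z ∈ gr' k)
    (hinj : ∀ k, ∀ z ∈ gr k, f z = 0 → z = 0) (hsur : ∀ k, ∀ z ∈ gr' k, ∃ y ∈ gr k, f y = z)
    (h0 : ∀ a, 0 ≤ dg a) (hm : ∀ a k, ∀ z ∈ gr k, x a z ∈ gr (k + dg a))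
    (hm' : ∀ a k, ∀ z ∈ gr' k, x' a z ∈ gr' (k + dg a)) (hf : ∀ a z, f (x a z) = x' a (f z))
    (hx' : ∀ a b z, x' a (x' b z) = x' b (x' a z)) {r : ℕ} {s t : ℤ}
    (h : Ex x' gr' dg r s t) : Ex x gr dg r s t :=
  (se_iso f hmem hinj hsur (t - Wd dg r)).ex_left (x'' := fun _ => 0) h0 hm hm' hf
    (fun _ _ => rfl) hx' (by rw [sub_add_cancel]) h (ex_punit _ _ _ _ _ _)

end iso

section iso2

variable {F F' : Type} [AddCommGroup F] [AddCommGroup F'] {x : ℕ → F →+ F} {x' : ℕ → F' →+ F'}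
  {gr : ℤ → AddSubgroup F} {gr' : ℤ → AddSubgroup F'} {dg : ℕ → ℤ} (f : F →+ F')
  (hmem : ∀ k, ∀ z ∈ gr k, f z ∈ gr' k) (hinj : ∀ k, ∀ z ∈ gr k, f z = 0 → z = 0)
  (hsur : ∀ k, ∀ z ∈ gr' k, ∃ y ∈ gr k, f y = z)
  (hm : ∀ a k, ∀ z ∈ gr k, x a z ∈ gr (k + dg a)) (hf : ∀ a z, f (x a z) = x' a (f z))

include hinj hsur hm hf in
theorem InB.of_iso {r : ℕ} {k : ℤ} {z : F} (hz : z ∈ gr k) (h : InB x' gr' dg r k (f z)) :
    InB x gr dg r k z := by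
  obtain ⟨y, hy, he⟩ := h
  have h1 : ∀ a, ∃ w, a < r → w ∈ gr (k - dg a) ∧ f w = y a := by
    intro a
    by_cases ha : a < r
    · obtain ⟨w, hw, hw'⟩ := hsur _ _ (hy a ha)
      exact ⟨w, fun _ => ⟨hw, hw'⟩⟩
    · exact ⟨0, fun h => absurd h ha⟩
  choose w hw using h1
  refine ⟨w, fun a ha => (hw a ha).1, ?_⟩
  have h2 : ∑ a ∈ Finset.range r, x a (w a) ∈ gr k := by
    refine AddSubgroup.sum_mem _ fun a ha => ?_
    have h3 := hm a _ _ (hw a (Finset.mem_range.1 ha)).1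
    rwa [sub_add_cancel] at h3
  refine sub_eq_zero.1 (hinj k _ (AddSubgroup.sub_mem _ hz h2) ?_)
  rw [map_sub, he, map_sum, sub_eq_zero]
  refine Finset.sum_congr rfl fun a ha => ?_
  rw [hf, (hw a (Finset.mem_range.1 ha)).2]

include hmem hinj hsur hm hf in
theorem IsReg.of_iso {r : ℕ} (h : IsReg x' gr' dg r) : IsReg x gr dg r := by
  intro b hb k z hz h1
  refine InB.of_iso f hinj hsur hm hf hz (h b hb k (f z) (hmem k z hz) ?_)
  rw [← hf]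
  obtain ⟨y, hy, he⟩ := h1
  refine ⟨fun a => f (y a), fun a ha => hmem _ _ (hy a ha), ?_⟩
  rw [he, map_sum]
  exact Finset.sum_congr rfl fun a _ => hf a _

end iso2

variable {p : ℕ} [hp : Fact p.Prime] {n : ℕ} {ld : Lead p n} {S : Src p n} {O : OpAlg ld S}
  (X : OpX O) {M : Type} [AddCommGroup M] [Module (KK p) M] {Mg : ℤ → AddSubgroup M}
  {Y : Sys S} (co : Coor O Y M Mg)

/-- the coordinates on `⨁ A_k` -/
def coAA : AA Y →+ (GG p →ₗ[KK p] M) := DirectSum.toAddMonoid co.c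

theorem coAA_of (k : ℤ) (a : Y.A k) : coAA co (ofA Y k a) = co.c k a :=
  DirectSum.toAddMonoid_of _ _ _

theorem coAA_xx (a : ℕ) (z : AA Y) : coAA co (xx X Y a z) = xop X a (coAA co z) := by
  refine Vale.Agent.P221.H377.ind Y (Q := fun z => coAA co (xx X Y a z) = xop X a (coAA co z))
    ?_ ?_ ?_ z
  · simp only [map_zero]
  · intro k b
    rw [xx, Vale.Agent.P221.H377.opA_of Y (rfl : k + sV p a = _), coAA_of, coAA_of, xop_c]
  · intro z z' h1 h2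
    simp only [map_add, h1, h2]

include co in
/-- **regular sequences on `⨁ A_k`** -/
theorem isReg_of_coor {r : ℕ} (h : IsReg (xop X) (fgr Mg) (sV p) r) :
    IsReg (xo X Y) (grA Y) (sV p) r := by
  refine IsReg.of_iso (coAA co) (fun k z hz => ?_) (fun k z hz h0 => ?_) (fun k ζ hζ => ?_)
    (fun a k z hz => Vale.Agent.P221.H543.xo_mem a k z hz) (fun a z => coAA_xx X co a z) h
  · obtain ⟨a, rfl⟩ := Vale.Agent.P221.H543.exists_of_mem_grA hz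
    rw [coAA_of]
    exact (range_c co _ _).1 ⟨a, rfl⟩
  · obtain ⟨a, rfl⟩ := Vale.Agent.P221.H543.exists_of_mem_grA hz
    rw [coAA_of] at h0
    rw [co.inj k (h0.trans (map_zero _).symm), map_zero]
  · obtain ⟨a, ha⟩ := (range_c co k ζ).2 hζ
    exact ⟨ofA Y k a, Vale.Agent.P221.H543.of_mem_grA _ _ _, by rw [coAA_of, ha]⟩

include co in
/-- **Koszul exactness for modules** -/
theorem ka_of_coor {r : ℕ} {s t : ℤ} (h : Ex (xop X) (fgr Mg) (sV p) r s t) : KA X Y r s t := by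
  refine Ex.of_iso (coAA co) (fun k z hz => ?_) (fun k z hz h0 => ?_) (fun k ζ hζ => ?_)
    (fun a => Vale.Agent.P221.T.H746.sV_nonneg p a)
    (fun a k z hz => Vale.Agent.P221.H543.xo_mem a k z hz)
    (fun a k z hz => xop_mem X Mg (fun h1 h2 => co.smul_mem h1 h2) hz a) (fun a z => ?_)
    (xop_comm X) h
  · obtain ⟨a, rfl⟩ := Vale.Agent.P221.H543.exists_of_mem_grA hz
    rw [coAA_of]
    exact (range_c co _ _).1 ⟨a, rfl⟩
  · obtain ⟨a, rfl⟩ := Vale.Agent.P221.H543.exists_of_mem_grA hz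
    rw [coAA_of] at h0
    rw [co.inj k (h0.trans (map_zero _).symm), map_zero]
  · obtain ⟨a, ha⟩ := (range_c co k ζ).2 hζ
    exact ⟨ofA Y k a, Vale.Agent.P221.H543.of_mem_grA _ _ _, by rw [coAA_of, ha]⟩
  · exact coAA_xx X co a z

end alg

variable {𝒯 : Type u} [Category.{0} 𝒯] [Preadditive 𝒯] [HasZeroObject 𝒯]
    [HasShift 𝒯 ℤ] [∀ n : ℤ, (shiftFunctor 𝒯 n).Additive] [Pretriangulated 𝒯] [IsTriangulated 𝒯]
    [MonoidalCategory 𝒯] [SymmetricCategory 𝒯] [TensorTriangulated 𝒯] [MonoidalClosed 𝒯]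
    [HasCoproducts.{0} 𝒯] [HasProducts.{0} 𝒯] [StableCat 𝒯]

variable {D : MUData 𝒯} {F : SpaceFunctor 𝒯} {e : F.S.obj CCF ≅ (stdEven 𝒯).L}
  {p : ℕ} [hp : Fact p.Prime] {B : 𝒯} [MonObj B] [IsCommMonObj B] {b : D.R ⟶ B} [IsMonHom b]
  {P W : 𝒯} (β : BPS p B P W)

section cd

variable {J : Type} {m : J → ℤ} {Y : 𝒯} (Δ : CD p B m Y) (hm : ∀ i, (2 : ℤ) ∣ m i)
  (hB : Good p B)

include hm hB in
/-- **`(v_0, v_1, …)` is a regular sequence on `π_* Y`** -/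
theorem CD.isReg (r : ℕ) : letI := β.mdl Δ.N Δ.hY
    IsReg (vop p (PiM Y)) (PiM.gr Y) (sV p) r := by
  let := β.mdl Δ.N Δ.hY
  refine isReg_of_gen (PiM.gr Y) (fun hf hy => ?_) m (fun i => PiM.of Y (m i) (Δ.g i))
    (fun i => ⟨_, rfl⟩) (fun k y hy hy0 => ?_) (fun k y hy => ?_) (fun k s f hf hy => ?_) r
  · obtain ⟨z, rfl⟩ := hy
    obtain ⟨z', hz'⟩ := Vale.Agent.P221.T.H598.kk_homog β Δ.N Δ.hY hf rfl z
    exact ⟨z', hz'.symm⟩
  · obtain ⟨z, rfl⟩ := hy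
    have h1 : (p : ℤ) • z = 0 := by
      apply Vale.Agent.P221.T.PiM.of_injective Y k
      rw [map_zsmul, map_zero, ← hy0]
      change _ = β.kk Δ.N Δ.hY (p : KK p) (PiM.of Y k z)
      rw [map_natCast]
      exact natCast_zsmul _ _
    rw [Δ.cg.tf k z h1, map_zero]
  · obtain ⟨z, rfl⟩ := hy
    obtain ⟨s, f, hf, x', h1⟩ := Δ.span β hm hB z
    exact ⟨s, f, hf, _, ⟨x', rfl⟩, h1⟩
  · obtain ⟨y', ⟨x, rfl⟩, h1⟩ := hy
    exact Δ.ind β hm hB s f hf x h1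

include Δ hm hB in
/-- **the Koszul complexes of `⨁ [P⟦k⟧, Y]` are acyclic** -/
theorem CD.ka (hA2 : β.SpecA2) {n : ℕ} {ld : Lead p n} {S : SrcT p n P} (O : OpAlg ld S.src)
    (hu : S.u = η[B] ≫ β.c) (hT : ∀ (m : ℤ) (g : P⟦m⟧ ⟶ P), O.T m g = β.T g) (X : OpX O)
    {r : ℕ} {s t : ℤ} (hs : 1 ≤ s) : KA X (S.sys Y) r s t := by
  let := β.mdl Δ.N Δ.hY
  obtain ⟨co, -, -, -⟩ := hA2 ld S O hu hT Y Δ.N Δ.hY
  exact ka_of_coor X co (ex_xop X (PiM.gr Y) (fun h1 h2 => co.smul_mem h1 h2)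
    (Δ.isReg β hm hB r) hs)

include Δ hm hB in
/-- **regular sequences on `⨁ [P⟦k⟧, Y]`** -/
theorem CD.isRegAA (hA2 : β.SpecA2) {n : ℕ} {ld : Lead p n} {S : SrcT p n P}
    (O : OpAlg ld S.src) (hu : S.u = η[B] ≫ β.c)
    (hT : ∀ (m : ℤ) (g : P⟦m⟧ ⟶ P), O.T m g = β.T g) (X : OpX O) (r : ℕ) :
    IsReg (xo X (S.sys Y)) (grA (S.sys Y)) (sV p) r := by
  let := β.mdl Δ.N Δ.hY
  obtain ⟨co, -, -, -⟩ := hA2 ld S O hu hT Y Δ.N Δ.hY
  exact isReg_of_coor X co (isReg_xop X (PiM.gr Y) (fun h1 h2 => co.smul_mem h1 h2)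
    (Δ.isReg β hm hB r))

end cd

include β in
/-- `π_j P = 0` -/
theorem zero_P {k : ℤ} (h : k < 0 ∨ ¬ (2 * (p : ℤ) - 2) ∣ k) (z : (𝟙_ 𝒯)⟦k⟧ ⟶ P) : z = 0 := by
  obtain ⟨f, ⟨hf, hz⟩, -⟩ := β.free k z
  have h1 : f = 0 := by
    ext E
    rw [MvPolynomial.coeff_zero]
    by_contra hne
    have h2 : dT p E = k := hf hne
    rcases h with h | h
    · have h3 := Vale.Agent.P221.T.dT_nonneg (p := p) E
      omega
    · exact h (h2 ▸ dvd_dT p E)
  rw [h1, map_zero] at hz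
  exact Vale.Agent.P221.T.PiM.of_injective P k (hz.trans (map_zero _).symm)

end Vale.Agent.P221.H626
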