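import Vale.Agent.P221.H626.Cov3

/-!
# P221 (helper626): covers of even objects

* `exists_cover` : every sparse `p`-complete bounded below `X` has a cover `f : Y ⟶ X`, `Y` the
  completion of a sum of shifts of `B`, onto on `π_*`, with a sparse fibre.
-/

open CategoryTheory MonoidalCategory MonObj Limits Pretriangulated

set_option linter.unusedSectionVars false

universe u

noncomputable section

namespace Vale.Agent.P221.H626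

open Vale.Agent.P251 Vale.Agent.P251.S Vale.Agent.P251.T Vale.Agent.P251.M Vale.Agent.P251.F
  Vale.Agent.P251.I EvenSpheres Vale.Agent.P257.H80 Vale.Agent.P257.H762 Vale.Agent.P221.H246
  Vale.Agent.P221.E Vale.Agent.P221.E.H817
open Vale.Agent.P221.Loc (nonempty_homShift)
open Vale.Agent.P221.H746 (Good good_bp exists_moore)
open Vale.Agent.P221.H395 (PComplete)
open Vale.Agent.P093.N0 (MUAll)
open Vale.Agent.P221.T (fm fm_comp shift_fm gc comp_gc gc_map gc_comp gc_surj gc_unit_shift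
  gc_add_left hat hat_isLin unit_hat IsLin BPS PiM zr KK GG HK dT sV SrcT Src Sys SysMap Lead OpAlg
  Coor tri_inj tri_exact)
open Vale.Agent.P221.H460 (OpX Ev)
open Vale.Agent.P221.H377 (AA ofA xx)
open Vale.Agent.P221.H543 (KA grA SSES xo)

variable {𝒯 : Type u} [Category.{0} 𝒯] [Preadditive 𝒯] [HasZeroObject 𝒯]
    [HasShift 𝒯 ℤ] [∀ n : ℤ, (shiftFunctor 𝒯 n).Additive] [Pretriangulated 𝒯] [IsTriangulated 𝒯]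
    [MonoidalCategory 𝒯] [SymmetricCategory 𝒯] [TensorTriangulated 𝒯] [MonoidalClosed 𝒯]
    [HasCoproducts.{0} 𝒯] [HasProducts.{0} 𝒯] [StableCat 𝒯]

variable {D : MUData 𝒯} {F : SpaceFunctor 𝒯} {e : F.S.obj CCF ≅ (stdEven 𝒯).L}
  {p : ℕ} [hp : Fact p.Prime] {B : 𝒯} [MonObj B] [IsCommMonObj B] {b : D.R ⟶ B} [IsMonHom b]
  {P W : 𝒯} (β : BPS p B P W)

/-- the fibre of a map which is onto on `π_*` -/
theorem SpPi.fibre {A : ℤ → Prop} {X₁ Y X : 𝒯} {i : X₁ ⟶ Y} {f : Y ⟶ X} {h : X ⟶ X₁⟦(1 : ℤ)⟧}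
    (hT : Triangle.mk i f h ∈ distTriang 𝒯) (hY : SpPi A Y)
    (hs : ∀ (k : ℤ) (x : (𝟙_ 𝒯)⟦k⟧ ⟶ X), ∃ y, y ≫ f = x) : SpPi A X₁ := fun k hk x => by
  refine tri_inj hT x (fun x' => hs _ x') ?_
  exact hY k hk _

theorem conn_fibre {c : ℤ} {X₁ Y X : 𝒯} {i : X₁ ⟶ Y} {f : Y ⟶ X} {h : X ⟶ X₁⟦(1 : ℤ)⟧}
    (hT : Triangle.mk i f h ∈ distTriang 𝒯) (hY : Conn c Y)
    (hs : ∀ (k : ℤ) (x : (𝟙_ 𝒯)⟦k⟧ ⟶ X), ∃ y, y ≫ f = x) : Conn c X₁ := fun k hk x => by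
  refine tri_inj hT x (fun x' => hs _ x') ?_
  exact hY k hk _

include β in
/-- `[P⟦k⟧, X] = 0` for odd `k` -/
theorem EE.homP (hD : MUUniv e D) (hb : IsBPMon p b) {X : 𝒯} (hX : EE p X) {k : ℤ}
    (hk : ¬ (2 : ℤ) ∣ k) (f : P⟦k⟧ ⟶ X) : f = 0 :=
  β.ext_c hX.pc ((hX.homB hD hb hk _).trans (hX.homB hD hb hk _).symm)

include β in
/-- maps `P⟦k⟧ ⟶ X` lift -/
theorem EE.liftP (hD : MUUniv e D) (hb : IsBPMon p b) {X₁ Y X : 𝒯} {i : X₁ ⟶ Y} {f : Y ⟶ X}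
    {h : X ⟶ X₁⟦(1 : ℤ)⟧} (hT : Triangle.mk i f h ∈ distTriang 𝒯) (hX₁ : EE p X₁) (hX : EE p X)
    {k : ℤ} (x : P⟦k⟧ ⟶ X) : ∃ y, y ≫ f = x := by
  by_cases hk : (2 : ℤ) ∣ k
  · have h1 : x ≫ h = 0 := by
      obtain ⟨w, hw⟩ := gc_surj (e := 1) (k' := k - 1) (by omega) (x ≫ h)
      rw [← hw, hX₁.homP β hD hb (by omega) w, Vale.Agent.P221.T.gc_zero_left]
    obtain ⟨y, hy⟩ := Triangle.coyoneda_exact₃ _ hT x h1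
    exact ⟨y, hy.symm⟩
  · exact ⟨0, by rw [zero_comp, hX.homP β hD hb hk x]⟩

/-- **the short exact sequence of systems** -/
theorem sses (hD : MUUniv e D) (hb : IsBPMon p b) {n : ℕ} {S : SrcT p n P}
    (hu : S.u = η[B] ≫ β.c) {X₁ Y X : 𝒯} {i : X₁ ⟶ Y} {f : Y ⟶ X}
    {h : X ⟶ X₁⟦(1 : ℤ)⟧} (hT : Triangle.mk i f h ∈ distTriang 𝒯) (hX₁ : EE p X₁) (hX : EE p X)
    (hs : ∀ (k : ℤ) (x : (𝟙_ 𝒯)⟦k⟧ ⟶ X), ∃ y, y ≫ f = x) : SSES (S.map0 i) (S.map0 f) where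
  fi k a := by
    have h1 : i ≫ f = 0 := comp_distTriang_mor_zero₁₂ _ hT
    refine (S.map0_f f k _).trans ?_
    have h2 : ((S.map0 i).f (add_zero k) a : P⟦k⟧ ⟶ Y) = (a : P⟦k⟧ ⟶ X₁) ≫ i := S.map0_f i k a
    rw [h2]
    exact (Category.assoc _ _ _).trans (by rw [h1]; exact comp_zero)
  inj k a ha := tri_inj hT (a : P⟦k⟧ ⟶ X₁) (fun x => EE.liftP β hD hb hT hX₁ hX x)
    ((S.map0_f i k a).symm.trans ha)
  ex k a ha := by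
    obtain ⟨c, hc⟩ := (tri_exact hT (a : P⟦k⟧ ⟶ Y)).1 ((S.map0_f f k a).symm.trans ha)
    exact ⟨c, (S.map0_f i k c).trans hc⟩
  sur k x := by
    obtain ⟨y, hy⟩ := EE.liftP β hD hb hT hX₁ hX (x : P⟦k⟧ ⟶ X)
    exact ⟨y, (S.map0_f f k y).trans hy⟩
  inj' k x hx := tri_inj hT (x : (𝟙_ 𝒯)⟦k⟧ ⟶ X₁) (fun x => hs _ x)
    ((S.map0_g i k x).symm.trans hx)
  ex' k x hx := by
    obtain ⟨c, hc⟩ := (tri_exact hT (x : (𝟙_ 𝒯)⟦k⟧ ⟶ Y)).1 ((S.map0_g f k x).symm.trans hx)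
    exact ⟨c, (S.map0_g i k c).trans hc⟩
  ev k := ev_surj β hu hD hb hX₁ k

/-- **covers** -/
theorem exists_cover' (hA2 : β.SpecA2) {n : ℕ} {ld : Lead p n} {S : SrcT p n P}
    (O : OpAlg ld S.src) (hu : S.u = η[B] ≫ β.c)
    (hT : ∀ (m : ℤ) (g : P⟦m⟧ ⟶ P), O.T m g = β.T g) (OX : OpX O) (hD : MUUniv e D)
    (hA : MUAll D) (hb : IsBPMon p b) {A : ℤ → Prop} (hQ : QSt p A) (hev : ∀ k, A k → (2 : ℤ) ∣ k)
    {X : 𝒯} (hX : SpPi A X) (hc : PComplete p X) {c : ℤ} (hm : Conn c X) :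
    ∃ (X₁ Y : 𝒯) (i : X₁ ⟶ Y) (f : Y ⟶ X) (h : X ⟶ X₁⟦(1 : ℤ)⟧),
      Triangle.mk i f h ∈ distTriang 𝒯 ∧ SpPi A X₁ ∧ PComplete p X₁ ∧ Conn c X₁ ∧
      SpPi A Y ∧ PComplete p Y ∧ Conn c Y ∧ Nonempty (ModStr B Y) ∧
      (∀ (k : ℤ) (x : (𝟙_ 𝒯)⟦k⟧ ⟶ X), ∃ y, y ≫ f = x) ∧ SSES (S.map0 i) (S.map0 f) ∧
      (∀ r : ℕ, IsReg (xo OX (S.sys Y)) (grA (S.sys Y)) (sV p) r) ∧
      ∀ (r : ℕ) (s t : ℤ), 1 ≤ s → KA OX (S.sys Y) r s t := by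
  have hXe : EE p X := ⟨hX.evPi hev, hc, c, hm⟩
  have hB : Good p B := good_bp hD hA hb
  let J : Type := {i : Σ k : ℤ, ((𝟙_ 𝒯)⟦k⟧ ⟶ X) // A i.1 ∧ c ≤ i.1}
  let m : J → ℤ := fun i => i.1.1
  have hme : ∀ i, (2 : ℤ) ∣ m i := fun i => hev _ i.2.1
  obtain ⟨Y, ⟨Δ⟩⟩ := exists_CD hB m hme
  -- the map
  choose a ha using fun i : J => hXe.exists_ev β hD hb i.1.2
  obtain ⟨φ, hφ⟩ := exists_desc B m fun i => β.c⟦m i⟧' ≫ a i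
  obtain ⟨f, hf⟩ := Δ.ext X hc φ
  have hg : ∀ i : J, Δ.g i ≫ f = i.1.2 := by
    intro i
    unfold CD.g
    rw [Category.assoc, hf]
    have h1 : tB B m i = (η[B])⟦m i⟧' ≫ uB B m i := (unit_hat _ _).symm
    rw [h1, Category.assoc, hφ, ← Category.assoc, ← Functor.map_comp]
    exact ha i
  have hs : ∀ (k : ℤ) (x : (𝟙_ 𝒯)⟦k⟧ ⟶ X), ∃ y, y ≫ f = x := by
    intro k x
    by_cases hk : A k ∧ c ≤ k
    · exact ⟨Δ.g ⟨⟨k, x⟩, hk⟩, hg ⟨⟨k, x⟩, hk⟩⟩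
    · refine ⟨0, ?_⟩
      rw [zero_comp]
      by_cases hkA : A k
      · exact (hm k (by by_contra h; exact hk ⟨hkA, by omega⟩) x).symm
      · exact (hX k hkA x).symm
  have hYz : ∀ k : ℤ, (¬ A k ∨ k < c) → ∀ y : (𝟙_ 𝒯)⟦k⟧ ⟶ Y, y = 0 := by
    intro k hk y
    refine Δ.zero β hme hB (fun i z => zero_P β ?_ z) y
    rcases hk with hk | hk
    · refine Or.inr fun hd => hk ?_
      have h1 := (hQ.of_dvd (k := m i) hd).2 i.2.1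
      have h2 : m i + (k - m i) = k := by ring
      rwa [h2] at h1
    · have h1 := i.2.2
      exact Or.inl (by change k - i.1.1 < 0; omega)
  have hYs : SpPi A Y := fun k hk y => hYz k (Or.inl hk) y
  have hYc : Conn c Y := fun k hk y => hYz k (Or.inr hk) y
  obtain ⟨X₁, i, h, hTri⟩ := distinguished_cocone_triangle₁ f
  have hX₁s : SpPi A X₁ := hYs.fibre hTri hs
  have hX₁c : Conn c X₁ := conn_fibre hTri hYc hs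
  have hX₁p : PComplete p X₁ := PComplete.ext₁ _ hTri Δ.hY hc
  refine ⟨X₁, Y, i, f, h, hTri, hX₁s, hX₁p, hX₁c, hYs, Δ.hY, hYc, ⟨Δ.N⟩, hs,
    sses β hD hb hu hTri ⟨hX₁s.evPi hev, hX₁p, c, hX₁c⟩ hXe hs, fun r => ?_,
    fun r s t h1 => ?_⟩
  · exact Δ.isRegAA β hme hB hA2 O hu hT OX r
  · exact Δ.ka β hme hB hA2 O hu hT OX h1

/-- **covers** -/
theorem exists_cover (hA2 : β.SpecA2) {n : ℕ} {ld : Lead p n} {S : SrcT p n P}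
    (O : OpAlg ld S.src) (hu : S.u = η[B] ≫ β.c)
    (hT : ∀ (m : ℤ) (g : P⟦m⟧ ⟶ P), O.T m g = β.T g) (OX : OpX O) (hD : MUUniv e D)
    (hA : MUAll D) (hb : IsBPMon p b) {A : ℤ → Prop} (hQ : QSt p A) (hev : ∀ k, A k → (2 : ℤ) ∣ k)
    {X : 𝒯} (hX : SpPi A X) (hc : PComplete p X) {c : ℤ} (hm : Conn c X) :
    ∃ (X₁ Y : 𝒯) (i : X₁ ⟶ Y) (f : Y ⟶ X) (h : X ⟶ X₁⟦(1 : ℤ)⟧),
      Triangle.mk i f h ∈ distTriang 𝒯 ∧ SpPi A X₁ ∧ PComplete p X₁ ∧ Conn c X₁ ∧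
      SpPi A Y ∧ PComplete p Y ∧ Conn c Y ∧ Nonempty (ModStr B Y) ∧
      (∀ (k : ℤ) (x : (𝟙_ 𝒯)⟦k⟧ ⟶ X), ∃ y, y ≫ f = x) ∧ SSES (S.map0 i) (S.map0 f) ∧
      ∀ (r : ℕ) (s t : ℤ), 1 ≤ s → KA OX (S.sys Y) r s t := by
  obtain ⟨X₁, Y, i, f, h, h1, h2, h3, h4, h5, h6, h7, h8, h9, h10, -, h11⟩ :=
    exists_cover' β hA2 O hu hT OX hD hA hb hQ hev hX hc hm
  exact ⟨X₁, Y, i, f, h, h1, h2, h3, h4, h5, h6, h7, h8, h9, h10, h11⟩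

end Vale.Agent.P221.H626
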