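import Vale.Agent.P221.H626.Tow
import Vale.Agent.P221.E.H817.Raise
import Vale.Agent.P221.H746.ZBP2
import Vale.Agent.P221.H606.MU
import Vale.Agent.P221.Loc.Mod

/-!
# P221 (helper626): even `p`-complete bounded below objects

* `EvPi X` : `π_* X` is concentrated in even degrees; `EE p X` : moreover `X` is `p`-complete and
  bounded below;
* `pComplete_of_dc` : an object with derived `p`-complete homotopy groups is `p`-complete;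
* `pComplete_tensor` : `B ⊗ X` is `p`-complete (`B` the Brown-Peterson monoid, `X` `p`-complete and
  bounded below);
* `EE.tensB`, `EE.tensJ` : `B ⊗ X` and `J ⊗ X` are in `EE p`, `J` the cofibre of the unit of `B`;
* `EE.homB`, `EE.homJ` : `[B⟦k⟧, X] = 0 = [J⟦k⟧, X]`, `k` odd.
-/

open CategoryTheory MonoidalCategory MonObj Limits Pretriangulated

set_option linter.unusedSectionVars false

universe u

noncomputable section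

namespace Vale.Agent.P221.H626

open Vale.Agent.P251 Vale.Agent.P251.S Vale.Agent.P251.T Vale.Agent.P251.M Vale.Agent.P251.F
  Vale.Agent.P251.I EvenSpheres Vale.Agent.P257.H80 Vale.Agent.P257.H762 Vale.Agent.P221.H246
  Vale.Agent.P221.Loc Vale.Agent.P221.E Vale.Agent.P221.E.H817
open Vale.Agent.P221.H509 (DC dc_hom)
open Vale.Agent.P221.T.H769 (Uniq uniq_of_dc)
open Vale.Agent.P221.H395 (PComplete)

variable {𝒯 : Type u} [Category.{0} 𝒯] [Preadditive 𝒯] [HasZeroObject 𝒯]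
    [HasShift 𝒯 ℤ] [∀ n : ℤ, (shiftFunctor 𝒯 n).Additive] [Pretriangulated 𝒯] [IsTriangulated 𝒯]
    [MonoidalCategory 𝒯] [SymmetricCategory 𝒯] [TensorTriangulated 𝒯] [MonoidalClosed 𝒯]
    [HasCoproducts.{0} 𝒯] [HasProducts.{0} 𝒯] [StableCat 𝒯]

/-- the homotopy is concentrated in even degrees -/
def EvPi (X : 𝒯) : Prop := ∀ (k : ℤ) (x : (𝟙_ 𝒯)⟦2 * k + 1⟧ ⟶ X), x = 0

theorem EvPi.zero {X : 𝒯} (h : EvPi X) {k : ℤ} (hk : ¬ (2 : ℤ) ∣ k) (x : (𝟙_ 𝒯)⟦k⟧ ⟶ X) :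
    x = 0 := by
  obtain ⟨m, rfl⟩ : ∃ m, k = 2 * m + 1 := ⟨k / 2, by omega⟩
  exact h m x

theorem EvPi.of_zero {X : 𝒯} (h : ∀ k : ℤ, ¬ (2 : ℤ) ∣ k → ∀ x : (𝟙_ 𝒯)⟦k⟧ ⟶ X, x = 0) :
    EvPi X := fun k x => h (2 * k + 1) (by omega) x

theorem EvPi.of_retract {X Y : 𝒯} (h : EvPi X) (i : Y ⟶ X) (r : X ⟶ Y) (hir : i ≫ r = 𝟙 Y) :
    EvPi Y := fun k x => by
  have h1 : x = (x ≫ i) ≫ r := by rw [Category.assoc, hir, Category.comp_id]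
  rw [h1, h k (x ≫ i), zero_comp]

/-- even covers -/
theorem EvPi.cov (h0 : Conn (0 : ℤ) (𝟙_ 𝒯)) {k : ℤ} {Y X : 𝒯} {c : Y ⟶ X} (hc : IsCov k c)
    (hX : EvPi X) : EvPi Y := fun j x => by
  rcases lt_or_ge (2 * j + 1) k with h | h
  · exact BigCell.conn' h0 hc.cell _ h x
  · refine (hc.bij _ h).1 ?_
    change x ≫ c = 0 ≫ c
    exact (hX j _).trans (hX j _).symm

theorem EvPi.cof (h0 : Conn (0 : ℤ) (𝟙_ 𝒯)) {k : ℤ} {Y X Q : 𝒯} {c : Y ⟶ X} {g : X ⟶ Q}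
    {h : Q ⟶ Y⟦(1 : ℤ)⟧} (hc : IsCov (k + 1) c) (hX : BigCell 𝒯 k X)
    (hT : Triangle.mk c g h ∈ distTriang 𝒯) (hE : EvPi X) : EvPi Q := fun j x => by
  obtain ⟨h1, h2⟩ := single_cof h0 hc hX hT
  rcases lt_trichotomy (2 * j + 1) k with hj | hj | hj
  · exact BigCell.conn' h0 h1 _ hj x
  · have h3 : Conn (k + 1 + 1) (Y⟦(1 : ℤ)⟧) := (BigCell.conn' h0 hc.cell).shift 1 _ rfl
    obtain ⟨z, hz⟩ : ∃ z : (𝟙_ 𝒯)⟦2 * j + 1⟧ ⟶ X, x = z ≫ g :=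
      Triangle.coyoneda_exact₃ _ hT x (h3 _ (by omega) _)
    rw [hz, hE j z, zero_comp]
  · exact h2 _ hj x

/-- **an object with derived `p`-complete homotopy groups is `p`-complete** -/
theorem pComplete_of_dc {p : ℕ} {C : 𝒯} {i : 𝟙_ 𝒯 ⟶ C} {δ : C ⟶ (𝟙_ 𝒯)⟦(1 : ℤ)⟧}
    (hC : Triangle.mk ((p : ℤ) • 𝟙 (𝟙_ 𝒯)) i δ ∈ distTriang 𝒯) {Z : 𝒯}
    (hZ : ∀ k : ℤ, DC p ((𝟙_ 𝒯)⟦k⟧ ⟶ Z)) : PComplete p Z := by
  obtain ⟨L, l, hL, hl⟩ := H395.exists_completion hC Z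
  obtain ⟨Q, q, w, hT⟩ := distinguished_cocone_triangle l
  have hQ : IsIso ((p : ℤ) • 𝟙 Q) := (H395.isIso_mod_iff hC hT).1 hl
  have h0 : IsZero Q := by
    refine StableCat.generator Q fun k x => ?_
    let v : Q ⟶ Q := inv ((p : ℤ) • 𝟙 Q)
    have hv : ∀ y : (𝟙_ 𝒯)⟦k⟧ ⟶ Q, p • (y ≫ v) = y := by
      intro y
      have h1 : v ≫ ((p : ℤ) • 𝟙 Q) = 𝟙 Q := IsIso.inv_hom_id _
      have h2 : y ≫ v ≫ ((p : ℤ) • 𝟙 Q) = y ≫ 𝟙 Q := congrArg (fun t => y ≫ t) h1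
      rw [Preadditive.comp_zsmul, Preadditive.comp_zsmul, Category.comp_id, Category.comp_id,
        natCast_zsmul] at h2
      exact h2
    let x' : ℕ → ((𝟙_ 𝒯)⟦k⟧ ⟶ Q) := fun n => Nat.rec x (fun _ y => y ≫ v) n
    have hx' : ∀ n, x' n = p • x' (n + 1) := fun n => (hv (x' n)).symm
    -- the boundary
    obtain ⟨e⟩ := nonempty_homShift Z k 1
    have hU : Uniq p ((𝟙_ 𝒯)⟦k⟧ ⟶ Z⟦(1 : ℤ)⟧) := (uniq_of_dc (hZ (k - 1))).of_equiv e.symm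
    have h1 : ∀ n, x' n ≫ w = 0 := hU.eq_zero (x := fun n => x' n ≫ w) fun n => by
      rw [← Preadditive.nsmul_comp, ← hx' n]
    have hy0 : ∀ n, ∃ y : (𝟙_ 𝒯)⟦k⟧ ⟶ L, x' n = y ≫ q := fun n =>
      Triangle.coyoneda_exact₃ _ hT (x' n) (h1 n)
    choose y hy using hy0
    have h2 : ∀ n, (y n - p • y (n + 1)) ≫ q = 0 := fun n => by
      have e1 : x' n = y n ≫ q := hy n
      have e2 : x' (n + 1) = y (n + 1) ≫ q := hy (n + 1)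
      rw [Preadditive.sub_comp, Preadditive.nsmul_comp, ← e1, ← e2, ← hx' n, sub_self]
    have hz0 : ∀ n, ∃ z : (𝟙_ 𝒯)⟦k⟧ ⟶ Z, y n - p • y (n + 1) = z ≫ l := fun n =>
      Triangle.coyoneda_exact₂ _ hT (y n - p • y (n + 1)) (h2 n)
    choose z hz using hz0
    obtain ⟨t, ht⟩ := (uniq_of_dc (hZ k)).exists z
    have hUL : Uniq p ((𝟙_ 𝒯)⟦k⟧ ⟶ L) := uniq_of_dc (dc_hom hC hL _)
    have h3 : ∀ n, y n - t n ≫ l = 0 := hUL.eq_zero (x := fun n => y n - t n ≫ l) fun n => by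
      have e1 : y n - p • y (n + 1) = z n ≫ l := hz n
      have e2 : t n ≫ l - p • (t (n + 1) ≫ l) = z n ≫ l := by
        rw [← ht n, Preadditive.sub_comp, Preadditive.nsmul_comp]
      rw [smul_sub]
      rw [← e2] at e1
      rw [sub_eq_sub_iff_add_eq_add] at e1 ⊢
      rw [e1]
      abel
    have h4 : x = y 0 ≫ q := hy 0
    have h5 : l ≫ q = 0 := comp_distTriang_mor_zero₁₂ _ hT
    rw [h4, sub_eq_zero.1 (h3 0), Category.assoc, h5, comp_zero]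
  have hi : IsIso l := (Triangle.isZero₃_iff_isIso₁ _ hT).1 h0
  exact hL.of_iso (asIso l).symm

variable {D : MUData 𝒯} {F : SpaceFunctor 𝒯} {e : F.S.obj CCF ≅ (stdEven 𝒯).L}
  {p : ℕ} [hp : Fact p.Prime] {B : 𝒯} [MonObj B] [IsCommMonObj B] {b : D.R ⟶ B} [IsMonHom b]

theorem locO_of_pc {X : 𝒯} (hX : PComplete p X) : LocO p X :=
  Vale.Agent.P221.H136.locO_of_pComplete hp.out hX

/-- for `p`-local `Y`, `B ⊗ Y` is a retract of `MU ⊗ Y` -/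
theorem exists_ret (hD : MUUniv e D) (hb : IsBPMon p b) {Y : 𝒯} (hY : LocO p Y) :
    ∃ m : B ⊗ Y ⟶ D.R ⊗ Y, m ≫ b ▷ Y = 𝟙 _ := by
  obtain ⟨Rp, i1, i2, l, i3, hl⟩ := Vale.Agent.P257.H604.exists_isPLoc hp.out D.R
  have h : IsLoc p l := IsPLoc.isLoc hl
  obtain ⟨s, hs, r, hr, hlr, hsr⟩ := Vale.Agent.P221.E.H817.exists_retract hD hb h
  have h1 : IsIso (l ▷ Y) := isIso_whisker h hY
  refine ⟨(s ▷ Y) ≫ inv (l ▷ Y), ?_⟩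
  rw [← hlr, comp_whiskerRight, Category.assoc, IsIso.inv_hom_id_assoc, ← comp_whiskerRight, hsr,
    id_whiskerRight]

/-- `MU ⊗ X` is even if `X` is -/
theorem EvPi.tensMU (D : MUData 𝒯) {X : 𝒯} (hX : EvPi X) : EvPi (D.R ⊗ X) := by
  obtain ⟨G, ι', tel, hG⟩ := D.cells 1
  have h1 : EvPi (Am D.R 1 ⊗ X) := fun k x => by
    obtain ⟨n, x', hx'⟩ := tel.whiskerRight_factor X (isCpt_sph (2 * k + 1)) x
    rw [← hx']
    have h2 : x' ≫ (β_ (G.obj n) X).hom = 0 := (hG n).odd_zero hX k _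
    have h3 : x' = 0 := by
      rw [← cancel_mono (β_ (G.obj n) X).hom, h2, zero_comp]
    rw [h3, zero_comp]
  exact h1.of_retract (((λ_ D.R).inv) ▷ X) (((λ_ D.R).hom) ▷ X) (by
    rw [← comp_whiskerRight, Iso.inv_hom_id, id_whiskerRight])

theorem EvPi.tensB (hD : MUUniv e D) (hb : IsBPMon p b) {X : 𝒯} (hX : EvPi X)
    (hl : LocO p X) : EvPi (B ⊗ X) := by
  obtain ⟨m, hm⟩ := exists_ret hD hb hl
  exact (hX.tensMU D).of_retract m (b ▷ X) hm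

/-- `B ⊗ X` is as connected as `X` -/
theorem conn_tensB (hD : MUUniv e D) (hb : IsBPMon p b) {X : 𝒯} (hl : LocO p X) {k : ℤ}
    (hk : BigCell 𝒯 k X) : Conn k (B ⊗ X) := by
  obtain ⟨U⟩ := exists_unitCof B
  exact Conn.ext _ (U.triangle_distinguished X) (BigCell.conn' D.conn_unit hk)
    ((BigCell.conn' D.conn_unit (bigCell_J hD hb U hl hk)).mono (by omega))

/-- an object with a single homotopy group is a module -/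
theorem exists_mod_single (hD : MUUniv e D) (hb : IsBPMon p b) {k : ℤ} {E : 𝒯}
    (hpc : PComplete p E) (hE : BigCell 𝒯 k E)
    (hE' : ∀ j, k < j → ∀ x : (𝟙_ 𝒯)⟦j⟧ ⟶ E, x = 0) : Nonempty (ModStr B E) := by
  obtain ⟨M⟩ := modStr_of_single D hE hE'
  exact H606.exists_modStr_of_mu' hD hb hpc M

theorem evCl_pc (h0 : Conn (0 : ℤ) (𝟙_ 𝒯)) : EvCl (fun X : 𝒯 => PComplete p X) := by
  obtain ⟨C, i, δ, hC⟩ := H746.exists_moore (𝒯 := 𝒯) (p : ℤ)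
  refine ⟨fun hc hX => hc.pComplete hC h0 hX, fun hc _ hT hX => ?_⟩
  exact PComplete.ext₃ _ hT (hc.pComplete hC h0 hX) hX

/-- **`B ⊗ X` is `p`-complete** -/
theorem pComplete_tensor (hD : MUUniv e D) (hb : IsBPMon p b) {X : 𝒯} (hX : PComplete p X)
    {m : ℤ} (hm : Conn m X) : PComplete p (B ⊗ X) := by
  obtain ⟨C, i, δ, hC⟩ := H746.exists_moore (𝒯 := 𝒯) (p : ℤ)
  intro W hW f
  refine hom_zero_of_single D.conn_unit (evCl_pc (p := p) D.conn_unit) B (fun k Z hZ hk =>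
    conn_tensB hD hb (locO_of_pc hZ) hk) (fun k E hE hk hk' u => ?_) hX
    (bigCell_of_conn D.conn_unit hm) f
  obtain ⟨L⟩ := exists_mod_single hD hb hE hk hk'
  have h1 : PComplete p (B ⊗ E) := pComplete_of_dc hC fun j =>
    dc_pi_B hD hb hC L (BigCell.conn' D.conn_unit hk) hE (isSphere_one_shift j)
  exact h1 W hW u

/-- even, `p`-complete, bounded below -/
structure EE (p : ℕ) (X : 𝒯) : Prop where
  ev : EvPi X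
  pc : PComplete p X
  bb : ∃ m : ℤ, Conn m X

theorem evCl_ev (h0 : Conn (0 : ℤ) (𝟙_ 𝒯)) : EvCl (fun X : 𝒯 => EvPi X ∧ PComplete p X) := by
  have h1 := evCl_pc (𝒯 := 𝒯) (p := p) h0
  exact ⟨fun hc hX => ⟨hX.1.cov h0 hc, h1.cov hc hX.2⟩,
    fun hc hk hT hX => ⟨hX.1.cof h0 hc hk hT, h1.cof hc hk hT hX.2⟩⟩

theorem EE.tensB (hD : MUUniv e D) (hb : IsBPMon p b) {X : 𝒯} (hX : EE p X) : EE p (B ⊗ X) := by
  obtain ⟨m, hm⟩ := hX.bb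
  exact ⟨hX.ev.tensB hD hb (locO_of_pc hX.pc), pComplete_tensor hD hb hX.pc hm,
    m, conn_tensB hD hb (locO_of_pc hX.pc) (bigCell_of_conn D.conn_unit hm)⟩

/-- the homotopy of `J ⊗ E` for a module `E` -/
theorem exists_of_mod (U : UnitCof B) {E : 𝒯} (L : ModStr B E) {W : 𝒯} (x : W ⟶ U.J ⊗ E) :
    ∃ y : W ⟶ B ⊗ E, y ≫ U.ρ ▷ E = x := by
  have h1 : unitMap B E ≫ L.act = 𝟙 E := by
    rw [unitMap, Category.assoc, L.one_act, Iso.inv_hom_id]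
  obtain ⟨σ, hσ, -⟩ := exists_section_of_retraction _ (U.triangle_distinguished E) L.act h1
  change U.J ⊗ E ⟶ B ⊗ E at σ
  replace hσ : σ ≫ U.ρ ▷ E = 𝟙 _ := hσ
  exact ⟨x ≫ σ, by rw [Category.assoc, hσ, Category.comp_id]⟩

theorem EvPi.tensJ (hD : MUUniv e D) (hb : IsBPMon p b) (U : UnitCof B) {X : 𝒯} (hX : EE p X) :
    EvPi (U.J ⊗ X) := fun k x => by
  obtain ⟨m, hm⟩ := hX.bb
  refine hom_zero_of_single D.conn_unit (evCl_ev (p := p) D.conn_unit) U.J (fun k Z hZ hk =>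
    (BigCell.conn' D.conn_unit (bigCell_J hD hb U (locO_of_pc hZ.2) hk)).mono (by omega))
    (fun j E hE hk hk' u => ?_) ⟨hX.ev, hX.pc⟩ (bigCell_of_conn D.conn_unit hm) x
  obtain ⟨L⟩ := exists_mod_single hD hb hE.2 hk hk'
  obtain ⟨y, rfl⟩ := exists_of_mod U L u
  rw [hE.1.tensB hD hb (locO_of_pc hE.2) k y, zero_comp]

theorem EE.tensJ (hD : MUUniv e D) (hb : IsBPMon p b) (U : UnitCof B) {X : 𝒯} (hX : EE p X) :
    EE p (U.J ⊗ X) := by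
  obtain ⟨m, hm⟩ := hX.bb
  exact ⟨EvPi.tensJ hD hb U hX, PComplete.ext₃ _ (U.triangle_distinguished X) hX.pc
    (hX.tensB hD hb).pc, 2 + m, BigCell.conn' D.conn_unit
      (bigCell_J hD hb U (locO_of_pc hX.pc) (bigCell_of_conn D.conn_unit hm))⟩

/-- `π_* X ⟶ π_* (B ⊗ X)` is injective -/
theorem EE.unit_inj (hD : MUUniv e D) (hb : IsBPMon p b) {X : 𝒯} (hX : EE p X) {k : ℤ}
    {x : (𝟙_ 𝒯)⟦k⟧ ⟶ X} (h : x ≫ unitMap B X = 0) : x = 0 := by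
  obtain ⟨U⟩ := exists_unitCof B
  by_cases hk : (2 : ℤ) ∣ k
  · obtain ⟨t, ht⟩ := Triangle.coyoneda_exact₂ _
      (inv_rot_of_distTriang _ (U.triangle_distinguished X)) x h
    have h0 : ∀ t : (𝟙_ 𝒯)⟦k⟧ ⟶ (U.J ⊗ X)⟦(-1 : ℤ)⟧, t = 0 := fun t => by
      obtain ⟨e⟩ := nonempty_homShift (U.J ⊗ X) k (-1)
      exact e.injective (((hX.tensJ hD hb U).ev.zero (by omega) _).trans
        ((hX.tensJ hD hb U).ev.zero (by omega) _).symm)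
    have h1 : t = 0 := h0 t
    rw [ht, h1]
    exact zero_comp
  · exact hX.ev.zero hk x

/-- primitive elements come from `X` -/
theorem EE.exists_of_prim (hD : MUUniv e D) (hb : IsBPMon p b) {X : 𝒯} (hX : EE p X) {k : ℤ}
    {y : (𝟙_ 𝒯)⟦k⟧ ⟶ B ⊗ X}
    (h : y ≫ unitMap B (B ⊗ X) = y ≫ (B ◁ unitMap B X)) : ∃ x, x ≫ unitMap B X = y := by
  obtain ⟨U⟩ := exists_unitCof B
  have h1 : y ≫ (U.ρ ▷ X) ≫ unitMap B (U.J ⊗ X) = 0 := (Vale.Agent.P221.H817.Col.coc0_iff y).1 h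
  have h2 : y ≫ (U.ρ ▷ X) = 0 := (hX.tensJ hD hb U).unit_inj hD hb (by rw [Category.assoc, h1])
  obtain ⟨x, hx⟩ : ∃ x : (𝟙_ 𝒯)⟦k⟧ ⟶ X, y = x ≫ unitMap B X :=
    Triangle.coyoneda_exact₂ _ (U.triangle_distinguished X) y h2
  exact ⟨x, hx.symm⟩

/-- maps from `W` to `EE` objects vanish if they do for modules -/
theorem EE.hom_zero (D : MUData 𝒯) {W : 𝒯} (hW : ∀ E : 𝒯, EE p E →
      (∃ k, BigCell 𝒯 k E ∧ ∀ j, k < j → ∀ x : (𝟙_ 𝒯)⟦j⟧ ⟶ E, x = 0) → ∀ u : W ⟶ E, u = 0)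
    {X : 𝒯} (hX : EE p X) (f : W ⟶ X) : f = 0 := by
  obtain ⟨m, hm⟩ := hX.bb
  have h1 : f ≫ (λ_ X).inv = 0 := by
    refine hom_zero_of_single D.conn_unit (evCl_ev (p := p) D.conn_unit) (𝟙_ 𝒯) (fun k Z _ hk =>
      (BigCell.conn' D.conn_unit hk).of_iso (λ_ Z).symm) (fun j E hE hk hk' u => ?_)
      ⟨hX.ev, hX.pc⟩ (bigCell_of_conn D.conn_unit hm) (f ≫ (λ_ X).inv)
    have h2 : u ≫ (λ_ E).hom = 0 := hW E ⟨hE.1, hE.2, j, BigCell.conn' D.conn_unit hk⟩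
      ⟨j, hk, hk'⟩ _
    rw [← cancel_mono (λ_ E).hom, h2, zero_comp]
  rw [← cancel_mono (λ_ X).inv, h1, zero_comp]

/-- `[B⟦k⟧, Y] = 0` for an even module `Y`, `k` odd -/
theorem homB_mod (hD : MUUniv e D) (hb : IsBPMon p b) {Y : 𝒯} (M : ModStr B Y) (hY : EvPi Y)
    {k : ℤ} (hk : ¬ (2 : ℤ) ∣ k) (f : B⟦k⟧ ⟶ Y) : f = 0 := by
  refine (tau_basis hD hb M k fun _ => 0).unique (fun E => ?_) fun E => ?_
  · refine hY.zero ?_ _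
    have h1 := dT_eq p E
    omega
  · refine hY.zero ?_ _
    have h1 := dT_eq p E
    omega

/-- **`[B⟦k⟧, X] = 0`** -/
theorem EE.homB (hD : MUUniv e D) (hb : IsBPMon p b) {X : 𝒯} (hX : EE p X) {k : ℤ}
    (hk : ¬ (2 : ℤ) ∣ k) (f : B⟦k⟧ ⟶ X) : f = 0 := by
  refine EE.hom_zero D (fun E hE hE' u => ?_) hX f
  obtain ⟨j, h1, h2⟩ := hE'
  obtain ⟨L⟩ := exists_mod_single hD hb hE.pc h1 h2
  exact homB_mod hD hb L hE.ev hk u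

theorem exists_of_shift {A₁ A₂ A₃ Y : 𝒯} {f : A₁ ⟶ A₂} {g : A₂ ⟶ A₃} {h : A₃ ⟶ A₁⟦(1 : ℤ)⟧}
    (hT : Triangle.mk f g h ∈ distTriang 𝒯) (k : ℤ) (u : A₃⟦k⟧ ⟶ Y) (hu : g⟦k⟧' ≫ u = 0) :
    ∃ (w : A₃⟦k⟧ ⟶ A₁⟦k⟧⟦(1 : ℤ)⟧) (v : A₁⟦k⟧⟦(1 : ℤ)⟧ ⟶ Y), u = w ≫ v ∧
      w ≫ f⟦k⟧'⟦(1 : ℤ)⟧' = 0 := by
  have hT' := Triangle.shift_distinguished _ hT k
  let w : A₃⟦k⟧ ⟶ A₁⟦k⟧⟦(1 : ℤ)⟧ :=
    k.negOnePow • h⟦k⟧' ≫ (shiftFunctorComm 𝒯 1 k).hom.app A₁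
  let g' : A₂⟦k⟧ ⟶ A₃⟦k⟧ := k.negOnePow • g⟦k⟧'
  let f' : A₁⟦k⟧ ⟶ A₂⟦k⟧ := k.negOnePow • f⟦k⟧'
  have hT'' : Triangle.mk f' g' w ∈ distTriang 𝒯 := hT'
  have h1 : g' ≫ u = 0 := by
    change (k.negOnePow • g⟦k⟧') ≫ u = 0
    rw [Linear.units_smul_comp, hu, smul_zero]
  obtain ⟨v, hv⟩ : ∃ v : A₁⟦k⟧⟦(1 : ℤ)⟧ ⟶ Y, u = w ≫ v := Triangle.yoneda_exact₃ _ hT'' u h1
  refine ⟨w, v, hv, ?_⟩
  have h2 : w ≫ f'⟦(1 : ℤ)⟧' = 0 := comp_distTriang_mor_zero₃₁ _ hT''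
  have h3 : f⟦k⟧' = k.negOnePow • f' := by
    change f⟦k⟧' = k.negOnePow • (k.negOnePow • f⟦k⟧')
    rw [smul_smul, Int.units_mul_self, one_smul]
  rw [h3, Functor.map_units_smul, Linear.comp_units_smul, h2, smul_zero]

/-- **`[J⟦k⟧, X] = 0`** -/
theorem EE.homJ (hD : MUUniv e D) (hb : IsBPMon p b) (U : UnitCof B) {X : 𝒯} (hX : EE p X)
    {k : ℤ} (hk : ¬ (2 : ℤ) ∣ k) (f : U.J⟦k⟧ ⟶ X) : f = 0 := by
  refine EE.hom_zero D (fun E hE hE' u => ?_) hX f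
  obtain ⟨j, h1, h2⟩ := hE'
  obtain ⟨L⟩ := exists_mod_single hD hb hE.pc h1 h2
  have h3 : (U.ρ⟦k⟧') ≫ u = 0 := homB_mod hD hb L hE.ev hk _
  obtain ⟨w, v, rfl, hw⟩ := exists_of_shift U.dist k u h3
  -- `v` extends over `B`
  let ε : (𝟙_ 𝒯)⟦k⟧⟦(1 : ℤ)⟧ ≅ (𝟙_ 𝒯)⟦k + 1⟧ := ((shiftFunctorAdd' 𝒯 k 1 (k + 1) rfl).app _).symm
  let εB : B⟦k⟧⟦(1 : ℤ)⟧ ≅ B⟦k + 1⟧ := ((shiftFunctorAdd' 𝒯 k 1 (k + 1) rfl).app _).symm
  have hε : (η[B])⟦k⟧'⟦(1 : ℤ)⟧' ≫ εB.hom = ε.hom ≫ (η[B])⟦k + 1⟧' :=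
    (shiftFunctorAdd' 𝒯 k 1 (k + 1) rfl).inv.naturality (η[B])
  have h4 : (η[B])⟦k⟧'⟦(1 : ℤ)⟧' ≫ εB.hom ≫ Vale.Agent.P221.T.hat L (ε.inv ≫ v) = v := by
    rw [← Category.assoc, hε, Category.assoc, Vale.Agent.P221.T.unit_hat, Iso.hom_inv_id_assoc]
  rw [← h4, ← Category.assoc, hw, zero_comp]

end Vale.Agent.P221.H626
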