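import Vale.Agent.P221.H626.Ev1
import Vale.Agent.P221.H460.C1
import Vale.Agent.P221.T.H609.SB2a
import Vale.Agent.P221.T.H520.TopFS

/-!
# P221 (helper626): the lowest coordinates

`b : BPS p R P W`. If the coordinates of `a : P⟦k⟧ ⟶ X` in degrees `< c₀` vanish, those in degree
`c₀` are primitive elements of `π_* (R ⊗ X)`.

* `rb_fm` : base change from the right and graded maps;
* `low1` : a linear map `φ : (R ⊗ R)⟦k⟧ ⟶ Y` is zero on `π_j (R ⊗ R)`, `j < c₀`;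
* `low2` : `R ⊗ φ` on `π_{c₀} (R ⊗ (R ⊗ R))` factors through the unit;
* `low_prim` : the elements are primitive.
-/

open CategoryTheory MonoidalCategory MonObj Limits Pretriangulated

set_option linter.unusedSectionVars false

universe u

noncomputable section

namespace Vale.Agent.P221.H626

open Vale.Agent.P251 Vale.Agent.P251.S Vale.Agent.P251.T Vale.Agent.P251.M Vale.Agent.P251.F
  Vale.Agent.P251.I EvenSpheres Vale.Agent.P257.H80 Vale.Agent.P257.H762 Vale.Agent.P221.H246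
  Vale.Agent.P221.Loc Vale.Agent.P221.E Vale.Agent.P221.E.H817
open Vale.Agent.P221.H395 (PComplete)
open Vale.Agent.P221.H658 (rb ru rb_ru comp_rb isIso_rb)
open Vale.Agent.P221.T (fm fm_comp shift_fm fm_assoc fm_tlMap gc comp_gc gc_map ext ext_isLin
  IsLin BPS PiM zr KK GG HK dT)

variable {𝒯 : Type u} [Category.{0} 𝒯] [Preadditive 𝒯] [HasZeroObject 𝒯]
    [HasShift 𝒯 ℤ] [∀ n : ℤ, (shiftFunctor 𝒯 n).Additive] [Pretriangulated 𝒯] [IsTriangulated 𝒯]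
    [MonoidalCategory 𝒯] [SymmetricCategory 𝒯] [TensorTriangulated 𝒯] [MonoidalClosed 𝒯]
    [HasCoproducts.{0} 𝒯] [HasProducts.{0} 𝒯] [StableCat 𝒯]

section gen

variable {R : 𝒯} [MonObj R]

/-- base change from the right and graded linear maps -/
theorem rb_fm {N N' : 𝒯} {L : ModStr R N} {L' : ModStr R N'} {k : ℤ} {φ : N⟦k⟧ ⟶ N'}
    (hφ : IsLin L L' φ) {X Y : 𝒯} (g : X ⟶ Y ⊗ R) :
    (rb L g)⟦k⟧' ≫ fm (tensorLeft Y) φ = fm (tensorLeft X) φ ≫ rb L' g := by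
  have h1 : (Y ◁ L.act)⟦k⟧' ≫ fm (tensorLeft Y) φ =
      fm (tensorLeft Y) (fm (tensorLeft R) φ) ≫ (Y ◁ L'.act) := by
    have h2 : fm (tensorLeft R) φ ≫ L'.act = L.act⟦k⟧' ≫ φ := hφ
    have h3 : fm (tensorLeft Y) (L.act⟦k⟧' ≫ φ) = (Y ◁ L.act)⟦k⟧' ≫ fm (tensorLeft Y) φ :=
      shift_fm _ _ _
    rw [← h3, ← h2, fm_comp]
    rfl
  have h4 : ((α_ Y R N).hom)⟦k⟧' ≫ fm (tensorLeft Y) (fm (tensorLeft R) φ) =
      fm (tensorLeft (Y ⊗ R)) φ ≫ (α_ Y R N').hom := by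
    have h5 := fm_assoc Y R φ
    rw [Iso.comp_inv_eq] at h5
    rw [h5, Category.assoc, ← Functor.map_comp_assoc, Iso.hom_inv_id,
      CategoryTheory.Functor.map_id, Category.id_comp]
  have h6 : (g ▷ N)⟦k⟧' ≫ fm (tensorLeft (Y ⊗ R)) φ = fm (tensorLeft X) φ ≫ g ▷ N' :=
    (fm_tlMap g φ).symm
  unfold rb
  rw [Functor.map_comp, Functor.map_comp, Category.assoc, Category.assoc, h1, reassoc_of% h4,
    reassoc_of% h6]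

/-- the unit and graded maps -/
theorem unit_fm {N N' : 𝒯} {k : ℤ} (φ : N⟦k⟧ ⟶ N') :
    (unitMap R N)⟦k⟧' ≫ fm (tensorLeft R) φ = φ ≫ unitMap R N' := by
  change (unitMap R N)⟦k⟧' ≫ (csh R k N).inv ≫ R ◁ φ = φ ≫ unitMap R N'
  rw [unitMap_nat, ← unitMap_csh k N, Category.assoc, Iso.hom_inv_id_assoc]

/-- the graded extension to a free module of a map from a free module -/
theorem ext_unit_free {Z X : 𝒯} {k : ℤ} (a : Z⟦k⟧ ⟶ X) :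
    Vale.Agent.P221.T.ext (ModStr.free R X) (a ≫ unitMap R X) = fm (tensorLeft R) a := by
  unfold Vale.Agent.P221.T.ext
  rw [fm_comp, Category.assoc]
  have h1 : (tensorLeft R).map (unitMap R X) ≫ (ModStr.free R X).act = 𝟙 _ :=
    whiskerLeft_unitMap_mulMap X
  rw [h1]
  exact Category.comp_id _

/-- maps from spheres to `S ⊗ N` -/
theorem desc_sphere {n c j : ℤ} (h : 2 * n + j = c) {N : 𝒯}
    (g : (𝟙_ 𝒯)⟦c⟧ ⟶ (stdEven 𝒯).S n ⊗ N) :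
    ∃ (i : (𝟙_ 𝒯)⟦c⟧ ≅ (stdEven 𝒯).S n ⊗ (𝟙_ 𝒯)⟦j⟧) (z : (𝟙_ 𝒯)⟦j⟧ ⟶ N),
      g = i.hom ≫ ((stdEven 𝒯).S n ◁ z) := by
  have h1 : (tensorLeft ((stdEven 𝒯).S n)).IsEquivalence := IsInv.equiv
  let i : (𝟙_ 𝒯)⟦c⟧ ≅ (stdEven 𝒯).S n ⊗ (𝟙_ 𝒯)⟦j⟧ :=
    (shiftFunctorAdd' 𝒯 (2 * n) j c h).app (𝟙_ 𝒯) ≪≫ (tensorUnitShiftIso _ _).symm ≪≫
      whiskerRightIso (stdSph n).symm _
  obtain ⟨z, hz⟩ := (tensorLeft ((stdEven 𝒯).S n)).map_surjective (X := (𝟙_ 𝒯)⟦j⟧) (Y := N)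
    (i.inv ≫ g)
  refine ⟨i, z, ?_⟩
  change (stdEven 𝒯).S n ◁ z = i.inv ≫ g at hz
  rw [hz, Iso.hom_inv_id_assoc]

/-- the expansion of an element of `π_* (R ⊗ N)` in a basis over the second factor -/
theorem expandR (c : BasR R) {A N : 𝒯} (hA : IsSphere A) (L : ModStr R N) (x : A ⟶ R ⊗ N) :
    ∃ (s : Finset c.J) (g : ∀ j, A ⟶ c.S j ⊗ N), x = ∑ j ∈ s, g j ≫ rb L (c.w j) := by
  have := isIso_rb L (Sigma.desc c.w) c.isIso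
  obtain ⟨s, g, hg⟩ := compact_sumR N c.S hA (x ≫ inv (rb L (Sigma.desc c.w)))
  refine ⟨s, g, ?_⟩
  have h1 : x = (x ≫ inv (rb L (Sigma.desc c.w))) ≫ rb L (Sigma.desc c.w) := by
    rw [Category.assoc, IsIso.inv_hom_id, Category.comp_id]
  rw [h1, hg, Preadditive.sum_comp]
  refine Finset.sum_congr rfl fun j _ => ?_
  rw [Category.assoc, ← comp_rb, Sigma.ι_desc]

/-- right multiplication with the unit -/
theorem rb_one {N : 𝒯} (L : ModStr R N) : rb L η[R ⊗ R] = (λ_ N).hom ≫ unitMap R N := by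
  have h1 : η[R ⊗ R] = η[R] ≫ ru R R := by
    rw [MonObj.tensorObj.one_def, ru, rightUnitor_inv_naturality_assoc, ← unitors_inv_equal,
      MonoidalCategory.tensorHom_def]
  rw [h1, comp_rb, rb_ru, Category.comp_id, unitMap, Iso.hom_inv_id_assoc]

end gen

section low

variable {D : MUData 𝒯} {F : SpaceFunctor 𝒯} {e : F.S.obj CCF ≅ (stdEven 𝒯).L}
  {p : ℕ} [hp : Fact p.Prime] {B : 𝒯} [MonObj B] [IsCommMonObj B] {b : D.R ⟶ B} [IsMonHom b]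
  {P W : 𝒯} (β : BPS p B P W)

theorem gc_eq_zero_iff {A Q Y : 𝒯} {m k k' : ℤ} (h : k + m = k') (g : A⟦m⟧ ⟶ Q) (a : Q⟦k⟧ ⟶ Y) :
    gc h g a = 0 ↔ g⟦k⟧' ≫ a = 0 := by
  unfold gc
  exact Preadditive.IsIso.comp_left_eq_zero _ _

include β in
/-- a linear map is zero in low degrees -/
theorem low1 {Y : 𝒯} (hY : PComplete p Y) (M : ModStr B Y) {k : ℤ} {φ : (B ⊗ B)⟦k⟧ ⟶ Y}
    (hφ : IsLin (ModStr.free B B) M φ) {c : ℤ}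
    (h : ∀ E, dT p E < c → gc rfl (β.τ E) φ = 0) {j : ℤ} (hj : j < c)
    (z : (𝟙_ 𝒯)⟦j⟧ ⟶ B ⊗ B) : z⟦k⟧' ≫ φ = 0 := by
  obtain ⟨ψ, hψ⟩ := β.exists_ext_w hY φ
  have hl : IsLin β.MW M ψ := β.isLin_of_w hY (by rw [hψ]; exact hφ)
  obtain ⟨g, ⟨hg1, hg2⟩, -⟩ := β.freeW j (z ≫ β.w)
  have h1 := congrArg (PiM.map ψ) hg2
  rw [Vale.Agent.P221.T.PiM.map_of ψ rfl, map_sum] at h1
  rw [← gc_eq_zero_iff rfl z φ]
  apply Vale.Agent.P221.T.PiM.of_injective Y (k + j)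
  rw [map_zero, ← hψ, ← gc_map, h1]
  refine Finset.sum_eq_zero fun E hE => ?_
  have h2 : 0 ≤ j - dT p E := by
    by_contra h3
    exact MvPolynomial.mem_support_iff.1 hE
      (Vale.Agent.P221.H460.HK_neg_eq_zero (by omega) (hg1 E))
  rw [β.kk_lin _ _ M hY ψ hl, Vale.Agent.P221.T.PiM.map_of ψ rfl, gc_map, hψ, h E (by omega),
    map_zero, map_zero]

/-- `w_0 = 1` -/
theorem wS_zero : ∃ ζ : (stdEven 𝒯).S (dB p 0) ≅ 𝟙_ 𝒯, wS p b 0 = ζ.hom ≫ η[B ⊗ B] := by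
  have h1 : HRing.of (stdEven 𝒯) (B ⊗ B) (dB p 0) (wS p b 0) =
      HRing.of (stdEven 𝒯) (B ⊗ B) 0 ((stdEven 𝒯).zero.inv ≫ η[B ⊗ B]) := by
    rw [of_one, of_wS]
    exact Finsupp.prod_zero_index
  have h2 : ∀ {m : ℤ} (hm : m = 0) (x : (stdEven 𝒯).S m ⟶ B ⊗ B),
      HRing.of (stdEven 𝒯) (B ⊗ B) m x =
        HRing.of (stdEven 𝒯) (B ⊗ B) 0 ((stdEven 𝒯).zero.inv ≫ η[B ⊗ B]) →
      ∃ ζ : (stdEven 𝒯).S m ≅ 𝟙_ 𝒯, x = ζ.hom ≫ η[B ⊗ B] := by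
    intro m hm x hx
    subst hm
    exact ⟨(stdEven 𝒯).zero.symm, DirectSum.of_injective (β := (stdEven 𝒯).Gr (B ⊗ B)) _ hx⟩
  exact h2 (map_zero _) _ h1

theorem dB_pos {E : ℕ →₀ ℕ} (hE : E ≠ 0) : 0 < dB p E := by
  have h1 := Vale.Agent.P221.T.dT_pos (p := p) hE
  have h2 := dT_eq p E
  omega

/-- the expansion in the basis `w_a` -/
theorem expandB (hD : MUUniv e D) (hb : IsBPMon p b) {N : 𝒯} (L : ModStr B N) {c : ℤ}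
    (x : (𝟙_ 𝒯)⟦c⟧ ⟶ B ⊗ N) : ∃ (s : Finset (ℕ →₀ ℕ))
      (g : ∀ a : ℕ →₀ ℕ, (𝟙_ 𝒯)⟦c⟧ ⟶ (stdEven 𝒯).S (dB p a) ⊗ N),
      x = ∑ a ∈ s, g a ≫ rb L (wS p b a ≫ (β_ B B).hom) :=
  expandR (basB hD hb) (isSphere_one_shift c) L x

theorem low2 (hD : MUUniv e D) (hb : IsBPMon p b) {Y : 𝒯} (M : ModStr B Y) {k : ℤ}
    {φ : (B ⊗ B)⟦k⟧ ⟶ Y} (hφ : IsLin (ModStr.free B B) M φ) {c : ℤ}
    (h : ∀ j : ℤ, j < c → ∀ z : (𝟙_ 𝒯)⟦j⟧ ⟶ B ⊗ B, z⟦k⟧' ≫ φ = 0)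
    (x : (𝟙_ 𝒯)⟦c⟧ ⟶ B ⊗ (B ⊗ B)) :
    ∃ y : (𝟙_ 𝒯)⟦c⟧⟦k⟧ ⟶ Y, x⟦k⟧' ≫ fm (tensorLeft B) φ = y ≫ unitMap B Y := by
  obtain ⟨s, g, hg⟩ := expandB hD hb (ModStr.free B B) x
  have h1 : ∀ a : ℕ →₀ ℕ, ∃ y : (𝟙_ 𝒯)⟦c⟧⟦k⟧ ⟶ Y,
      (g a ≫ rb (ModStr.free B B) (wS p b a ≫ (β_ B B).hom))⟦k⟧' ≫ fm (tensorLeft B) φ =
        y ≫ unitMap B Y := by
    intro a
    by_cases ha : a = 0
    · obtain ⟨ζ, hζ⟩ := wS_zero (p := p) (b := b)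
      subst ha
      refine ⟨(g 0)⟦k⟧' ≫ fm (tensorLeft ((stdEven 𝒯).S (dB p 0))) φ ≫ ζ.hom ▷ Y ≫ (λ_ Y).hom, ?_⟩
      rw [Functor.map_comp, Category.assoc, rb_fm hφ, hζ, Category.assoc, MonObj.one_braiding,
        comp_rb, rb_one]
      simp only [Category.assoc]
    · have h3 := dB_pos (p := p) ha
      obtain ⟨i, z, hz⟩ := desc_sphere (n := dB p a) (c := c) (j := c - 2 * dB p a) (by omega) (g a)
      refine ⟨0, ?_⟩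
      have h4 : ((stdEven 𝒯).S (dB p a) ◁ z)⟦k⟧' ≫ fm (tensorLeft ((stdEven 𝒯).S (dB p a))) φ =
          fm (tensorLeft ((stdEven 𝒯).S (dB p a))) (z⟦k⟧' ≫ φ) :=
        (shift_fm (tensorLeft ((stdEven 𝒯).S (dB p a))) z φ).symm
      have h5 : fm (tensorLeft ((stdEven 𝒯).S (dB p a))) (z⟦k⟧' ≫ φ) = 0 := by
        rw [h _ (by omega) z]
        change _ ≫ (stdEven 𝒯).S (dB p a) ◁ (0 : _ ⟶ _) = 0
        rw [MonoidalPreadditive.whiskerLeft_zero, comp_zero]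
      rw [Functor.map_comp, Category.assoc, rb_fm hφ, hz, Functor.map_comp, Category.assoc,
        reassoc_of% h4, h5, zero_comp, comp_zero, zero_comp]
  choose y hy using h1
  refine ⟨∑ j ∈ s, y j, ?_⟩
  rw [hg, Functor.map_sum, Preadditive.sum_comp, Preadditive.sum_comp]
  exact Finset.sum_congr rfl fun j _ => hy j

/-- **the lowest coordinates are primitive** -/
theorem low_prim (hD : MUUniv e D) (hb : IsBPMon p b) {X : 𝒯} (hX : EE p X) {k c : ℤ}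
    (a : B⟦k⟧ ⟶ X) (h : ∀ E, dT p E < c → gc rfl (β.τ E) (fm (tensorLeft B) a) = 0)
    (z : (𝟙_ 𝒯)⟦c⟧ ⟶ B ⊗ B) :
    (z⟦k⟧' ≫ fm (tensorLeft B) a) ≫ unitMap B (B ⊗ X) =
      (z⟦k⟧' ≫ fm (tensorLeft B) a) ≫ (B ◁ unitMap B X) := by
  have hl : IsLin (ModStr.free B B) (ModStr.free B X) (fm (tensorLeft B) a) := by
    rw [← ext_unit_free]
    exact ext_isLin _ _
  have h1 := fun (j : ℤ) (hj : j < c) (z : (𝟙_ 𝒯)⟦j⟧ ⟶ B ⊗ B) =>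
    low1 β (hX.tensB hD hb).pc (ModStr.free B X) hl h hj z
  obtain ⟨y, hy⟩ := low2 hD hb (ModStr.free B X) hl h1 (z ≫ (B ◁ unitMap B B))
  have h2 : (B ◁ unitMap B B)⟦k⟧' ≫ fm (tensorLeft B) (fm (tensorLeft B) a) =
      fm (tensorLeft B) a ≫ (B ◁ unitMap B X) := by
    have h3 : fm (tensorLeft B) ((unitMap B B)⟦k⟧' ≫ fm (tensorLeft B) a) =
        (B ◁ unitMap B B)⟦k⟧' ≫ fm (tensorLeft B) (fm (tensorLeft B) a) := shift_fm _ _ _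
    rw [← h3, unit_fm, fm_comp]
    rfl
  have h4 : (z⟦k⟧' ≫ fm (tensorLeft B) a) ≫ (B ◁ unitMap B X) = y ≫ unitMap B (B ⊗ X) := by
    rw [← hy, Functor.map_comp, Category.assoc, Category.assoc, h2]
  have h5 : z⟦k⟧' ≫ fm (tensorLeft B) a = y := by
    have h6 : (z⟦k⟧' ≫ fm (tensorLeft B) a) ≫ (B ◁ unitMap B X) ≫ mulMap B X =
        y ≫ unitMap B (B ⊗ X) ≫ mulMap B X := by
      rw [← Category.assoc, h4, Category.assoc]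
    rw [whiskerLeft_unitMap_mulMap, unitMap_mulMap] at h6
    exact (Category.comp_id _).symm.trans (h6.trans (Category.comp_id _))
  rw [h4, h5]

/-- **the lowest coordinates come from `X`** -/
theorem exists_low (hD : MUUniv e D) (hb : IsBPMon p b) {X : 𝒯} (hX : EE p X) {k c : ℤ}
    (a : P⟦k⟧ ⟶ X) (h : ∀ E, dT p E < c → gc (rfl : k + dT p E = k + dT p E) (β.τ E)
      (Vale.Agent.P221.T.ext (ModStr.free B X) (β.c⟦k⟧' ≫ a ≫ unitMap B X)) = 0)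
    (E : ℕ →₀ ℕ) (hE : dT p E = c) :
    ∃ x : (𝟙_ 𝒯)⟦k + c⟧ ⟶ X, PiM.of (B ⊗ X) (k + c) (x ≫ unitMap B X) =
      PiM.of (B ⊗ X) (k + dT p E) (gc (rfl : k + dT p E = k + dT p E) (β.τ E)
        (Vale.Agent.P221.T.ext (ModStr.free B X) (β.c⟦k⟧' ≫ a ≫ unitMap B X))) := by
  have h0 : Vale.Agent.P221.T.ext (ModStr.free B X) (β.c⟦k⟧' ≫ a ≫ unitMap B X) =
      fm (tensorLeft B) (β.c⟦k⟧' ≫ a) := by
    rw [← Category.assoc, ext_unit_free]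
  rw [h0] at h ⊢
  subst hE
  have h1 := low_prim β hD hb hX (β.c⟦k⟧' ≫ a) h (β.τ E)
  obtain ⟨x, hx⟩ := hX.exists_of_prim hD hb
    (y := gc (rfl : k + dT p E = k + dT p E) (β.τ E) (fm (tensorLeft B) (β.c⟦k⟧' ≫ a))) (by
      have h2 := congrArg (fun t =>
        (shiftFunctorAdd' 𝒯 (dT p E) k (k + dT p E) (by omega)).hom.app (𝟙_ 𝒯) ≫ t) h1
      unfold gc
      simp only [Category.assoc] at h2 ⊢
      exact h2)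
  exact ⟨x, by rw [hx]⟩

/-- `[B⟦k⟧, (J ⊗ X)⟦-1⟧] = 0` for even `k` -/
theorem EE.hom_shift {Z A : 𝒯} {k : ℤ} (h : ∀ w : A⟦k + 1⟧ ⟶ Z, w = 0)
    (t : A⟦k⟧ ⟶ Z⟦(-1 : ℤ)⟧) : t = 0 := by
  obtain ⟨w, hw⟩ := Vale.Agent.P221.T.gc_surj (e := -1) (k' := k + 1) (by omega) t
  rw [← hw, h w, Vale.Agent.P221.T.gc_zero_left]

include β in
/-- **`[P⟦k⟧, X] ⟶ [P⟦k⟧, B ⊗ X]` is injective** -/
theorem EE.unit_inj_P (hD : MUUniv e D) (hb : IsBPMon p b) {X : 𝒯} (hX : EE p X) {k : ℤ}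
    (a : P⟦k⟧ ⟶ X) (h : a ≫ unitMap B X = 0) : a = 0 := by
  by_cases hk : (2 : ℤ) ∣ k
  · obtain ⟨U⟩ := exists_unitCof B
    have hJ := hX.tensJ hD hb U
    obtain ⟨t, ht⟩ := Triangle.coyoneda_exact₂ _
      (inv_rot_of_distTriang _ (U.triangle_distinguished X)) a h
    have h0 : ∀ t : P⟦k⟧ ⟶ (U.J ⊗ X)⟦(-1 : ℤ)⟧, t = 0 := fun t => by
      refine β.ext_c (PComplete.shift hJ.pc (-1)) ?_
      exact (EE.hom_shift (fun w => hJ.homB hD hb (by omega) w) _).trans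
        (EE.hom_shift (fun w => hJ.homB hD hb (by omega) w) _).symm
    have h1 : t = 0 := h0 t
    rw [ht, h1]
    exact zero_comp
  · exact β.ext_c hX.pc ((hX.homB hD hb hk _).trans (hX.homB hD hb hk _).symm)

theorem exists_ext_shift {A₁ A₂ A₃ Y : 𝒯} {f : A₁ ⟶ A₂} {g : A₂ ⟶ A₃} {h : A₃ ⟶ A₁⟦(1 : ℤ)⟧}
    (hT : Triangle.mk f g h ∈ distTriang 𝒯) (k : ℤ) (h0 : ∀ w : A₃⟦k - 1⟧ ⟶ Y, w = 0)
    (x : A₁⟦k⟧ ⟶ Y) : ∃ y : A₂⟦k⟧ ⟶ Y, f⟦k⟧' ≫ y = x := by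
  have hT' := Triangle.shift_distinguished _ hT k
  let w : A₃⟦k⟧ ⟶ A₁⟦k⟧⟦(1 : ℤ)⟧ :=
    k.negOnePow • h⟦k⟧' ≫ (shiftFunctorComm 𝒯 1 k).hom.app A₁
  let g' : A₂⟦k⟧ ⟶ A₃⟦k⟧ := k.negOnePow • g⟦k⟧'
  let f' : A₁⟦k⟧ ⟶ A₂⟦k⟧ := k.negOnePow • f⟦k⟧'
  have hT'' : Triangle.mk f' g' w ∈ distTriang 𝒯 := hT'
  have h1 : ∀ u : A₃⟦k⟧⟦(-1 : ℤ)⟧ ⟶ Y, u = 0 := fun u => by
    rw [← cancel_epi ((shiftFunctorAdd' 𝒯 k (-1) (k - 1) (by omega)).hom.app A₃), comp_zero]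
    exact h0 _
  obtain ⟨y, hy⟩ : ∃ y : A₂⟦k⟧ ⟶ Y, x = f' ≫ y :=
    Triangle.yoneda_exact₂ _ (inv_rot_of_distTriang _ hT'') x (h1 _)
  refine ⟨k.negOnePow • y, ?_⟩
  rw [hy]
  change f⟦k⟧' ≫ (k.negOnePow • y) = (k.negOnePow • f⟦k⟧') ≫ y
  rw [Linear.comp_units_smul, Linear.units_smul_comp]

/-- **every element of `π_k X` extends over `P⟦k⟧`** -/
theorem EE.exists_ev (hD : MUUniv e D) (hb : IsBPMon p b) {X : 𝒯} (hX : EE p X) {k : ℤ}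
    (x : (𝟙_ 𝒯)⟦k⟧ ⟶ X) : ∃ a : P⟦k⟧ ⟶ X, (η[B] ≫ β.c)⟦k⟧' ≫ a = x := by
  by_cases hk : (2 : ℤ) ∣ k
  · obtain ⟨U⟩ := exists_unitCof B
    obtain ⟨y, hy⟩ := exists_ext_shift U.dist k (fun w => hX.homJ hD hb U (by omega) w) x
    obtain ⟨a, ha⟩ := β.exists_ext_c hX.pc y
    exact ⟨a, by rw [Functor.map_comp, Category.assoc, ha, hy]⟩
  · exact ⟨0, by rw [comp_zero, hX.ev.zero hk x]⟩

end low

end Vale.Agent.P221.H626
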