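import Vale.Agent.P221.H626.Ev2

/-!
# P221 (helper626): the system of an even `p`-complete bounded below object

* `exists_Ev` : the coordinates `Ev O (S.sys X) (PiM (B ⊗ X))`;
* `ev_surj` : restriction along the unit is onto.
-/

open CategoryTheory MonoidalCategory MonObj Limits Pretriangulated

set_option linter.unusedSectionVars false

universe u

noncomputable section

namespace Vale.Agent.P221.H626

open Vale.Agent.P251 Vale.Agent.P251.S Vale.Agent.P251.T Vale.Agent.P251.M Vale.Agent.P251.F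
  Vale.Agent.P251.I EvenSpheres Vale.Agent.P257.H80 Vale.Agent.P257.H762 Vale.Agent.P221.H246
  Vale.Agent.P221.Loc Vale.Agent.P221.E Vale.Agent.P221.E.H817
open Vale.Agent.P221.H395 (PComplete)
open Vale.Agent.P221.T (fm fm_comp shift_fm fm_assoc fm_tlMap gc comp_gc gc_map gc_comp ext_isLin
  IsLin BPS PiM zr KK GG HK dT SrcT Lead OpAlg Coor)
open Vale.Agent.P221.H460 (Ev)
open MvPolynomial (monomial)

variable {𝒯 : Type u} [Category.{0} 𝒯] [Preadditive 𝒯] [HasZeroObject 𝒯]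
    [HasShift 𝒯 ℤ] [∀ n : ℤ, (shiftFunctor 𝒯 n).Additive] [Pretriangulated 𝒯] [IsTriangulated 𝒯]
    [MonoidalCategory 𝒯] [SymmetricCategory 𝒯] [TensorTriangulated 𝒯] [MonoidalClosed 𝒯]
    [HasCoproducts.{0} 𝒯] [HasProducts.{0} 𝒯] [StableCat 𝒯]

variable {D : MUData 𝒯} {F : SpaceFunctor 𝒯} {e : F.S.obj CCF ≅ (stdEven 𝒯).L}
  {p : ℕ} [hp : Fact p.Prime] {B : 𝒯} [MonObj B] [IsCommMonObj B] {b : D.R ⟶ B} [IsMonHom b]
  {P W : 𝒯} (β : BPS p B P W)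

include β in
theorem EE.cancel_P (hD : MUUniv e D) (hb : IsBPMon p b) {X : 𝒯} (hX : EE p X) {k : ℤ}
    {a a' : P⟦k⟧ ⟶ X} (h : a ≫ unitMap B X = a' ≫ unitMap B X) : a = a' := by
  rw [← sub_eq_zero]
  refine EE.unit_inj_P β hD hb hX _ ?_
  rw [Preadditive.sub_comp, h, sub_self]

theorem EE.cancel_one (hD : MUUniv e D) (hb : IsBPMon p b) {X : 𝒯} (hX : EE p X) {k : ℤ}
    {a a' : (𝟙_ 𝒯)⟦k⟧ ⟶ X} (h : a ≫ unitMap B X = a' ≫ unitMap B X) : a = a' := by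
  rw [← sub_eq_zero]
  refine hX.unit_inj hD hb ?_
  rw [Preadditive.sub_comp, h, sub_self]

/-- **the system of an even object** -/
theorem exists_Ev (hA2 : β.SpecA2) {n : ℕ} {ld : Lead p n} {S : SrcT p n P} (O : OpAlg ld S.src)
    (hu : S.u = η[B] ≫ β.c) (hT : ∀ (m : ℤ) (g : P⟦m⟧ ⟶ P), O.T m g = β.T g)
    (hD : MUUniv e D) (hb : IsBPMon p b) {X : 𝒯} (hX : EE p X) :
    letI := β.mdl (ModStr.free B X) (hX.tensB hD hb).pc
    ∃ Z : Ev O (S.sys X) (PiM (B ⊗ X)),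
      (∀ (k : ℤ) (x : (𝟙_ 𝒯)⟦k⟧ ⟶ X), Z.e k x = PiM.of (B ⊗ X) k (x ≫ unitMap B X)) ∧
      (∀ (k : ℤ) (a : P⟦k⟧ ⟶ X) (z : GG p), Z.c k a z =
        PiM.map (β.til (ModStr.free B X) (hX.tensB hD hb).pc (a ≫ unitMap B X)) (β.ω z)) ∧
      ∀ (k : ℤ) (a : P⟦k⟧ ⟶ X) (E : ℕ →₀ ℕ), Z.c k a (monomial E 1) =
        PiM.of (B ⊗ X) (k + dT p E) (gc rfl (β.τ E)
          (Vale.Agent.P221.T.ext (ModStr.free B X) (β.c⟦k⟧' ≫ a ≫ unitMap B X))) := by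
  let := β.mdl (ModStr.free B X) (hX.tensB hD hb).pc
  obtain ⟨co, he, hc, hcE⟩ := hA2 ld S O hu hT (B ⊗ X) (ModStr.free B X) (hX.tensB hD hb).pc
  let c₁ : ∀ k : ℤ, (P⟦k⟧ ⟶ X) →+ (GG p →ₗ[KK p] PiM (B ⊗ X)) := fun k =>
    (show (P⟦k⟧ ⟶ B ⊗ X) →+ (GG p →ₗ[KK p] PiM (B ⊗ X)) from co.c k).comp
      (Preadditive.rightComp (P⟦k⟧) (unitMap B X))
  let e₁ : ∀ k : ℤ, ((𝟙_ 𝒯)⟦k⟧ ⟶ X) →+ PiM (B ⊗ X) := fun k =>
    (PiM.of (B ⊗ X) k).comp (Preadditive.rightComp ((𝟙_ 𝒯)⟦k⟧) (unitMap B X))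
  refine ⟨{
    c := c₁
    inj := ?_
    act := ?_
    e := e₁
    e_inj := ?_
    ev := ?_
    low := ?_ }, fun _ _ => rfl, fun k a z => hc k _ z, fun k a E => hcE k _ E⟩
  · intro k a a' h
    exact hX.cancel_P β hD hb (a := a) (a' := a') (co.inj k h)
  · intro k m k' h a g
    change P⟦k⟧ ⟶ X at a
    change P⟦m⟧ ⟶ P at g
    have h1 : gc h g (a ≫ unitMap B X) = gc h g a ≫ unitMap B X := gc_comp _ _ _ _
    exact (congrArg (co.c k') h1.symm).trans (co.act h (a ≫ unitMap B X) g)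
  · intro k x x' h
    exact hX.cancel_one hD hb (a := x) (a' := x') (Vale.Agent.P221.T.PiM.of_injective _ _ h)
  · intro k a
    change P⟦k⟧ ⟶ X at a
    have h1 := co.ev k (a ≫ unitMap B X)
    rw [he] at h1
    have h2 : (S.u⟦k⟧' ≫ a) ≫ unitMap B X = S.u⟦k⟧' ≫ a ≫ unitMap B X := Category.assoc _ _ _
    exact (congrArg (PiM.of (B ⊗ X) k) h2).trans h1
  · intro k c₀ a h E hE
    change P⟦k⟧ ⟶ X at a
    refine exists_low β hD hb hX a (fun E' hE' => ?_) E hE |>.imp fun x hx => hx.trans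
      (hcE k (a ≫ unitMap B X) E).symm
    apply Vale.Agent.P221.T.PiM.of_injective
    rw [map_zero, ← hcE k (a ≫ unitMap B X) E']
    exact h E' hE'

/-- **restriction along the unit is onto** -/
theorem ev_surj {n : ℕ} {S : SrcT p n P} (hu : S.u = η[B] ≫ β.c) (hD : MUUniv e D)
    (hb : IsBPMon p b) {X : 𝒯} (hX : EE p X) (k : ℤ) :
    Function.Surjective ((S.sys X).ev k) := by
  intro x
  obtain ⟨a, ha⟩ := hX.exists_ev β hD hb (k := k) x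
  refine ⟨a, ?_⟩
  change S.u⟦k⟧' ≫ a = x
  rw [hu, ha]

end Vale.Agent.P221.H626
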