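import Vale.Agent.P221.H626.PcV
import Vale.Agent.P221.H246.LocFp

/-!
# P221 (helper626): the construction `Φ`

`m : M ⟶ N`, `y : Y ⟶ N` with `M` `p`-complete. `Φ` is the homotopy pull back of `M` and of the
`p`-completion of `Y` over the `p`-completion of `N`.

* `exists_pb` : homotopy pull backs;
* `PTor C V` : `W ⊗ C = 0 ⇒ W ⊗ V = 0`;
* `OntoAt y k`;
* `exists_phi` : the construction.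
-/

open CategoryTheory MonoidalCategory Limits Pretriangulated
open Vale.Agent.P251.T Vale.Agent.P251.S

set_option linter.unusedSectionVars false

universe u

namespace Vale.Agent.P221.H626

open Vale.Agent.P221.H395 (PComplete)

variable {𝒯 : Type u} [Category.{0} 𝒯] [Preadditive 𝒯] [HasZeroObject 𝒯]
    [HasShift 𝒯 ℤ] [∀ n : ℤ, (shiftFunctor 𝒯 n).Additive] [Pretriangulated 𝒯] [IsTriangulated 𝒯]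
    [MonoidalCategory 𝒯] [SymmetricCategory 𝒯] [TensorTriangulated 𝒯] [MonoidalClosed 𝒯]
    [HasCoproducts.{0} 𝒯] [HasProducts.{0} 𝒯] [StableCat 𝒯]
  {p : ℕ}

/-! ### Homotopy pull backs -/

section pb

/-- a map of triangles: the vanishing of the third map -/
theorem exists_pb {G M N Y : 𝒯} {g : G ⟶ M} {m : M ⟶ N} {w : N ⟶ G⟦(1 : ℤ)⟧}
    (hT : Triangle.mk g m w ∈ distTriang 𝒯) (y : Y ⟶ N) :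
    ∃ (Φ : 𝒯) (g' : G ⟶ Φ) (b : Φ ⟶ Y) (a : Φ ⟶ M),
      Triangle.mk g' b (y ≫ w) ∈ distTriang 𝒯 ∧ g' ≫ a = g ∧ a ≫ m = b ≫ y := by
  obtain ⟨Φ, g', b, h⟩ := distinguished_cocone_triangle₂ (y ≫ w)
  obtain ⟨a, h1, h2⟩ := complete_distinguished_triangle_morphism₂ _ _ h hT (𝟙 G) y (by
    change (y ≫ w) ≫ (𝟙 G)⟦(1 : ℤ)⟧' = y ≫ w
    rw [CategoryTheory.Functor.map_id, Category.comp_id])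
  refine ⟨Φ, g', b, a, h, ?_, h2.symm⟩
  exact h1.trans (Category.id_comp _)

/-- the universal property (existence) -/
theorem pb_lift {G M N Y Φ : 𝒯} {g : G ⟶ M} {m : M ⟶ N} {w : N ⟶ G⟦(1 : ℤ)⟧}
    (hT : Triangle.mk g m w ∈ distTriang 𝒯) {y : Y ⟶ N} {g' : G ⟶ Φ} {b : Φ ⟶ Y} {a : Φ ⟶ M}
    (hT' : Triangle.mk g' b (y ≫ w) ∈ distTriang 𝒯) (hga : g' ≫ a = g) (hab : a ≫ m = b ≫ y)
    {A : 𝒯} (s : A ⟶ M) (t : A ⟶ Y) (hst : s ≫ m = t ≫ y) :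
    ∃ r : A ⟶ Φ, r ≫ a = s ∧ r ≫ b = t := by
  have h0 : t ≫ y ≫ w = 0 := by
    have h1 : m ≫ w = 0 := comp_distTriang_mor_zero₂₃ _ hT
    rw [← reassoc_of% hst, h1, comp_zero]
  obtain ⟨r, hr⟩ : ∃ r : A ⟶ Φ, t = r ≫ b := Triangle.coyoneda_exact₃ _ hT' t h0
  have h1 : (s - r ≫ a) ≫ m = 0 := by
    rw [Preadditive.sub_comp, Category.assoc, hab, ← reassoc_of% hr, hst, sub_self]
  obtain ⟨v, hv⟩ : ∃ v : A ⟶ G, s - r ≫ a = v ≫ g := Triangle.coyoneda_exact₂ _ hT _ h1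
  have h2 : g' ≫ b = 0 := comp_distTriang_mor_zero₁₂ _ hT'
  refine ⟨r + v ≫ g', ?_, ?_⟩
  · rw [Preadditive.add_comp, Category.assoc, hga, ← hv, add_sub_cancel]
  · rw [Preadditive.add_comp, Category.assoc, h2, comp_zero, add_zero, hr]

end pb

/-! ### `p`-power torsion objects -/

/-- `V` is built from `C` -/
def PTor (C V : 𝒯) : Prop := ∀ W : 𝒯, IsZero (W ⊗ C) → IsZero (W ⊗ V)

theorem PTor.self (C : 𝒯) : PTor C C := fun _ h => h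

theorem PTor.isIso {C V : 𝒯} (h : PTor C V) {X Y : 𝒯} (c : X ⟶ Y) (hc : IsIso (c ▷ C)) :
    IsIso (c ▷ V) := by
  obtain ⟨Q, q, w, hT⟩ := distinguished_cocone_triangle c
  have h1 := (Triangle.isZero₃_iff_isIso₁ _ ((tensorRight C).map_distinguished _ hT)).2 hc
  exact (Triangle.isZero₃_iff_isIso₁ _ ((tensorRight V).map_distinguished _ hT)).1 (h _ h1)

theorem PTor.of_thick {T : Vale.Agent.P251.St.SHCat} {C V : T.C}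
    (h : Vale.Agent.P221.St.Thick C V) : PTor C V := by
  intro W hW
  induction h with
  | base => exact hW
  | @zero Y h0 => exact (tensorLeft W).map_isZero ((IsZero.iff_id_eq_zero _).2 h0)
  | @susp k Y _ ih =>
    exact ((shiftFunctor T.C k).map_isZero ih).of_iso (((tensorLeft W).commShiftIso k).app Y)
  | cof hd _ _ ih₁ ih₂ =>
    exact (Triangle.isZero₃_iff_isIso₁ _ (dist_whiskerLeft W hd)).2 (by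
      exact ⟨0, ih₁.eq_of_src _ _, ih₂.eq_of_src _ _⟩)
  | @retract Y Y' i r hir _ ih =>
    rw [IsZero.iff_id_eq_zero] at ih ⊢
    have h1 : (W ◁ i) ≫ (W ◁ r) = 𝟙 (W ⊗ Y) := by
      rw [← MonoidalCategory.whiskerLeft_comp, show i ≫ r = 𝟙 Y from hir,
        MonoidalCategory.whiskerLeft_id]
    rw [← h1, ← Category.id_comp (W ◁ r), ih, zero_comp, comp_zero]

/-! ### The construction -/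

/-- a sufficient condition for `π_k LY ⟶ π_k LN` to be onto -/
structure OntoAt {Y N : 𝒯} (y : Y ⟶ N) (k : ℤ) : Prop where
  onto : ∀ z : (𝟙_ 𝒯)⟦k⟧ ⟶ N, ∃ x : (𝟙_ 𝒯)⟦k⟧ ⟶ Y, x ≫ y = z
  n₁ : ∀ z : (𝟙_ 𝒯)⟦k - 1⟧ ⟶ N, z = 0

/-- homotopy of shifts -/
theorem pi_shift_zero {X : 𝒯} {k m l : ℤ} (hkm : l + m = k) (h : ∀ x : (𝟙_ 𝒯)⟦l⟧ ⟶ X, x = 0)
    (x : (𝟙_ 𝒯)⟦k⟧ ⟶ X⟦m⟧) : x = 0 := by
  obtain ⟨E⟩ := Vale.Agent.P221.Loc.nonempty_homShift X k m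
  apply E.injective
  rw [map_zero]
  obtain rfl : l = k - m := by omega
  exact h _

/-- homotopy of cofibres -/
theorem pi_cof_zero {A B D : 𝒯} {f : A ⟶ B} {g : B ⟶ D} {w : D ⟶ A⟦(1 : ℤ)⟧}
    (hT : Triangle.mk f g w ∈ distTriang 𝒯) {k : ℤ} (hB : ∀ x : (𝟙_ 𝒯)⟦k⟧ ⟶ B, x = 0)
    (hA : ∀ x : (𝟙_ 𝒯)⟦k - 1⟧ ⟶ A, x = 0) (x : (𝟙_ 𝒯)⟦k⟧ ⟶ D) : x = 0 := by
  obtain ⟨z, hz⟩ : ∃ z : (𝟙_ 𝒯)⟦k⟧ ⟶ B, x = z ≫ g :=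
    Triangle.coyoneda_exact₃ _ hT x (pi_shift_zero (by ring) hA _)
  rw [hz, hB z, zero_comp]

/-- the homotopy of the fibre vanishes -/
theorem pi_fib_zero' {A B D : 𝒯} {g : A ⟶ B} {m : B ⟶ D} {w : D ⟶ A⟦(1 : ℤ)⟧}
    (hT : Triangle.mk g m w ∈ distTriang 𝒯) {k : ℤ}
    (hs : ∀ z : (𝟙_ 𝒯)⟦k + 1⟧ ⟶ D, z ≫ w = 0) (v : (𝟙_ 𝒯)⟦k⟧ ⟶ A) (hv : v ≫ g = 0) : v = 0 := by
  let e : (𝟙_ 𝒯)⟦k + 1⟧ ≅ ((𝟙_ 𝒯)⟦k⟧)⟦(1 : ℤ)⟧ :=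
    (shiftFunctorAdd' 𝒯 k 1 (k + 1) rfl).app (𝟙_ 𝒯)
  have h1 : v⟦(1 : ℤ)⟧' ≫ g⟦(1 : ℤ)⟧' = 0 := by rw [← Functor.map_comp, hv, Functor.map_zero]
  obtain ⟨t, ht⟩ : ∃ t : ((𝟙_ 𝒯)⟦k⟧)⟦(1 : ℤ)⟧ ⟶ D, v⟦(1 : ℤ)⟧' = t ≫ w :=
    Triangle.coyoneda_exact₁ _ hT _ h1
  have h2 := hs (e.hom ≫ t)
  rw [Category.assoc, ← ht] at h2
  apply (shiftFunctor 𝒯 (1 : ℤ)).map_injective
  rw [Functor.map_zero, ← cancel_epi e.hom, h2, comp_zero]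

/-- the homotopy of the fibre vanishes -/
theorem pi_fib_zero {A B D : 𝒯} {g : A ⟶ B} {m : B ⟶ D} {w : D ⟶ A⟦(1 : ℤ)⟧}
    (hT : Triangle.mk g m w ∈ distTriang 𝒯) {k : ℤ}
    (hi : ∀ x : (𝟙_ 𝒯)⟦k⟧ ⟶ B, x ≫ m = 0 → x = 0)
    (hs : ∀ z : (𝟙_ 𝒯)⟦k + 1⟧ ⟶ D, ∃ x : (𝟙_ 𝒯)⟦k + 1⟧ ⟶ B, x ≫ m = z)
    (v : (𝟙_ 𝒯)⟦k⟧ ⟶ A) : v = 0 := by
  refine pi_fib_zero' hT (fun z => ?_) v (hi _ ?_)
  · obtain ⟨x, rfl⟩ := hs z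
    have h1 : m ≫ w = 0 := comp_distTriang_mor_zero₂₃ _ hT
    rw [Category.assoc, h1, comp_zero]
  · have h1 : g ≫ m = 0 := comp_distTriang_mor_zero₁₂ _ hT
    rw [Category.assoc, h1, comp_zero]

section constr

variable {C : 𝒯} {i : 𝟙_ 𝒯 ⟶ C} {δ : C ⟶ (𝟙_ 𝒯)⟦(1 : ℤ)⟧}
  (hC : Triangle.mk ((p : ℤ) • 𝟙 (𝟙_ 𝒯)) i δ ∈ distTriang 𝒯)

/-- transport along isomorphisms -/
theorem pi_zero_of_iso {X Y A : 𝒯} (f : X ⟶ Y) [IsIso f] (h : ∀ x : A ⟶ X, x = 0) (y : A ⟶ Y) :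
    y = 0 := by
  rw [← cancel_mono (inv f), h (y ≫ inv f), zero_comp]

include hC in
/-- homotopy of completions -/
theorem pi_completion_zero {X L : 𝒯} {l : X ⟶ L} (hL : PComplete p L) (hl : IsIso (l ▷ C)) {k : ℤ}
    (h : ∀ x : (𝟙_ 𝒯)⟦k⟧ ⟶ X ⊗ C, x = 0) (x : (𝟙_ 𝒯)⟦k⟧ ⟶ L) : x = 0 :=
  hL.hom_eq_zero_of_mod hC (fun g => pi_zero_of_iso (l ▷ C) h g) x

include hC in
/-- homotopy modulo `p` -/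
theorem pi_mod_zero {X : 𝒯} {k : ℤ} (h : ∀ x : (𝟙_ 𝒯)⟦k⟧ ⟶ X, x = 0)
    (h' : ∀ x : (𝟙_ 𝒯)⟦k - 1⟧ ⟶ X, x = 0) (x : (𝟙_ 𝒯)⟦k⟧ ⟶ X ⊗ C) : x = 0 := by
  obtain ⟨u, w, hT, -⟩ := tri_pow hC X
  exact pi_cof_zero hT h h' x

include hC in
/-- **surjectivity on completions** -/
theorem onto_completion {Y N LY LN LD : 𝒯} {y : Y ⟶ N}
    {y' : LY ⟶ LN} {n' : LN ⟶ LD} {w' : LD ⟶ LY⟦(1 : ℤ)⟧}
    (hT' : Triangle.mk y' n' w' ∈ distTriang 𝒯) (hL : PComplete p LD)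
    {lY : Y ⟶ LY} {lN : N ⟶ LN} (hlN : IsIso (lN ▷ C)) (hy : lY ≫ y' = y ≫ lN)
    {k : ℤ} (h : OntoAt y k) (z : (𝟙_ 𝒯)⟦k⟧ ⟶ LN) :
    ∃ x : (𝟙_ 𝒯)⟦k⟧ ⟶ LY, x ≫ y' = z := by
  obtain ⟨uN, wN, hTN, huN⟩ := tri_pow hC N
  obtain ⟨uL, wL, hTL, huL⟩ := tri_pow hC LN
  have hnat : uN ≫ (lN ▷ C) = lN ≫ uL := by
    rw [huN, huL, Category.assoc, whisker_exchange, ← rightUnitor_inv_naturality_assoc]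
  -- one step
  have h1 : ∀ z : (𝟙_ 𝒯)⟦k⟧ ⟶ LN, ∃ (x : (𝟙_ 𝒯)⟦k⟧ ⟶ LY) (z₁ : (𝟙_ 𝒯)⟦k⟧ ⟶ LN),
      z = x ≫ y' + (p : ℤ) • z₁ := by
    intro z
    obtain ⟨v, hv⟩ : ∃ v : (𝟙_ 𝒯)⟦k⟧ ⟶ N, z ≫ uL ≫ inv (lN ▷ C) = v ≫ uN :=
      Triangle.coyoneda_exact₃ _ hTN _ (pi_shift_zero (by ring) h.n₁ _)
    obtain ⟨t, rfl⟩ := h.onto v
    have h2 : (z - (t ≫ lY) ≫ y') ≫ uL = 0 := by
      have h3 : z ≫ uL = (z ≫ uL ≫ inv (lN ▷ C)) ≫ (lN ▷ C) := by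
        simp only [Category.assoc, IsIso.inv_hom_id, Category.comp_id]
      rw [Preadditive.sub_comp, h3, hv]
      simp only [Category.assoc]
      rw [hnat, reassoc_of% hy, sub_self]
    obtain ⟨z₁, hz₁⟩ : ∃ z₁ : (𝟙_ 𝒯)⟦k⟧ ⟶ LN, z - (t ≫ lY) ≫ y' = z₁ ≫ ((p : ℤ) • 𝟙 LN) :=
      Triangle.coyoneda_exact₂ _ hTL _ h2
    refine ⟨t ≫ lY, z₁, ?_⟩
    rw [Preadditive.comp_zsmul, Category.comp_id] at hz₁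
    rw [← hz₁, add_sub_cancel]
  choose a d had using h1
  let x : ℕ → ((𝟙_ 𝒯)⟦k⟧ ⟶ LN) := fun n => Nat.rec z (fun _ y => d y) n
  have hx : ∀ n, x n ≫ n' = (p : ℤ) • (x (n + 1) ≫ n') := by
    intro n
    have h2 : y' ≫ n' = 0 := comp_distTriang_mor_zero₁₂ _ hT'
    have h3 := congrArg (· ≫ n') (had (x n))
    simp only [Preadditive.add_comp, Category.assoc, h2, comp_zero, zero_add,
      Preadditive.zsmul_comp] at h3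
    exact h3
  have h2 : z ≫ n' = 0 := hL.eq_zero_of_compat hC (fun n => x n ≫ n') hx 0
  obtain ⟨x, hx⟩ : ∃ x : (𝟙_ 𝒯)⟦k⟧ ⟶ LY, z = x ≫ y' := Triangle.coyoneda_exact₂ _ hT' z h2
  exact ⟨x, hx.symm⟩

include hC in
/-- **the construction `Φ`** -/
theorem exists_phi {M N Y : 𝒯} (hM : PComplete p M) (m : M ⟶ N) (y : Y ⟶ N) :
    ∃ (Φ : 𝒯) (a : Φ ⟶ M), PComplete p Φ ∧
      (∀ k : ℤ, OntoAt y k → ∀ z : (𝟙_ 𝒯)⟦k⟧ ⟶ M, ∃ x : (𝟙_ 𝒯)⟦k⟧ ⟶ Φ, x ≫ a = z) ∧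
      (∀ k : ℤ, (OntoAt y (k + 1) ∨ ((∀ z : (𝟙_ 𝒯)⟦k + 1⟧ ⟶ N, z = 0) ∧
          ∀ z : (𝟙_ 𝒯)⟦k⟧ ⟶ N, z = 0)) → (∀ z : (𝟙_ 𝒯)⟦k⟧ ⟶ M, z = 0) →
        (∀ z : (𝟙_ 𝒯)⟦k⟧ ⟶ Y ⊗ C, z = 0) → ∀ z : (𝟙_ 𝒯)⟦k⟧ ⟶ Φ, z = 0) ∧
      (∀ V : 𝒯, PTor C V → ∀ k : ℤ,
        (∀ x : (𝟙_ 𝒯)⟦k⟧ ⟶ M ⊗ V, x ≫ (m ▷ V) = 0 → x = 0) →
        (∀ z : (𝟙_ 𝒯)⟦k + 1⟧ ⟶ N ⊗ V, ∃ x : (𝟙_ 𝒯)⟦k + 1⟧ ⟶ M ⊗ V, x ≫ (m ▷ V) = z) →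
        (∀ z : (𝟙_ 𝒯)⟦k⟧ ⟶ Y ⊗ V, z = 0) → ∀ z : (𝟙_ 𝒯)⟦k⟧ ⟶ Φ ⊗ V, z = 0) ∧
      ∀ V : 𝒯, PTor C V → IsZero (N ⊗ V) → IsZero (Y ⊗ V) → IsIso (a ▷ V) := by
  obtain ⟨D, n, w, hT⟩ := distinguished_cocone_triangle y
  obtain ⟨LY, lY, hLY, hlY⟩ := H395.exists_completion hC Y
  obtain ⟨LN, lN, hLN, hlN⟩ := H395.exists_completion hC N
  obtain ⟨y', LD, n', w', lD, hL, hLD, hlD, hy, -, -⟩ :=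
    exists_completion_tri hC hT hLY hlY hLN hlN
  obtain ⟨G, g, v, hG⟩ := distinguished_cocone_triangle₁ (m ≫ lN)
  obtain ⟨Φ, g', b, a, hΦ, hga, hab⟩ := exists_pb hG y'
  have hLY0 : ∀ k : ℤ, (∀ z : (𝟙_ 𝒯)⟦k⟧ ⟶ Y ⊗ C, z = 0) → ∀ z : (𝟙_ 𝒯)⟦k⟧ ⟶ LY, z = 0 :=
    fun k h => pi_completion_zero hC hLY hlY h
  have honto : ∀ k : ℤ, OntoAt y k → ∀ z : (𝟙_ 𝒯)⟦k⟧ ⟶ LN, ∃ x : (𝟙_ 𝒯)⟦k⟧ ⟶ LY, x ≫ y' = z :=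
    fun k h z => onto_completion hC hL hLD hlN hy h z
  refine ⟨Φ, a, ?_, ?_, ?_, ?_, ?_⟩
  · have hPG : PComplete p G := PComplete.ext₁ (Triangle.mk g (m ≫ lN) v) hG hM hLN
    exact PComplete.ext₂ (Triangle.mk g' b (y' ≫ v)) hΦ hPG hLY
  · intro k hk z
    obtain ⟨t, ht⟩ := honto k hk (z ≫ m ≫ lN)
    obtain ⟨r, hr, -⟩ := pb_lift hG hΦ hga hab z t ht.symm
    exact ⟨r, hr⟩
  · intro k hk h1 h2 z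
    have h3 : ∀ t : (𝟙_ 𝒯)⟦k + 1⟧ ⟶ LN, ∃ x : (𝟙_ 𝒯)⟦k + 1⟧ ⟶ LY, x ≫ y' = t := by
      rcases hk with hk | ⟨hk, hk'⟩
      · exact honto _ hk
      · intro t
        refine ⟨0, ?_⟩
        rw [zero_comp]
        refine (pi_completion_zero hC hLN hlN (pi_mod_zero hC hk ?_) t).symm
        rwa [add_sub_cancel_right]
    obtain ⟨u, hu⟩ : ∃ u : (𝟙_ 𝒯)⟦k⟧ ⟶ G, z = u ≫ g' :=
      Triangle.coyoneda_exact₂ _ hΦ z (hLY0 k h2 _)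
    have h4 : u ≫ g = 0 := h1 _
    -- the class of `u` comes from `LN`
    let e : (𝟙_ 𝒯)⟦k + 1⟧ ≅ ((𝟙_ 𝒯)⟦k⟧)⟦(1 : ℤ)⟧ :=
      (shiftFunctorAdd' 𝒯 k 1 (k + 1) rfl).app (𝟙_ 𝒯)
    have h5 : u⟦(1 : ℤ)⟧' ≫ g⟦(1 : ℤ)⟧' = 0 := by rw [← Functor.map_comp, h4, Functor.map_zero]
    obtain ⟨t, ht⟩ : ∃ t : ((𝟙_ 𝒯)⟦k⟧)⟦(1 : ℤ)⟧ ⟶ LN, u⟦(1 : ℤ)⟧' = t ≫ v :=
      Triangle.coyoneda_exact₁ _ hG _ h5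
    obtain ⟨s, hs⟩ := h3 (e.hom ≫ t)
    have h6 : (y' ≫ v) ≫ g'⟦(1 : ℤ)⟧' = 0 := comp_distTriang_mor_zero₃₁ _ hΦ
    rw [hu]
    apply (shiftFunctor 𝒯 (1 : ℤ)).map_injective
    rw [Functor.map_zero, Functor.map_comp, ← cancel_epi e.hom, ht, comp_zero, Category.assoc,
      ← Category.assoc e.hom, ← hs]
    simpa using congrArg (fun q => s ≫ q) h6
  · intro V hV k hi hs h2 z
    have hN : IsIso (lN ▷ V) := hV.isIso lN hlN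
    have hY : IsIso (lY ▷ V) := hV.isIso lY hlY
    have hG' := dist_whiskerRight V hG
    have hΦ' := dist_whiskerRight V hΦ
    obtain ⟨u, hu⟩ : ∃ u : (𝟙_ 𝒯)⟦k⟧ ⟶ G ⊗ V, z = u ≫ (g' ▷ V) :=
      Triangle.coyoneda_exact₂ _ hΦ' z (pi_zero_of_iso (lY ▷ V) h2 _)
    have hu0 : u = 0 := by
      refine pi_fib_zero (A := G ⊗ V) (B := M ⊗ V) (D := LN ⊗ V) (g := g ▷ V)
        (m := (m ≫ lN) ▷ V) hG' (fun x hx => hi x ?_) (fun t => ?_) u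
      · rw [comp_whiskerRight, ← Category.assoc] at hx
        rwa [← cancel_mono (lN ▷ V), zero_comp]
      · obtain ⟨x, hx⟩ := hs (t ≫ inv (lN ▷ V))
        refine ⟨x, ?_⟩
        rw [comp_whiskerRight, reassoc_of% hx, IsIso.inv_hom_id, Category.comp_id]
    rw [hu, hu0, zero_comp]
  · intro V hV hN0 hY0
    have hN : IsIso (lN ▷ V) := hV.isIso lN hlN
    have hY : IsIso (lY ▷ V) := hV.isIso lY hlY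
    have hG' := dist_whiskerRight V hG
    have hΦ' := dist_whiskerRight V hΦ
    have h1 : IsIso (g ▷ V) := (Triangle.isZero₃_iff_isIso₁ _ hG').1 (hN0.of_iso (asIso (lN ▷ V)).symm)
    have h2 : IsIso (g' ▷ V) :=
      (Triangle.isZero₃_iff_isIso₁ _ hΦ').1 (hY0.of_iso (asIso (lY ▷ V)).symm)
    have h3 : a ▷ V = inv (g' ▷ V) ≫ (g ▷ V) := by
      rw [← hga, comp_whiskerRight, IsIso.inv_hom_id_assoc]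
    rw [h3]
    infer_instance

include hC in
/-- **the construction `Φ`, residue classes modulo `q`** -/
theorem exists_phi_cls {M N Y : 𝒯} (hM : PComplete p M) (m : M ⟶ N) (y : Y ⟶ N)
    {q i₀ T₀ : ℤ} {r : ℕ} (_hq : 3 ≤ q) (hr : 1 ≤ r) (hrq : (r : ℤ) < q)
    (hM0 : ∀ (k : ℤ) (s : ℕ), T₀ ≤ k → 1 ≤ s → s ≤ r → q ∣ k - i₀ + s →
      ∀ z : (𝟙_ 𝒯)⟦k⟧ ⟶ M, z = 0)
    (hN0 : ∀ (k : ℤ) (s : ℕ), 1 ≤ s → s ≤ r → q ∣ k - i₀ + s →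
      ∀ z : (𝟙_ 𝒯)⟦k⟧ ⟶ N, z = 0)
    (hon : ∀ k : ℤ, q ∣ k - i₀ → ∀ z : (𝟙_ 𝒯)⟦k⟧ ⟶ N, ∃ x : (𝟙_ 𝒯)⟦k⟧ ⟶ Y, x ≫ y = z)
    (hYC : ∀ k : ℤ, ¬ q ∣ k - i₀ → ∀ z : (𝟙_ 𝒯)⟦k⟧ ⟶ Y ⊗ C, z = 0) :
    ∃ (Φ : 𝒯) (a : Φ ⟶ M), PComplete p Φ ∧
      (∀ k : ℤ, q ∣ k - i₀ → ∀ z : (𝟙_ 𝒯)⟦k⟧ ⟶ M, ∃ x : (𝟙_ 𝒯)⟦k⟧ ⟶ Φ, x ≫ a = z) ∧
      (∀ (k : ℤ) (s : ℕ), T₀ ≤ k → 1 ≤ s → s ≤ r → q ∣ k - i₀ + s →
        ∀ z : (𝟙_ 𝒯)⟦k⟧ ⟶ Φ, z = 0) ∧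
      (∀ V : 𝒯, PTor C V → ∀ k : ℤ,
        (∀ x : (𝟙_ 𝒯)⟦k⟧ ⟶ M ⊗ V, x ≫ (m ▷ V) = 0 → x = 0) →
        (∀ z : (𝟙_ 𝒯)⟦k + 1⟧ ⟶ N ⊗ V, ∃ x : (𝟙_ 𝒯)⟦k + 1⟧ ⟶ M ⊗ V, x ≫ (m ▷ V) = z) →
        (∀ z : (𝟙_ 𝒯)⟦k⟧ ⟶ Y ⊗ V, z = 0) → ∀ z : (𝟙_ 𝒯)⟦k⟧ ⟶ Φ ⊗ V, z = 0) ∧
      ∀ V : 𝒯, PTor C V → IsZero (N ⊗ V) → IsZero (Y ⊗ V) → IsIso (a ▷ V) := by
  obtain ⟨Φ, a, h1, h2, h3, h4, h5⟩ := exists_phi hC hM m y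
  have hsm : ∀ a : ℤ, 0 < a → a < q → ¬ q ∣ a := fun a h h' hd => by
    have := Int.le_of_dvd h hd
    omega
  have honto : ∀ k : ℤ, q ∣ k - i₀ → OntoAt y k := fun k hk =>
    { onto := hon k hk
      n₁ := hN0 _ 1 le_rfl hr (by
        have h6 : k - 1 - i₀ + ((1 : ℕ) : ℤ) = k - i₀ := by push_cast; ring
        rwa [h6]) }
  refine ⟨Φ, a, h1, fun k hk => h2 k (honto k hk), fun k s hk hs hs' hd => ?_, h4, h5⟩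
  refine h3 k ?_ (hM0 k s hk hs hs' hd) (hYC k fun hd' => hsm s (by omega) (by omega) (by
    have h6 := dvd_sub hd hd'
    rwa [show k - i₀ + (s : ℤ) - (k - i₀) = s by ring] at h6))
  rcases Nat.lt_or_ge 1 s with h6 | h6
  · refine Or.inr ⟨hN0 _ (s - 1) (by omega) (by omega) ?_, hN0 _ s hs hs' hd⟩
    have h7 : k + 1 - i₀ + ((s - 1 : ℕ) : ℤ) = k - i₀ + s := by
      rw [Nat.cast_sub hs]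
      push_cast
      ring
    rwa [h7]
  · obtain rfl : s = 1 := by omega
    refine Or.inl (honto _ ?_)
    have h7 : k + 1 - i₀ = k - i₀ + ((1 : ℕ) : ℤ) := by push_cast; ring
    rwa [h7]

end constr

end Vale.Agent.P221.H626
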