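import Vale.Agent.P221.H626.Phi
import Vale.Agent.P221.H45.Defs

/-!
# P221 (helper626): piece [B] of the missing class theorem
-/

open CategoryTheory MonoidalCategory MonObj Limits Pretriangulated
open Vale.Agent.P251.T Vale.Agent.P251.S Vale.Agent.P251.M

set_option linter.unusedSectionVars false

universe u

noncomputable section

namespace Vale.Agent.P221.H626

open Vale.Agent.P221.H395 (PComplete)
open Vale.Agent.P221.T (gc fm)
open Vale.Agent.P221.H45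

variable {𝒯 : Type u} [Category.{0} 𝒯] [Preadditive 𝒯] [HasZeroObject 𝒯]
    [HasShift 𝒯 ℤ] [∀ n : ℤ, (shiftFunctor 𝒯 n).Additive] [Pretriangulated 𝒯] [IsTriangulated 𝒯]
    [MonoidalCategory 𝒯] [SymmetricCategory 𝒯] [TensorTriangulated 𝒯] [MonoidalClosed 𝒯]
    [HasCoproducts.{0} 𝒯] [HasProducts.{0} 𝒯] [StableCat 𝒯]
  {p : ℕ}

/-- objects on which `p ^ e = 0` -/
theorem PTor.of_pow {C : 𝒯} {i : 𝟙_ 𝒯 ⟶ C} {δ : C ⟶ (𝟙_ 𝒯)⟦(1 : ℤ)⟧}
    (hC : Triangle.mk ((p : ℤ) • 𝟙 (𝟙_ 𝒯)) i δ ∈ distTriang 𝒯) {V : 𝒯} {e : ℕ}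
    (hV : ((p : ℤ) ^ e) • 𝟙 V = 0) : PTor C V := by
  intro W hW
  have h1 := (H395.isIso_p_iff hC W).2 hW
  have h2 : IsIso ((p : ℤ) • 𝟙 (W ⊗ V)) := H395.isIso_p_map h1 (tensorRight V)
  have h3 : ((p : ℤ) ^ e) • 𝟙 (W ⊗ V) = 0 := by
    have h5 := map_zsmul ((tensorLeft W).mapAddHom (X := V) (Y := V)) ((p : ℤ) ^ e) (𝟙 _)
    change W ◁ (((p : ℤ) ^ e) • 𝟙 V) = ((p : ℤ) ^ e) • (W ◁ 𝟙 V) at h5
    rw [hV, MonoidalCategory.whiskerLeft_id, MonoidalPreadditive.whiskerLeft_zero] at h5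
    exact h5.symm
  have h4 : ∀ (n : ℕ) (x : W ⊗ V ⟶ W ⊗ V), ((p : ℤ) ^ n) • x = 0 → x = 0 := by
    intro n
    induction n with
    | zero => intro x hx; simpa using hx
    | succ n ih =>
      intro x hx
      rw [pow_succ, mul_smul] at hx
      have h6 := ih _ hx
      have h7 : x ≫ ((p : ℤ) • 𝟙 (W ⊗ V)) = 0 := by
        rw [Preadditive.comp_zsmul, Category.comp_id, h6]
      rw [← cancel_mono ((p : ℤ) • 𝟙 (W ⊗ V)), h7, zero_comp]
  rw [IsZero.iff_id_eq_zero]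
  exact h4 e _ h3

/-- the unit -/
theorem pi_ten_one {X A : 𝒯} : (∀ y : A ⟶ X ⊗ 𝟙_ 𝒯, y = 0) ↔ ∀ y : A ⟶ X, y = 0 := by
  constructor
  · intro h y
    rw [← cancel_mono (ρ_ X).inv, zero_comp]
    exact h _
  · intro h y
    rw [← cancel_mono (ρ_ X).hom, zero_comp]
    exact h _

/-- everything is torsion if the high degrees vanish -/
theorem tor_of_high {X : 𝒯} {d : ℤ} (hd : 0 < d) (g : X⟦d⟧ ⟶ X) {T : ℤ} {k : ℤ}
    (h : ∀ (i : ℕ) (k₁ : ℤ), k₁ = k + i * d → T ≤ k₁ → ∀ y : (𝟙_ 𝒯)⟦k₁⟧ ⟶ X, y = 0)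
    (y : (𝟙_ 𝒯)⟦k⟧ ⟶ X) : Tor g y := by
  have key : ∀ (n : ℕ) (i : ℕ) (k₁ : ℤ), k₁ = k + i * d → T ≤ k₁ + n * d →
      ∀ y : (𝟙_ 𝒯)⟦k₁⟧ ⟶ X, Tor g y := by
    intro n
    induction n with
    | zero =>
      intro i k₁ hk hT y
      rw [h i k₁ hk (by simpa using hT) y]
      exact Tor.zero
    | succ n ih =>
      intro i k₁ hk hT y
      refine Tor.step (k' := d + k₁) rfl y (ih (i + 1) _ ?_ ?_ _)
      · rw [hk]
        push_cast
        ring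
      · refine hT.trans (le_of_eq ?_)
        push_cast
        ring
  refine key (T - k).toNat 0 k (by simp) ?_ y
  have h1 : (T - k) ≤ ((T - k).toNat : ℤ) := Int.self_le_toNat _
  have h2 : ((T - k).toNat : ℤ) ≤ ((T - k).toNat : ℤ) * d :=
    le_mul_of_one_le_right (Int.natCast_nonneg _) (by omega)
  omega

/-- **piece [B]** -/
theorem statementB : StatementB 𝒯 := by
  intro R X _ M p hp q i₀ d w A r T C i δ hC hX hqd hd hq hr hrq hRC h0
  have hE : ∀ k k' : ℤ, q ∣ k - k' → q ∣ k → q ∣ k' := fun k k' h h' => by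
    have h1 := dvd_sub h' h
    rwa [sub_sub_cancel] at h1
  obtain ⟨r', rfl⟩ : ∃ r' : ℕ, r = r' := ⟨r.toNat, by omega⟩
  have hcl : ∀ {k s : ℤ}, q ∣ k - i₀ + s ↔ q ∣ k - (i₀ - s) := fun {k s} => by
    rw [show k - (i₀ - s) = k - i₀ + s by ring]
  obtain ⟨Φ, a, h1, h2, h3, h4, -⟩ := exists_phi_cls hC (Y := A.Y) hX A.ι A.g (i₀ := i₀) (T₀ := T)
    (r := r') hq (by omega) hrq
    (fun k s hk hs hs' hd => h0 hk (by omega) (by omega) (hcl.1 hd))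
    (fun k s hs hs' hd' => pi_ten_one.1 (A.isLoc.van (𝟙_ 𝒯) fun i k₁ hk₁ y =>
      tor_of_high hd _ (T := T) (fun j k₂ hk₂ hT => pi_ten_one.2 (h0 (s := s) hT (by omega)
        (by omega) (by
          rw [← hcl]
          have h6 : k₂ - i₀ + s = (k - i₀ + s) + d * (i + j : ℤ) := by
            rw [hk₂, hk₁]
            ring
          rw [h6]
          exact dvd_add hd' (hqd.mul_right _)))) y))
    (fun k hk z => A.onto hk z)
    (fun k hk => A.cls C (fun k => q ∣ k) hE hRC k hk)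
  exact ⟨⟨Φ, a, h1, fun {k s} hk hs hs' hd' => h3 k s.toNat hk (by omega) (by omega) (by
      rw [Int.toNat_of_nonneg (by omega)]
      exact hcl.2 hd'), fun hk x => h2 _ hk x,
    fun V e hV k hi hs hY => h4 V (PTor.of_pow hC hV) k hi hs hY⟩⟩

end Vale.Agent.P221.H626
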