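import Vale.Agent.P221.H626.Ev3

/-!
# P221 (helper626): objects with sparse homotopy

* `SpPi A X` : `π_k X = 0` unless `A k`; `QSt p A` : `A` is stable under translations by multiples of
  `2 p - 2`;
* `SpPi.homB`, `SpPi.homP` : `[B⟦k⟧, X] = 0 = [P⟦k⟧, X]` unless `A k`.
-/

open CategoryTheory MonoidalCategory MonObj Limits Pretriangulated

set_option linter.unusedSectionVars false

universe u

noncomputable section

namespace Vale.Agent.P221.H626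

open Vale.Agent.P251 Vale.Agent.P251.S Vale.Agent.P251.T Vale.Agent.P251.M Vale.Agent.P251.F
  Vale.Agent.P251.I EvenSpheres Vale.Agent.P257.H80 Vale.Agent.P257.H762 Vale.Agent.P221.H246
  Vale.Agent.P221.Loc Vale.Agent.P221.E Vale.Agent.P221.E.H817
open Vale.Agent.P221.H395 (PComplete)
open Vale.Agent.P221.T (BPS sV dT)

/-- stable under translations by multiples of `2 p - 2` -/
def QSt (p : ℕ) (A : ℤ → Prop) : Prop := ∀ k j : ℤ, A (k + (2 * (p : ℤ) - 2) * j) ↔ A k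

theorem dvd_sV (p i : ℕ) : (2 * (p : ℤ) - 2) ∣ sV p i := by
  have h1 : (p : ℤ) - 1 ∣ (p : ℤ) ^ i - 1 := sub_one_dvd_pow_sub_one (p : ℤ) i
  have h2 : 2 * ((p : ℤ) - 1) ∣ 2 * ((p : ℤ) ^ i - 1) := mul_dvd_mul_left 2 h1
  have h3 : 2 * (p : ℤ) - 2 = 2 * ((p : ℤ) - 1) := by ring
  rw [h3]
  exact h2

theorem dvd_weight (p : ℕ) (E : ℕ →₀ ℕ) :
    (2 * (p : ℤ) - 2) ∣ Finsupp.weight (fun j => sV p (j + 1)) E := by
  rw [Finsupp.weight_apply]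
  refine Finset.dvd_sum fun i _ => ?_
  change _ ∣ E i • sV p (i + 1)
  rw [nsmul_eq_mul]
  exact Dvd.dvd.mul_left (dvd_sV p (i + 1)) _

theorem dvd_dT (p : ℕ) (E : ℕ →₀ ℕ) : (2 * (p : ℤ) - 2) ∣ dT p E := dvd_weight p E

theorem QSt.of_dvd {p : ℕ} {A : ℤ → Prop} (h : QSt p A) {k m : ℤ} (hm : (2 * (p : ℤ) - 2) ∣ m) :
    A (k + m) ↔ A k := by
  obtain ⟨j, rfl⟩ := hm
  exact h k j

theorem QSt.of_dvd' {p : ℕ} {A : ℤ → Prop} (h : QSt p A) {k m : ℤ} (hm : (2 * (p : ℤ) - 2) ∣ m) :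
    A (k - m) ↔ A k := by
  rw [sub_eq_add_neg]
  exact h.of_dvd (dvd_neg.2 hm)

/-- translations -/
theorem QSt.shift {p : ℕ} {A : ℤ → Prop} (h : QSt p A) (m : ℤ) : QSt p fun k => A (k + m) := by
  intro k j
  have h1 : k + (2 * (p : ℤ) - 2) * j + m = k + m + (2 * (p : ℤ) - 2) * j := by ring
  beta_reduce
  rw [h1]
  exact h _ _

theorem QSt.or {p : ℕ} {A A' : ℤ → Prop} (h : QSt p A) (h' : QSt p A') :
    QSt p fun k => A k ∨ A' k := fun k j => or_congr (h k j) (h' k j)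

variable {𝒯 : Type u} [Category.{0} 𝒯] [Preadditive 𝒯] [HasZeroObject 𝒯]
    [HasShift 𝒯 ℤ] [∀ n : ℤ, (shiftFunctor 𝒯 n).Additive] [Pretriangulated 𝒯] [IsTriangulated 𝒯]
    [MonoidalCategory 𝒯] [SymmetricCategory 𝒯] [TensorTriangulated 𝒯] [MonoidalClosed 𝒯]
    [HasCoproducts.{0} 𝒯] [HasProducts.{0} 𝒯] [StableCat 𝒯]

/-- the homotopy is concentrated in the degrees with `A k` -/
def SpPi (A : ℤ → Prop) (X : 𝒯) : Prop := ∀ k : ℤ, ¬ A k → ∀ x : (𝟙_ 𝒯)⟦k⟧ ⟶ X, x = 0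

theorem SpPi.evPi {A : ℤ → Prop} {X : 𝒯} (h : SpPi A X) (hA : ∀ k, A k → (2 : ℤ) ∣ k) :
    EvPi X := EvPi.of_zero fun k hk x => h k (fun h1 => hk (hA k h1)) x

theorem EvPi.spPi {X : 𝒯} (h : EvPi X) : SpPi (fun k => (2 : ℤ) ∣ k) X := fun _ hk x =>
  h.zero hk x

theorem SpPi.mono {A A' : ℤ → Prop} {X : 𝒯} (h : SpPi A X) (hA : ∀ k, A k → A' k) :
    SpPi A' X := fun k hk x => h k (fun h1 => hk (hA k h1)) x

theorem SpPi.of_retract {A : ℤ → Prop} {X Y : 𝒯} (h : SpPi A X) (i : Y ⟶ X) (r : X ⟶ Y)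
    (hir : i ≫ r = 𝟙 Y) : SpPi A Y := fun k hk x => by
  have h1 : x = (x ≫ i) ≫ r := by rw [Category.assoc, hir, Category.comp_id]
  rw [h1, h k hk (x ≫ i), zero_comp]

theorem SpPi.of_iso {A : ℤ → Prop} {X Y : 𝒯} (h : SpPi A X) (i : X ≅ Y) : SpPi A Y :=
  h.of_retract i.inv i.hom i.inv_hom_id

theorem SpPi.shift {A : ℤ → Prop} {X : 𝒯} (h : SpPi A X) (m : ℤ) :
    SpPi (fun k => A (k - m)) (X⟦m⟧) := fun k hk x => by
  obtain ⟨e⟩ := nonempty_homShift X k m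
  exact e.injective ((h _ hk _).trans (h _ hk _).symm)

theorem SpPi.ext₂ {A : ℤ → Prop} {X Y Z : 𝒯} {f : X ⟶ Y} {g : Y ⟶ Z} {w : Z ⟶ X⟦(1 : ℤ)⟧}
    (hT : Triangle.mk f g w ∈ distTriang 𝒯) (hX : SpPi A X) (hZ : SpPi A Z) : SpPi A Y := by
  intro k hk y
  obtain ⟨x, hx⟩ := Triangle.coyoneda_exact₂ _ hT y (hZ k hk (y ≫ g))
  have h1 : x = 0 := hX k hk x
  rw [hx, h1]
  exact zero_comp

/-- covers -/
theorem SpPi.cov (h0 : Conn (0 : ℤ) (𝟙_ 𝒯)) {A : ℤ → Prop} {k : ℤ} {Y X : 𝒯} {c : Y ⟶ X}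
    (hc : IsCov k c) (hX : SpPi A X) : SpPi A Y := fun j hj x => by
  rcases lt_or_ge j k with h | h
  · exact BigCell.conn' h0 hc.cell _ h x
  · refine (hc.bij _ h).1 ?_
    change x ≫ c = 0 ≫ c
    exact (hX j hj _).trans (hX j hj _).symm

theorem SpPi.cof (h0 : Conn (0 : ℤ) (𝟙_ 𝒯)) {A : ℤ → Prop} {k : ℤ} {Y X Q : 𝒯} {c : Y ⟶ X}
    {g : X ⟶ Q} {h : Q ⟶ Y⟦(1 : ℤ)⟧} (hc : IsCov (k + 1) c) (hX : BigCell 𝒯 k X)
    (hT : Triangle.mk c g h ∈ distTriang 𝒯) (hE : SpPi A X) : SpPi A Q := fun j hjA x => by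
  obtain ⟨h1, h2⟩ := single_cof h0 hc hX hT
  rcases lt_trichotomy j k with hj | hj | hj
  · exact BigCell.conn' h0 h1 _ hj x
  · have h3 : Conn (k + 1 + 1) (Y⟦(1 : ℤ)⟧) := (BigCell.conn' h0 hc.cell).shift 1 _ rfl
    obtain ⟨z, hz⟩ : ∃ z : (𝟙_ 𝒯)⟦j⟧ ⟶ X, x = z ≫ g :=
      Triangle.coyoneda_exact₃ _ hT x (h3 _ (by omega) _)
    rw [hz, hE j hjA z, zero_comp]
  · exact h2 _ hj x

variable {D : MUData 𝒯} {F : SpaceFunctor 𝒯} {e : F.S.obj CCF ≅ (stdEven 𝒯).L}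
  {p : ℕ} [hp : Fact p.Prime] {B : 𝒯} [MonObj B] [IsCommMonObj B] {b : D.R ⟶ B} [IsMonHom b]

theorem evCl_sp (h0 : Conn (0 : ℤ) (𝟙_ 𝒯)) (A : ℤ → Prop) :
    EvCl (fun X : 𝒯 => SpPi A X ∧ PComplete p X) := by
  have h1 := evCl_pc (𝒯 := 𝒯) (p := p) h0
  exact ⟨fun hc hX => ⟨hX.1.cov h0 hc, h1.cov hc hX.2⟩,
    fun hc hk hT hX => ⟨hX.1.cof h0 hc hk hT, h1.cof hc hk hT hX.2⟩⟩

/-- maps from `W` to sparse `p`-complete objects vanish if they do for modules -/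
theorem SpPi.hom_zero (D : MUData 𝒯) {A : ℤ → Prop} {W : 𝒯} (hW : ∀ E : 𝒯, SpPi A E →
      PComplete p E → (∃ k, BigCell 𝒯 k E ∧ ∀ j, k < j → ∀ x : (𝟙_ 𝒯)⟦j⟧ ⟶ E, x = 0) →
      ∀ u : W ⟶ E, u = 0)
    {X : 𝒯} (hX : SpPi A X) (hc : PComplete p X) {m : ℤ} (hm : Conn m X) (f : W ⟶ X) : f = 0 := by
  have h1 : f ≫ (λ_ X).inv = 0 := by
    refine hom_zero_of_single D.conn_unit (evCl_sp (p := p) D.conn_unit A) (𝟙_ 𝒯) (fun k Z _ hk =>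
      (BigCell.conn' D.conn_unit hk).of_iso (λ_ Z).symm) (fun j E hE hk hk' u => ?_)
      ⟨hX, hc⟩ (bigCell_of_conn D.conn_unit hm) (f ≫ (λ_ X).inv)
    have h2 : u ≫ (λ_ E).hom = 0 := hW E hE.1 hE.2 ⟨j, hk, hk'⟩ _
    rw [← cancel_mono (λ_ E).hom, h2, zero_comp]
  rw [← cancel_mono (λ_ X).inv, h1, zero_comp]

/-- `[B⟦k⟧, Y] = 0` for a sparse module `Y` -/
theorem homB_mod' (hD : MUUniv e D) (hb : IsBPMon p b) {A : ℤ → Prop} (hA : QSt p A) {Y : 𝒯}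
    (M : ModStr B Y) (hY : SpPi A Y) {k : ℤ} (hk : ¬ A k) (f : B⟦k⟧ ⟶ Y) : f = 0 := by
  refine (tau_basis hD hb M k fun _ => 0).unique (fun E => ?_) fun E => ?_
  · exact hY _ (fun h => hk ((hA.of_dvd (dvd_dT p E)).1 h)) _
  · exact hY _ (fun h => hk ((hA.of_dvd (dvd_dT p E)).1 h)) _

/-- **`[B⟦k⟧, X] = 0` unless `A k`** -/
theorem SpPi.homB (hD : MUUniv e D) (hb : IsBPMon p b) {A : ℤ → Prop} (hA : QSt p A) {X : 𝒯}
    (hX : SpPi A X) (hc : PComplete p X) {m : ℤ} (hm : Conn m X) {k : ℤ} (hk : ¬ A k)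
    (f : B⟦k⟧ ⟶ X) : f = 0 := by
  refine SpPi.hom_zero D (fun E hE hEc hE' u => ?_) hX hc hm f
  obtain ⟨j, h1, h2⟩ := hE'
  obtain ⟨L⟩ := exists_mod_single hD hb hEc h1 h2
  exact homB_mod' hD hb hA L hE hk u

/-- **`[P⟦k⟧, X] = 0` unless `A k`** -/
theorem SpPi.homP {P W : 𝒯} (β : BPS p B P W) (hD : MUUniv e D) (hb : IsBPMon p b)
    {A : ℤ → Prop} (hA : QSt p A) {X : 𝒯}
    (hX : SpPi A X) (hc : PComplete p X) {m : ℤ} (hm : Conn m X) {k : ℤ} (hk : ¬ A k)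
    (f : P⟦k⟧ ⟶ X) : f = 0 :=
  β.ext_c hc ((hX.homB hD hb hA hc hm hk _).trans (hX.homB hD hb hA hc hm hk _).symm)

end Vale.Agent.P221.H626
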