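import Vale.Agent.P221.H626.CTop
import Vale.Agent.P221.H45.CmpC

/-!
# P221 (helper626): piece [C]
-/

open CategoryTheory MonoidalCategory MonObj Limits Pretriangulated
open Vale.Agent.P251.T Vale.Agent.P251.M Vale.Agent.P251.S

set_option linter.unusedSectionVars false

universe u

namespace Vale.Agent.P221.H626

variable {𝒯 : Type u} [Category.{0} 𝒯] [Preadditive 𝒯] [HasZeroObject 𝒯]
    [HasShift 𝒯 ℤ] [∀ n : ℤ, (shiftFunctor 𝒯 n).Additive] [Pretriangulated 𝒯] [IsTriangulated 𝒯]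
    [MonoidalCategory 𝒯] [SymmetricCategory 𝒯] [TensorTriangulated 𝒯] [MonoidalClosed 𝒯]
    [HasCoproducts.{0} 𝒯] [HasProducts.{0} 𝒯] [StableCat 𝒯]

/-- **[C]** -/
theorem statementC : H45.StatementC 𝒯 :=
  H45.statementC_of fun _ _ _ _ M _ _ _ _ _ hw _ y => tor_diff M hw y

end Vale.Agent.P221.H626
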