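import Vale.Agent.P221.H817.Col
import Vale.Agent.P221.Loc.Pc

/-!
# P221 (helper626): dévissage along connective covers

* `lift_zero` : if every map `W ⟶ Y s` lifts to `Y (s + 1)`, and the `Y s` are more and more connected,
  every map `W ⟶ Y 0` is zero;
* `EvCl` : classes of objects closed under connective covers and cofibres of covers;
* `hom_zero_of_single` : maps `W ⟶ A ⊗ X` vanish if they do for `X` with a single homotopy group.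
-/

open CategoryTheory MonoidalCategory MonObj Limits Pretriangulated

set_option linter.unusedSectionVars false

universe u

noncomputable section

namespace Vale.Agent.P221.H626

open Vale.Agent.P251.T Vale.Agent.P251.S Vale.Agent.P251.H Vale.Agent.P251.M
  Vale.Agent.P251.I Vale.Agent.P257.H762 Vale.Agent.P221.H136 Vale.Agent.P221.Loc

variable {𝒯 : Type u} [Category.{0} 𝒯] [Preadditive 𝒯] [HasZeroObject 𝒯]
    [HasShift 𝒯 ℤ] [∀ n : ℤ, (shiftFunctor 𝒯 n).Additive] [Pretriangulated 𝒯] [IsTriangulated 𝒯]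
    [MonoidalCategory 𝒯] [SymmetricCategory 𝒯] [TensorTriangulated 𝒯] [MonoidalClosed 𝒯]
    [HasCoproducts.{0} 𝒯] [HasProducts.{0} 𝒯] [StableCat 𝒯]

/-- the homotopy limit of a tower of more and more connected objects is zero -/
theorem hol_zero' {Y : ℕ → 𝒯} (f : ∀ s, Y (s + 1) ⟶ Y s) {c : ℤ}
    (hY : ∀ s : ℕ, Conn (c + s) (Y s)) (H : Hol f) : IsZero H.obj := by
  have key : ∀ (n : ℤ) (s : ℕ), n < c + s → ∀ x : (𝟙_ 𝒯)⟦n⟧ ⟶ Y s, x = 0 :=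
    fun n s hn x => hY s n hn x
  have pz : ∀ V : 𝒯, (∃ s₀ : ℕ, ∀ s, s₀ ≤ s → ∀ x : V ⟶ Y s, x = 0) →
      ProZero (A := fun s => (V ⟶ Y s)) (homTower V f) := by
    rintro V ⟨s₀, hs₀⟩ s
    refine ⟨max s s₀, le_max_left _ _, ?_⟩
    ext x
    have hx : x = 0 := hs₀ _ (le_max_right _ _) x
    rw [hx, map_zero, map_zero]
  refine isZero_of_forall_conn StableCat.generator fun _ n _ g => ?_
  refine H.hom_eq_zero (pz _ ?_).lim1 (fun x hx => (pz _ ?_).compat_eq_zero hx) g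
  · refine ⟨(n + 1 - c).toNat + 1, fun s hs x => ?_⟩
    let e : ((𝟙_ 𝒯)⟦n⟧)⟦(1 : ℤ)⟧ ≅ (𝟙_ 𝒯)⟦n + 1⟧ :=
      ((shiftFunctorAdd' 𝒯 n 1 (n + 1) rfl).app (𝟙_ 𝒯)).symm
    rw [← cancel_epi e.inv, comp_zero]
    exact key (n + 1) s (by omega) _
  · exact ⟨(n - c).toNat + 1, fun s hs x => key n s (by omega) x⟩

/-- **lifting through a tower** -/
theorem lift_zero {Y : ℕ → 𝒯} (f : ∀ s, Y (s + 1) ⟶ Y s) {c : ℤ}
    (hY : ∀ s : ℕ, Conn (c + s) (Y s)) {W : 𝒯}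
    (hW : ∀ (s : ℕ) (x : W ⟶ Y s), ∃ y : W ⟶ Y (s + 1), y ≫ f s = x) (x : W ⟶ Y 0) : x = 0 := by
  choose g hg using hW
  let z : ∀ s, (W ⟶ Y s) := fun s => Nat.rec x (fun s y => g s y) s
  have hz : HCompat f z := fun s => hg s (z s)
  obtain ⟨l, hl⟩ := (hol f).exists_lift z hz
  have h1 : x = l ≫ (hol f).π 0 := (hl 0).symm
  rw [h1, (hol_zero' f hY (hol f)).eq_of_tgt l 0, zero_comp]

/-- classes of objects closed under covers and the cofibres of covers -/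
structure EvCl (P : 𝒯 → Prop) : Prop where
  cov : ∀ {k : ℤ} {Y X : 𝒯} {c : Y ⟶ X}, IsCov k c → P X → P Y
  cof : ∀ {k : ℤ} {Y X Q : 𝒯} {c : Y ⟶ X} {g : X ⟶ Q} {h : Q ⟶ Y⟦(1 : ℤ)⟧}, IsCov (k + 1) c →
    BigCell 𝒯 k X → Triangle.mk c g h ∈ distTriang 𝒯 → P X → P Q

/-- the cofibre of the `k + 1`-connective cover of an object with cells in dimensions `≥ k` -/
theorem single_cof (h0 : Conn (0 : ℤ) (𝟙_ 𝒯)) {k : ℤ} {Y X Q : 𝒯} {c : Y ⟶ X} {g : X ⟶ Q}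
    {h : Q ⟶ Y⟦(1 : ℤ)⟧} (hc : IsCov (k + 1) c) (hX : BigCell 𝒯 k X)
    (hT : Triangle.mk c g h ∈ distTriang 𝒯) : BigCell 𝒯 k Q ∧
      ∀ j, k < j → ∀ x : (𝟙_ 𝒯)⟦j⟧ ⟶ Q, x = 0 := by
  refine ⟨bigCell_of_conn h0 (Conn.ext₃ _ hT (BigCell.conn' h0 hX)
    ((BigCell.conn' h0 hc.cell).mono (by omega))), fun j hj x => hc.cof_zero h0 hT j (by omega) x⟩

/-- **dévissage** -/
theorem hom_zero_of_single (h0 : Conn (0 : ℤ) (𝟙_ 𝒯)) {P : 𝒯 → Prop} (hP : EvCl P) (A : 𝒯)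
    (hA : ∀ (k : ℤ) (Z : 𝒯), P Z → BigCell 𝒯 k Z → Conn k (A ⊗ Z)) {W : 𝒯}
    (hW : ∀ (k : ℤ) (E : 𝒯), P E → BigCell 𝒯 k E →
      (∀ j, k < j → ∀ x : (𝟙_ 𝒯)⟦j⟧ ⟶ E, x = 0) → ∀ u : W ⟶ A ⊗ E, u = 0) {k : ℤ} {X : 𝒯}
    (hX : P X) (hk : BigCell 𝒯 k X) (x : W ⟶ A ⊗ X) : x = 0 := by
  choose Y c hc using fun (s : Σ k : ℤ, {X : 𝒯 // P X ∧ BigCell 𝒯 k X}) =>
    exists_cov (s.1 + 1) s.2.1
  let nxt : (Σ k : ℤ, {X : 𝒯 // P X ∧ BigCell 𝒯 k X}) → Σ k : ℤ, {X : 𝒯 // P X ∧ BigCell 𝒯 k X} :=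
    fun s => ⟨s.1 + 1, ⟨Y s, hP.cov (hc s) s.2.2.1, (hc s).cell⟩⟩
  let Z : ℕ → Σ k : ℤ, {X : 𝒯 // P X ∧ BigCell 𝒯 k X} := fun s =>
    Nat.rec ⟨k, ⟨X, hX, hk⟩⟩ (fun _ s => nxt s) s
  have hZ1 : ∀ s : ℕ, (Z s).1 = k + s := by
    intro s
    induction s with
    | zero => change k = k + ((0 : ℕ) : ℤ); simp
    | succ s ih => change (Z s).1 + 1 = _; rw [ih]; push_cast; ring
  refine lift_zero (Y := fun s => A ⊗ (Z s).2.1) (fun s => A ◁ (c (Z s))) (c := k) ?_ ?_ x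
  · intro s
    rw [← hZ1 s]
    exact hA _ _ (Z s).2.2.1 (Z s).2.2.2
  · intro s x
    obtain ⟨Q, g, h, hT⟩ := distinguished_cocone_triangle (c (Z s))
    obtain ⟨h1, h2⟩ := single_cof h0 (hc (Z s)) (Z s).2.2.2 hT
    have h3 : x ≫ (A ◁ g) = 0 :=
      hW _ Q (hP.cof (hc (Z s)) (Z s).2.2.2 hT (Z s).2.2.1) h1 h2 _
    obtain ⟨y, hy⟩ := Triangle.coyoneda_exact₂ _ (TensorTriangulated.distinguished A _ hT) x h3
    exact ⟨y, hy.symm⟩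

end Vale.Agent.P221.H626
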