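import Vale.Agent.P221.H128.D1
import Vale.Agent.P221.H128.D2
import Vale.Agent.P221.H626.EnvSt
import Vale.Agent.P221.H626.Phi
import Vale.Agent.P221.H377.Sys

/-!
# P221 (helper626): `(Wd)`, products of elements of the kernel of the evaluation

`X` `p`-complete with `π_m X = 0` for `m ≥ T`, `m ≡ i₀ - 1` modulo `2 p - 2`.

* `ev1 R X : ihom R X ⟶ X`, `act_ev`, `exists_hat` : `π_k (ihom R X) = [R⟦k⟧, X]`;
* `exists_rep` : `a : R⟦k⟧ ⟶ X` with `a ∘ η = 0` is `z ∘ η` ... ;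
* `wd_mem` : `δ v_j ∈ W_j` for `δ : P⟦k⟧ ⟶ X` in the kernel of the evaluation.
-/

open CategoryTheory MonoidalCategory MonObj Limits Pretriangulated

set_option linter.unusedSectionVars false

universe u

noncomputable section

namespace Vale.Agent.P221.H626

open Vale.Agent.P251 Vale.Agent.P251.S Vale.Agent.P251.T Vale.Agent.P251.M Vale.Agent.P251.F
  Vale.Agent.P251.I EvenSpheres Vale.Agent.P257.H80 Vale.Agent.P257.H762 Vale.Agent.P221.H246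
  Vale.Agent.P221.Loc Vale.Agent.P221.E Vale.Agent.P221.E.H817
open Vale.Agent.P221.H128 (evR modR uncurry_eqR uncurry_actR pComplete_ihom rData)
open Vale.Agent.P221.H45 (RData)
open Vale.Agent.P221.H395 (PComplete)
open Vale.Agent.P221.T (fm fm_comp shift_fm fm_assoc fm_tlMap gc comp_gc gc_map gc_comp ext_isLin
  IsLin BPS PiM zr KK GG HK dT SrcT Lead OpAlg Coor Ip II hat mul sV vK ext hat_isLin unit_hat)
open Vale.Agent.P221.H460 (Ev OpX)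
open Vale.Agent.P221.H377 (gm T_gm xx ofA D0 W HK_vK eta_comb)
open MvPolynomial (monomial coeff)

variable {𝒯 : Type u} [Category.{0} 𝒯] [Preadditive 𝒯] [HasZeroObject 𝒯]
    [HasShift 𝒯 ℤ] [∀ n : ℤ, (shiftFunctor 𝒯 n).Additive] [Pretriangulated 𝒯] [IsTriangulated 𝒯]
    [MonoidalCategory 𝒯] [SymmetricCategory 𝒯] [TensorTriangulated 𝒯] [MonoidalClosed 𝒯]
    [HasCoproducts.{0} 𝒯] [HasProducts.{0} 𝒯] [StableCat 𝒯]

section ihom

variable (R X : 𝒯) [MonObj R]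

/-- the evaluation at the unit of `R` -/
def ev1 : (ihom R).obj X ⟶ X := (λ_ _).inv ≫ η[R] ▷ _ ≫ evR R X

theorem act_ev : (modR R X).act ≫ ev1 R X = evR R X := by
  unfold ev1
  rw [leftUnitor_inv_naturality_assoc, whisker_exchange_assoc]
  change (λ_ _).inv ≫ η[R] ▷ _ ≫ R ◁ H128.actR R X ≫ evR R X = _
  rw [uncurry_actR, associator_inv_naturality_left_assoc, ← comp_whiskerRight_assoc,
    MonObj.one_mul]
  simp

theorem hat_ev {k : ℤ} (z : (𝟙_ 𝒯)⟦k⟧ ⟶ (ihom R).obj X) : hat (modR R X) z ≫ ev1 R X =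
    ((ρ_ R).inv)⟦k⟧' ≫ (csh R k (𝟙_ 𝒯)).inv ≫ MonoidalClosed.uncurry z := by
  unfold hat T.ext
  rw [Category.assoc, Category.assoc, act_ev, T.fm_tensorLeft, Category.assoc, uncurry_eqR]

theorem exists_hat {k : ℤ} (a : R⟦k⟧ ⟶ X) :
    ∃ z : (𝟙_ 𝒯)⟦k⟧ ⟶ (ihom R).obj X, hat (modR R X) z ≫ ev1 R X = a := by
  refine ⟨MonoidalClosed.curry ((csh R k (𝟙_ 𝒯)).hom ≫ ((ρ_ R).hom)⟦k⟧' ≫ a), ?_⟩
  rw [hat_ev, MonoidalClosed.uncurry_curry, Iso.inv_hom_id_assoc, ← Functor.map_comp_assoc,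
    Iso.inv_hom_id, CategoryTheory.Functor.map_id, Category.id_comp]

theorem hat_ev_inj {k : ℤ} {z : (𝟙_ 𝒯)⟦k⟧ ⟶ (ihom R).obj X}
    (h : hat (modR R X) z ≫ ev1 R X = 0) : z = 0 := by
  rw [hat_ev] at h
  apply MonoidalClosed.uncurry_injective
  have h1 : MonoidalClosed.uncurry (0 : (𝟙_ 𝒯)⟦k⟧ ⟶ (ihom R).obj X) = 0 := by
    rw [uncurry_eqR, MonoidalPreadditive.whiskerLeft_zero, zero_comp]
  rw [h1, ← cancel_epi (csh R k (𝟙_ 𝒯)).inv, comp_zero, ← cancel_epi (((ρ_ R).inv)⟦k⟧'), h,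
    comp_zero]

theorem unit_hat_ev {k : ℤ} (z : (𝟙_ 𝒯)⟦k⟧ ⟶ (ihom R).obj X) :
    (η[R])⟦k⟧' ≫ hat (modR R X) z ≫ ev1 R X = z ≫ ev1 R X := by
  rw [← Category.assoc, unit_hat]

end ihom

/-- **representatives** -/
theorem exists_rep {p : ℕ} {R X : 𝒯} [MonObj R] [IsCommMonObj R] {q : ℤ} (hR : RData R p q)
    (hX : PComplete p X) {T i₀ : ℤ}
    (h0 : ∀ k, T ≤ k → q ∣ k - (i₀ - 1) → ∀ y : (𝟙_ 𝒯)⟦k⟧ ⟶ X, y = 0) {k : ℤ} (hk : T ≤ k)
    (hk' : q ∣ k - i₀) (a : R⟦k⟧ ⟶ X) (ha : (η[R])⟦k⟧' ≫ a = 0) :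
    ∃ f : R⟦k⟧ ⟶ (ihom R).obj X, f ≫ ev1 R X = 0 ∧
      hat (modR R X) ((η[R])⟦k⟧' ≫ f) ≫ ev1 R X = a := by
  obtain ⟨z, rfl⟩ := exists_hat R X a
  rw [unit_hat_ev] at ha
  obtain ⟨Y, i, w, hT⟩ := distinguished_cocone_triangle₁ (ev1 R X)
  have hY : PComplete p Y :=
    PComplete.ext₁ (Triangle.mk i (ev1 R X) w) hT (pComplete_ihom R hX) hX
  obtain ⟨y, hy⟩ : ∃ y : (𝟙_ 𝒯)⟦k⟧ ⟶ Y, z = y ≫ i := Triangle.coyoneda_exact₂ _ hT z ha
  have hY0 : ∀ m, T ≤ m → q ∣ m - (i₀ - 1) → ∀ y : (𝟙_ 𝒯)⟦m⟧ ⟶ Y, y = 0 := by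
    intro m hm hm'
    refine pi_fib_zero hT (fun x _ => hat_ev_inj R X ?_) (fun x => ?_)
    · refine hR.van X hX (fun k => ¬ q ∣ k - (i₀ - 1)) (fun k j => ?_) T
        (fun k hk hk' => h0 k hk (not_not.1 hk')) m hm (not_not.2 hm') _
      have h1 : k + q * j - (i₀ - 1) = k - (i₀ - 1) + q * j := by ring
      rw [h1, dvd_add_left (dvd_mul_right _ _)]
    · obtain ⟨x', hx'⟩ := hR.ext X hX T i₀ h0 (m + 1) (by omega) (by
        have h1 : m + 1 - i₀ = m - (i₀ - 1) := by ring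
        rwa [h1]) x
      obtain ⟨z', rfl⟩ := exists_hat R X x'
      exact ⟨z', by rw [← hx', unit_hat_ev]⟩
  obtain ⟨y', hy'⟩ := hR.ext Y hY T i₀ hY0 k hk hk' y
  have h1 : i ≫ ev1 R X = 0 := comp_distTriang_mor_zero₁₂ _ hT
  refine ⟨y' ≫ i, by rw [Category.assoc, h1, comp_zero], ?_⟩
  rw [← Category.assoc ((η[R])⟦k⟧'), hy', ← hy]

section coords

variable {p n : ℕ} [hp : Fact p.Prime] {R : 𝒯} [MonObj R] [IsCommMonObj R]
  {P W₀ : 𝒯} (β : BPS p R P W₀) {ld : Lead p n} {Sc : SrcT p n P} {O : OpAlg ld Sc.src}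

/-- evaluation of linear maps on sums -/
theorem sum_coeff {M : Type} [AddCommGroup M] [Module (KK p) M] (f : GG p →ₗ[KK p] M) (z : GG p) :
    f z = ∑ E ∈ z.support, coeff E z • f (monomial E 1) := by
  conv_lhs => rw [z.as_sum, map_sum]
  refine Finset.sum_congr rfl fun E _ => ?_
  have h3 : (monomial E (coeff E z) : GG p) = coeff E z • monomial E 1 := by
    rw [MvPolynomial.smul_monomial, smul_eq_mul, _root_.mul_one]
  rw [h3, map_smul]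

/-- the coordinates of a linear map -/
theorem coord_lin (hu : Sc.u = η[R] ≫ β.c) {Z : 𝒯} (N : ModStr R Z) (hZ : PComplete p Z) :
    letI := β.mdl N hZ
    ∀ (co : Coor O (Sc.sys Z) (PiM Z) (PiM.gr Z)), (∀ k, co.e k = PiM.of Z k) →
      (∀ (k : ℤ) (a : P⟦k⟧ ⟶ Z) (E : ℕ →₀ ℕ),
        co.c k a (monomial E 1) = PiM.of Z (k + T.dT p E) (gc rfl (β.τ E) (T.ext N (β.c⟦k⟧' ≫ a)))) →
      ∀ (k : ℤ) (z : (𝟙_ 𝒯)⟦k⟧ ⟶ Z) (g : GG p),
        co.c k (β.cext hZ (hat N z)) g = coeff 0 g • PiM.of Z k z := by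
  let := β.mdl N hZ
  intro co he hc k z g
  let l : (Sc.sys Z).A k := β.cext hZ (hat N z)
  change co.c k l g = coeff 0 g • PiM.of Z k z
  have h0 : co.c k l 1 = PiM.of Z k z := by
    have h2 : (Sc.sys Z).ev k l = z := by
      change Sc.u⟦k⟧' ≫ β.cext hZ (hat N z) = z
      rw [hu, Functor.map_comp, Category.assoc, β.c_cext, unit_hat]
    rw [← co.ev, he]
    exact congrArg (PiM.of Z k) h2
  have h1 : ∀ E : ℕ →₀ ℕ, E ≠ 0 → co.c k l (monomial E 1) = 0 := by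
    intro E hE
    refine (hc k (β.cext hZ (hat N z)) E).trans ?_
    have h2 : T.ext N (hat N z) = (ModStr.self R).act⟦k⟧' ≫ hat N z := hat_isLin N z
    rw [β.c_cext, h2]
    have h3 : gc (rfl : k + T.dT p E = k + T.dT p E) (β.τ E) ((ModStr.self R).act⟦k⟧' ≫ hat N z) =
        gc rfl (β.τ E ≫ μ[R]) (hat N z) := (gc_map _ _ _ _).symm
    rw [h3, β.τ_mul E hE, T.gc_zero_left, map_zero]
  rw [sum_coeff]
  rw [Finset.sum_eq_single (0 : ℕ →₀ ℕ) (fun E _ hE => by rw [h1 E hE, smul_zero]) (fun h => by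
    rw [MvPolynomial.notMem_support_iff.1 h, zero_smul])]
  have h3 : (monomial 0 1 : GG p) = 1 := rfl
  rw [h3, h0]

/-- the right unit modulo the ideals `(v_0, …, v_{j-1})`, algebraic form -/
theorem alg_comb {S : T.Src p n} {O : OpAlg ld S} {Y : T.Sys S} {M : Type} [AddCommGroup M]
    [Module (KK p) M] {Mg : ℤ → AddSubgroup M} (co : Coor O Y M Mg) (OX : OpX O)
    (lin : ∀ k, Y.Pi k → Y.A k)
    (hlin : ∀ k z g, co.c k (lin k z) g = coeff 0 g • co.e k z) {k : ℤ} (f : Y.A k) (j : ℕ) :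
    ∃ c : ∀ b : Fin j, Y.A (k + sV p j - sV p b),
      Y.ev (k + sV p j) (Y.act rfl (lin k (Y.ev k f)) (gm OX j)) =
      Y.ev (k + sV p j) (Y.act rfl f (gm OX j)) + ∑ b : Fin j, Y.ev (k + sV p j)
          (Y.act (sub_add_cancel (k + sV p j) (sV p b)) (c b) (gm OX b)) := by
  classical
  have hev : ∀ {k k' : ℤ} (m : ℕ) (h : k + sV p m = k') (a : Y.A k),
      co.e k' (Y.ev k' (Y.act h a (gm OX m))) = co.c k a (OX.eta (vK p m)) := by
    intro k k' m h a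
    rw [co.ev, co.act, LinearMap.comp_apply, T_gm, _root_.mul_one]
  have hy : ∀ E : ℕ →₀ ℕ, ∃ g : Fin j → KK p, E ≠ 0 →
      (∀ b : Fin j, HK p (sV p j - T.dT p E - sV p b) (g b)) ∧
        coeff E (OX.eta (vK p j)) = ∑ b : Fin j, vK p b * g b := by
    intro E
    by_cases hE : E = 0
    · exact ⟨0, fun h => absurd hE h⟩
    · obtain ⟨g, h1, h2⟩ := eta_comb OX j hE
      exact ⟨g, fun _ => ⟨h1, h2⟩⟩
  choose g hg using hy
  have hz : ∀ (E : ℕ →₀ ℕ) (b : Fin j), ∃ w : Y.Pi (k + sV p j - sV p b), E ≠ 0 →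
      co.e (k + sV p j - sV p b) w = g E b • co.c k f (monomial E 1) := by
    intro E b
    by_cases hE : E = 0
    · exact ⟨0, fun h => absurd hE h⟩
    · have h1 := co.smul_mem ((hg E hE).1 b) ((co.range k (co.c k f)).1 ⟨f, rfl⟩ E)
      rw [show k + T.dT p E + (sV p j - T.dT p E - sV p b) = k + sV p j - sV p b by ring] at h1
      obtain ⟨w, hw⟩ := (co.e_range _ _).2 h1
      exact ⟨w, fun _ => hw⟩
  choose w hw using hz
  let s : Finset (ℕ →₀ ℕ) := (OX.eta (vK p j)).support.erase 0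
  let c : ∀ b : Fin j, Y.A (k + sV p j - sV p b) := fun b => -∑ E ∈ s, lin _ (w E b)
  refine ⟨c, co.e_inj _ ?_⟩
  have e1 : co.e (k + sV p j) (Y.ev (k + sV p j) (Y.act rfl (lin k (Y.ev k f)) (gm OX j))) =
      vK p j • co.e k (Y.ev k f) := by
    rw [hev, hlin, OX.eta_zero]
  have e2 : co.e (k + sV p j) (Y.ev (k + sV p j) (Y.act rfl f (gm OX j))) =
      vK p j • co.e k (Y.ev k f) +
        ∑ E ∈ s, coeff E (OX.eta (vK p j)) • co.c k f (monomial E 1) := by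
    rw [hev, sum_coeff]
    have e3 : co.c k f (monomial 0 1) = co.e k (Y.ev k f) := (co.ev k f).symm
    by_cases h0 : (0 : ℕ →₀ ℕ) ∈ (OX.eta (vK p j)).support
    · rw [← Finset.add_sum_erase _ _ h0, e3, OX.eta_zero]
    · have h1 : vK p j = 0 := by
        rw [← OX.eta_zero (vK p j)]
        exact MvPolynomial.notMem_support_iff.1 h0
      have h2 : s = (OX.eta (vK p j)).support := Finset.erase_eq_of_notMem h0
      rw [h2]
      nth_rewrite 3 [h1]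
      rw [zero_smul, zero_add]
  have e3 : ∀ b : Fin j, co.e (k + sV p j) (Y.ev (k + sV p j)
      (Y.act (sub_add_cancel (k + sV p j) (sV p b)) (c b) (gm OX b))) =
        -∑ E ∈ s, vK p b • g E b • co.c k f (monomial E 1) := by
    intro b
    rw [hev, map_neg (co.c _), map_sum (co.c _), LinearMap.neg_apply, LinearMap.sum_apply]
    congr 1
    refine Finset.sum_congr rfl fun E hE => ?_
    rw [hlin, OX.eta_zero, hw E b (Finset.ne_of_mem_erase hE)]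
  have e4 : ∑ E ∈ s, coeff E (OX.eta (vK p j)) • co.c k f (monomial E 1) =
      ∑ E ∈ s, ∑ b : Fin j, vK p b • g E b • co.c k f (monomial E 1) := by
    refine Finset.sum_congr rfl fun E hE => ?_
    rw [(hg E (Finset.ne_of_mem_erase hE)).2, Finset.sum_smul]
    refine Finset.sum_congr rfl fun b _ => ?_
    rw [mul_smul]
  rw [map_add, map_sum, e1, e2, Finset.sum_congr rfl fun b _ => e3 b, Finset.sum_neg_distrib,
    Finset.sum_comm, e4, add_neg_cancel_right]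

/-- push forward -/
def pushA (Sc : SrcT p n P) {Z X : 𝒯} (g : Z ⟶ X) (k : ℤ) : (Sc.sys Z).A k →+ (Sc.sys X).A k where
  toFun a := (show P⟦k⟧ ⟶ Z from a) ≫ g
  map_zero' := zero_comp
  map_add' _ _ := Preadditive.add_comp _ _ _ _ _ _

/-- push forward -/
def pushP (Sc : SrcT p n P) {Z X : 𝒯} (g : Z ⟶ X) (k : ℤ) :
    (Sc.sys Z).Pi k →+ (Sc.sys X).Pi k where
  toFun a := (show (𝟙_ 𝒯)⟦k⟧ ⟶ Z from a) ≫ g
  map_zero' := zero_comp
  map_add' _ _ := Preadditive.add_comp _ _ _ _ _ _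

/-- push forward of evaluations -/
theorem push_ev {Z X : 𝒯} (g : Z ⟶ X) {k m k' : ℤ} (h : k + m = k') (a : (Sc.sys Z).A k)
    (x : Sc.src.E m) : pushP Sc g k' ((Sc.sys Z).ev k' ((Sc.sys Z).act h a x)) =
      (Sc.sys X).ev k' ((Sc.sys X).act h (pushA Sc g k a) x) := by
  change (Sc.u⟦k'⟧' ≫ gc h (show P⟦m⟧ ⟶ P from x) (show P⟦k⟧ ⟶ Z from a)) ≫ g =
    Sc.u⟦k'⟧' ≫ gc h (show P⟦m⟧ ⟶ P from x) ((show P⟦k⟧ ⟶ Z from a) ≫ g)
  rw [Category.assoc, gc_comp]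

/-- **(Wd), explicit form** -/
theorem wd_exists (hu : Sc.u = η[R] ≫ β.c) (A2 : β.SpecA2)
    (hT : ∀ (m : ℤ) (g : P⟦m⟧ ⟶ P), O.T m g = β.T g) (OX : OpX O) {q : ℤ} (hR : RData R p q)
    {X : 𝒯} (hX : PComplete p X) {T₀ i₀ : ℤ}
    (h0 : ∀ k, T₀ ≤ k → q ∣ k - (i₀ - 1) → ∀ y : (𝟙_ 𝒯)⟦k⟧ ⟶ X, y = 0) {k : ℤ} (hk : T₀ ≤ k)
    (hk' : q ∣ k - i₀) (δ : (Sc.sys X).A k) (hδ : (Sc.sys X).ev k δ = 0) (j : ℕ) :
    ∃ c : ∀ b : Fin j, (Sc.sys X).A (k + sV p j - sV p b),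
      (Sc.sys X).ev (k + sV p j) ((Sc.sys X).act rfl δ (gm OX j)) =
        ∑ b : Fin j, (Sc.sys X).ev (k + sV p j)
          ((Sc.sys X).act (sub_add_cancel (k + sV p j) (sV p b)) (c b) (gm OX b)) := by
  let δ' : P⟦k⟧ ⟶ X := δ
  have hδ' : (η[R])⟦k⟧' ≫ β.c⟦k⟧' ≫ δ' = 0 := by
    have h1 : Sc.u⟦k⟧' ≫ δ' = 0 := hδ
    rwa [hu, Functor.map_comp, Category.assoc] at h1
  obtain ⟨f, hf, hf'⟩ := exists_rep hR hX h0 hk hk' (β.c⟦k⟧' ≫ δ') hδ'
  have hZ : PComplete p ((ihom R).obj X) := pComplete_ihom R hX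
  let N := modR R X
  let fP : P⟦k⟧ ⟶ (ihom R).obj X := β.cext hZ f
  have hfP : fP ≫ ev1 R X = 0 := by
    apply β.cext_unique hX
    rw [← Category.assoc, β.c_cext, hf, comp_zero]
  have hev : Sc.u⟦k⟧' ≫ fP = (η[R])⟦k⟧' ≫ f := by
    rw [hu, Functor.map_comp, Category.assoc, β.c_cext]
  have hl : β.cext hZ (hat N (Sc.u⟦k⟧' ≫ fP)) ≫ ev1 R X = δ' := by
    apply β.cext_unique hX
    rw [← Category.assoc, β.c_cext, hev, hf']
  let := β.mdl N hZ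
  obtain ⟨co, he, -, hc⟩ := A2 ld Sc O hu hT _ N hZ
  have hlin := coord_lin β hu N hZ co he hc
  let Y := Sc.sys ((ihom R).obj X)
  let F : Y.A k := fP
  let lin : ∀ k, Y.Pi k → Y.A k := fun k z => β.cext hZ (hat N z)
  obtain ⟨c, hcc⟩ := alg_comb co OX lin (fun k z g => by
    rw [he]
    exact hlin k z g) F j
  refine ⟨fun b => pushA Sc (ev1 R X) _ (c b), ?_⟩
  have h5 : pushA Sc (ev1 R X) k F = 0 := hfP
  have h6 : pushA Sc (ev1 R X) k (lin k (Y.ev k F)) = δ := hl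
  have e1 : pushP Sc (ev1 R X) (k + sV p j)
      (Y.ev (k + sV p j) (Y.act rfl (lin k (Y.ev k F)) (gm OX j))) =
      (Sc.sys X).ev (k + sV p j) ((Sc.sys X).act rfl δ (gm OX j)) :=
    (push_ev (ev1 R X) rfl (lin k (Y.ev k F)) (gm OX j)).trans
      (congrArg (fun t => (Sc.sys X).ev (k + sV p j) ((Sc.sys X).act rfl t (gm OX j))) h6)
  have e2 : pushP Sc (ev1 R X) (k + sV p j) (Y.ev (k + sV p j) (Y.act rfl F (gm OX j))) = 0 := by
    refine (push_ev (ev1 R X) rfl F (gm OX j)).trans ?_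
    rw [h5, map_zero, AddMonoidHom.zero_apply, map_zero]
  have e3 : ∀ b : Fin j, pushP Sc (ev1 R X) (k + sV p j) (Y.ev (k + sV p j)
      (Y.act (sub_add_cancel (k + sV p j) (sV p b)) (c b) (gm OX b))) =
      (Sc.sys X).ev (k + sV p j) ((Sc.sys X).act (sub_add_cancel (k + sV p j) (sV p b))
        (pushA Sc (ev1 R X) _ (c b)) (gm OX b)) := fun b =>
    push_ev (ev1 R X) _ (c b) (gm OX b)
  refine e1.symm.trans ((congrArg (pushP Sc (ev1 R X) (k + sV p j)) hcc).trans ?_)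
  refine (map_add _ _ _).trans ?_
  rw [e2, zero_add]
  exact (map_sum _ _ _).trans (Finset.sum_congr rfl fun b _ => e3 b)

/-- **(Wd)** -/
theorem wd_mem (hu : Sc.u = η[R] ≫ β.c) (A2 : β.SpecA2)
    (hT : ∀ (m : ℤ) (g : P⟦m⟧ ⟶ P), O.T m g = β.T g) (OX : OpX O) {q : ℤ} (hR : RData R p q)
    {X : 𝒯} (hX : PComplete p X) {T₀ i₀ : ℤ}
    (h0 : ∀ k, T₀ ≤ k → q ∣ k - (i₀ - 1) → ∀ y : (𝟙_ 𝒯)⟦k⟧ ⟶ X, y = 0) {k : ℤ} (hk : T₀ ≤ k)
    (hk' : q ∣ k - i₀) (δ : (Sc.sys X).A k) (hδ : (Sc.sys X).ev k δ = 0) (j : ℕ) :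
    xx OX (Sc.sys X) j (ofA (Sc.sys X) k δ) ∈
      W (D0 (Sc.sys X)) (xx OX (Sc.sys X)) (fun _ => 1) j := by
  obtain ⟨c, hc⟩ := wd_exists β hu A2 hT OX hR hX h0 hk hk' δ hδ j
  have h1 : xx OX (Sc.sys X) j (ofA (Sc.sys X) k δ) =
      ofA (Sc.sys X) (k + sV p j) ((Sc.sys X).act rfl δ (gm OX j)) := H377.opA_of _ _ _ _
  have h2 : ∀ b : Fin j, xx OX (Sc.sys X) b (ofA (Sc.sys X) (k + sV p j - sV p b) (c b)) =
      ofA (Sc.sys X) (k + sV p j)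
        ((Sc.sys X).act (sub_add_cancel (k + sV p j) (sV p b)) (c b) (gm OX b)) :=
    fun b => H377.opA_of _ _ _ _
  have h3 : xx OX (Sc.sys X) j (ofA (Sc.sys X) k δ) =
      ofA (Sc.sys X) (k + sV p j) ((Sc.sys X).act rfl δ (gm OX j) - ∑ b : Fin j,
        (Sc.sys X).act (sub_add_cancel (k + sV p j) (sV p b)) (c b) (gm OX b)) +
        ∑ b : Fin j, xx OX (Sc.sys X) b (ofA (Sc.sys X) (k + sV p j - sV p b) (c b)) := by
    rw [h1, map_sub, map_sum, Finset.sum_congr rfl fun b _ => h2 b, sub_add_cancel]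
  rw [h3]
  refine add_mem (H377.D_le_W _ (H377.of_mem_D0 _ |>.2 ?_)) (sum_mem fun b _ => ?_)
  · rw [map_sub, map_sum, hc, sub_self]
  · have h4 := H377.range_le_W (D := D0 (Sc.sys X)) (x := xx OX (Sc.sys X)) (E := fun _ => 1)
      b.2 (ofA (Sc.sys X) (k + sV p j - sV p b) (c b))
    rwa [pow_one] at h4

end coords

end Vale.Agent.P221.H626
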