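import Vale.Agent.P221.H626.Wd

/-!
# P221 (helper626): `(Wd)` at the statement layer
-/

open CategoryTheory MonoidalCategory MonObj Limits Pretriangulated

set_option linter.unusedSectionVars false

noncomputable section

namespace Vale.Agent.P221.H626

open Vale.Agent.P251 Vale.Agent.P251.S Vale.Agent.P251.T Vale.Agent.P251.M Vale.Agent.P251.F
  Vale.Agent.P251.I EvenSpheres Vale.Agent.P257.H702 Vale.Agent.P257.H80 Vale.Agent.P251.Q
  Vale.Agent.P251.St Vale.Agent.P251.St.SHCat Vale.Agent.P257.St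
  Vale.Agent.P221.H746 Vale.Agent.P093.N0 Vale.Agent.P221.V
open Vale.Agent.P221.T (KK sV)
open Vale.Agent.P221.H128 (rData)
open Vale.Agent.P221.H395 (PComplete)
open Vale.Agent.P221.H377 (xx ofA D0)

variable {T : SHCat} {S : Susp T} {p n : ℕ} [hp : Fact p.Prime]
  {R : RingSp T} {φ : GHom S p R} {B : T.C}

/-- **(Wd)** -/
theorem EnvX.wd (E : EnvX S p n φ B) {X : T.C} (hX : PComplete p X) {T₀ i₀ : ℤ}
    (h0 : ∀ k, T₀ ≤ k → (2 * p - 2 : ℤ) ∣ k - (i₀ - 1) → ∀ y : (𝟙_ T.C)⟦k⟧ ⟶ X, y = 0) {k : ℤ}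
    (hk : T₀ ≤ k) (hk' : (2 * p - 2 : ℤ) ∣ k - i₀) (δ : (E.Sc.sys X).A k)
    (hδ : (E.Sc.sys X).ev k δ = 0) (j : ℕ) :
    xx E.OX (E.Sc.sys X) j (ofA (E.Sc.sys X) k δ) ∈
      H377.W (D0 (E.Sc.sys X)) (xx E.OX (E.Sc.sys X)) (fun _ => 1) j := by
  have := E.mon
  exact wd_mem E.β E.hu (E.β.specA2) E.hT E.OX (rData E.hD E.hb) hX h0 hk hk' δ hδ j

end Vale.Agent.P221.H626
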